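import Vale.Agent.P078.Walk.Weights

/-!
# P078: the operator that kills the row

For weights `w` with square roots `sw` the block operator `killL` satisfies `R L = ρ Z R sw`, its
square has diagonal blocks `w - w R* (Z + ρ Z²) R w`, and truncating the resolvent `Z` to a finite
Neumann sum changes it by a geometrically small amount.
-/

noncomputable section

namespace Vale.Agent.P078

universe u

namespace TraceData

variable {𝔄 : Type u} [CStarAlgebra 𝔄] [PartialOrder 𝔄] [StarOrderedRing 𝔄] (T : TraceData 𝔄)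
variable {r : ℕ}

/-- The killing operator with a given approximation `Z` of the resolvent. -/
def killL (R w sw : Fin r → 𝔄) (Z : 𝔄) (c d : Fin r) : 𝔄 :=
  (if c = d then sw c else 0) - w c * star (R c) * Z * (R d * sw d)

/-- A diagonal block of `L L*`. -/
def killU (R w sw : Fin r → 𝔄) (Z : 𝔄) (c : Fin r) : 𝔄 :=
  ∑ d, killL R w sw Z c d * star (killL R w sw Z c d)

/-- The row composed with the killing operator. -/
def killRow (R w sw : Fin r → 𝔄) (Z : 𝔄) (d : Fin r) : 𝔄 := ∑ c, R c * killL R w sw Z c d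

variable {ρ : ℝ} {R w sw : Fin r → 𝔄}

/-- The hypotheses on the weights and their square roots. -/
structure RootData (R w sw : Fin r → 𝔄) : Prop where
  R_mem : ∀ c, R c ∈ T.B
  w_mem : ∀ c, w c ∈ T.D
  w_nonneg : ∀ c, 0 ≤ w c
  sw_mem : ∀ c, sw c ∈ T.D
  sw_sa : ∀ c, IsSelfAdjoint (sw c)
  sw_sq : ∀ c, sw c * sw c = w c

omit [PartialOrder 𝔄] [StarOrderedRing 𝔄] in
theorem killRow_eq (R w sw : Fin r → 𝔄) (Z : 𝔄) (d : Fin r) :
    killRow R w sw Z d = R d * sw d - gram R w * Z * (R d * sw d) := by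
  simp only [killRow, killL, mul_sub, Finset.sum_sub_distrib, mul_ite, mul_zero,
    Finset.sum_ite_eq', Finset.mem_univ, if_true, gram, Finset.sum_mul, ← mul_assoc]

omit [PartialOrder 𝔄] [StarOrderedRing 𝔄] in
theorem killRow_res_aux (Z : 𝔄) (h : gram R w * Z = 1 - ρ • Z) (d : Fin r) :
    killRow R w sw Z d = ρ • (Z * (R d * sw d)) := by
  rw [killRow_eq, h, sub_mul, one_mul, sub_sub_cancel, smul_mul_assoc]

variable {T}

theorem RootData.killRow_res (h : RootData T R w sw) (hρ : 0 < ρ) (d : Fin r) :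
    killRow R w sw (res ρ R w) d = ρ • (res ρ R w * (R d * sw d)) :=
  killRow_res_aux _ (gram_mul_res hρ h.w_nonneg) d

theorem RootData.killU_res (h : RootData T R w sw) (hρ : 0 < ρ) (c : Fin r) :
    killU R w sw (res ρ R w) c
      = w c - w c * (star (R c) * (res ρ R w + ρ • (res ρ R w * res ρ R w)) * R c) * w c := by
  set Z := res ρ R w with hZdef
  have hZ : star Z = Z := (IsSelfAdjoint.of_nonneg (res_nonneg hρ h.w_nonneg)).star_eq
  have hw : star (w c) = w c := (IsSelfAdjoint.of_nonneg (h.w_nonneg c)).star_eq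
  have hsw : ∀ d, star (sw d) = sw d := fun d => (h.sw_sa d).star_eq
  have hterm : ∀ d, killL R w sw Z c d * star (killL R w sw Z c d)
      = (if c = d then w c - sw c * (sw c * star (R c)) * Z * R c * w c
          - w c * star (R c) * Z * (R c * (sw c * sw c)) else 0)
        + w c * star (R c) * Z * (R d * w d * star (R d)) * Z * R c * w c := by
    intro d
    unfold killL
    have e : star (w c * star (R c) * Z * (R d * sw d)) = sw d * star (R d) * Z * R c * w c := by
      simp only [star_mul, star_star, hZ, hw, hsw, mul_assoc]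
    rw [star_sub, e, ← h.sw_sq d]
    by_cases hcd : c = d
    · subst hcd
      rw [if_pos rfl, if_pos rfl, hsw]
      have e5 : ∀ x, sw c * (sw c * x) = w c * x := fun x => by rw [← mul_assoc, h.sw_sq c]
      simp only [mul_sub, sub_mul, mul_assoc, e5, h.sw_sq c]
      abel
    · rw [if_neg hcd, if_neg hcd, star_zero]
      simp only [zero_sub, neg_mul, mul_neg, neg_neg, zero_add, mul_assoc]
  rw [killU, Finset.sum_congr rfl fun d _ => hterm d, Finset.sum_add_distrib,
    Finset.sum_ite_eq, if_pos (Finset.mem_univ c), ← Finset.sum_mul, ← Finset.sum_mul,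
    ← Finset.sum_mul, ← Finset.mul_sum]
  have hS : Z * gram R w * Z = Z - ρ • (Z * Z) := by
    rw [res_mul_gram hρ h.w_nonneg, sub_mul, one_mul, smul_mul_assoc]
  have e2 : w c * star (R c) * Z * gram R w * Z * R c * w c
      = w c * star (R c) * (Z * gram R w * Z) * R c * w c := by simp only [mul_assoc]
  have e2' : (∑ d, R d * w d * star (R d)) = gram R w := rfl
  rw [e2', e2, hS, show sw c * (sw c * star (R c)) = sw c * sw c * star (R c) from
    (mul_assoc _ _ _).symm, h.sw_sq c]
  simp only [mul_add, mul_sub, add_mul, sub_mul, mul_assoc]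
  abel

theorem killU_nonneg (Z : 𝔄) (c : Fin r) : 0 ≤ killU R w sw Z c :=
  Finset.sum_nonneg fun d _ => mul_star_self_nonneg _

theorem RootData.killU_res_le (h : RootData T R w sw) (hρ : 0 < ρ) (c : Fin r) :
    killU R w sw (res ρ R w) c ≤ w c := by
  rw [h.killU_res hρ c]
  refine sub_le_self _ (conjugate_nonneg_of_nonneg (star_left_conjugate_nonneg ?_ _) (h.w_nonneg c))
  have hZ := res_nonneg (R := R) hρ h.w_nonneg
  refine add_nonneg hZ (smul_nonneg hρ.le ?_)
  exact mul_nonneg_of_commute hZ hZ rfl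

theorem RootData.Phi_killU (h : RootData T R w sw) (hρ : 0 < ρ) (c : Fin r) :
    T.Phi (killU R w sw (res ρ R w) c) = w c - w c * T.quad ρ R w c * w c := by
  have hq := T.quad_arg_mem hρ h.R_mem h.w_mem h.w_nonneg c
  have hwB : w c ∈ T.B := T.D_le (h.w_mem c)
  have h1 : T.Phi (w c) = w c * T.Phi 1 := by
    have := T.Phi_bimod (w c) (h.w_mem c) 1 (one_mem _) 1 (one_mem _)
    simpa using this
  rw [h.killU_res hρ c, sub_eq_add_neg, T.Phi_add _ hwB _ (neg_mem (mul_mem (mul_mem hwB hq) hwB)),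
    T.Phi_neg (mul_mem (mul_mem hwB hq) hwB), T.Phi_bimod _ (h.w_mem c) _ (h.w_mem c) _ hq,
    ← sub_eq_add_neg, h1, T.Phi_one, mul_one]
  rfl

theorem RootData.sum_tr_killRow (h : RootData T R w sw) (hρ : 0 < ρ) {u : 𝔄} (huB : u ∈ T.B)
    (hu : IsStarProjection u) (huR : ∀ c, u * R c = R c) :
    ∑ d, T.tr (killRow R w sw (res ρ R w) d * star (killRow R w sw (res ρ R w) d))
      ≤ ρ * T.tr u := by
  have hZm := T.res_mem hρ h.R_mem h.w_mem h.w_nonneg
  have hgm := T.gram_mem h.R_mem h.w_mem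
  set Z := res ρ R w with hZdef
  have hZ : star Z = Z := (IsSelfAdjoint.of_nonneg (res_nonneg hρ h.w_nonneg)).star_eq
  have hsw : ∀ d, star (sw d) = sw d := fun d => (h.sw_sa d).star_eq
  have hterm : ∀ d, killRow R w sw Z d * star (killRow R w sw Z d)
      = (ρ * ρ) • (Z * (R d * w d * star (R d)) * Z) := by
    intro d
    rw [h.killRow_res hρ d, star_smul, star_trivial, smul_mul_smul_comm, star_mul, star_mul, hZ,
      hsw, ← h.sw_sq d]
    simp only [mul_assoc]
    rfl
  have hm : ∀ d, Z * (R d * w d * star (R d)) * Z ∈ T.B := fun d =>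
    mul_mem (mul_mem hZm (mul_mem (mul_mem (h.R_mem d) (T.D_le (h.w_mem d)))
      (star_mem (h.R_mem d)))) hZm
  simp_rw [hterm]
  rw [← T.tr_sum _ _ (fun d _ => T.smul_mem_B _ (hm d)), ← Finset.smul_sum, ← Finset.sum_mul,
    ← Finset.mul_sum]
  change T.tr ((ρ * ρ) • (Z * gram R w * Z)) ≤ _
  rw [mul_smul]
  have hB : ρ • (Z * gram R w * Z) ∈ T.B := T.smul_mem_B ρ (mul_mem (mul_mem hZm hgm) hZm)
  rw [T.tr_smul ρ _ hB]
  refine mul_le_mul_of_nonneg_left ?_ hρ.le
  exact (T.tr_mono hB (mul_mem hZm hgm) (smul_res_gram_res_le hρ h.w_nonneg)).trans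
    (T.tr_res_gram_le hρ h.R_mem huB hu huR h.w_mem h.w_nonneg)

end TraceData

end Vale.Agent.P078
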