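import Mathlib

/-!
# P078: averaging over random signs

Exact averages over all choices of signs `ι → Bool`, used instead of probability.
-/

noncomputable section

namespace Vale.Agent.P078.Walk

variable {ι : Type*} [Fintype ι] [DecidableEq ι]

/-- The sign attached to a Boolean. -/
def bsign (b : Bool) : ℝ := if b then 1 else -1

theorem bsign_not (b : Bool) : bsign (!b) = -bsign b := by cases b <;> simp [bsign]

theorem bsign_sq (b : Bool) : bsign b * bsign b = 1 := by cases b <;> simp [bsign]

/-- Flipping the sign at `i`. -/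
def flipAt (i : ι) : (ι → Bool) ≃ (ι → Bool) where
  toFun f := Function.update f i (!f i)
  invFun f := Function.update f i (!f i)
  left_inv f := by ext j; by_cases h : j = i <;> simp [h]
  right_inv f := by ext j; by_cases h : j = i <;> simp [h]

theorem sum_bsign (i : ι) : ∑ f : ι → Bool, bsign (f i) = 0 := by
  have h : ∑ f : ι → Bool, bsign (f i) = ∑ f : ι → Bool, bsign (flipAt i f i) :=
    ((flipAt i).sum_comp fun f => bsign (f i)).symm
  have h2 : ∀ f : ι → Bool, bsign (flipAt i f i) = -bsign (f i) := fun f => by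
    simp [flipAt, bsign_not]
  simp_rw [h2, Finset.sum_neg_distrib] at h
  linarith

theorem sum_bsign_mul (i j : ι) :
    ∑ f : ι → Bool, bsign (f i) * bsign (f j)
      = if i = j then (Fintype.card (ι → Bool) : ℝ) else 0 := by
  split_ifs with hij
  · subst hij
    simp [bsign_sq]
  · have h : ∑ f : ι → Bool, bsign (f i) * bsign (f j)
        = ∑ f : ι → Bool, bsign (flipAt i f i) * bsign (flipAt i f j) :=
      ((flipAt i).sum_comp fun f => bsign (f i) * bsign (f j)).symm
    have h2 : ∀ f : ι → Bool, bsign (flipAt i f i) * bsign (flipAt i f j)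
        = -(bsign (f i) * bsign (f j)) := fun f => by
      simp [flipAt, bsign_not, Ne.symm hij]
    simp_rw [h2, Finset.sum_neg_distrib] at h
    linarith

variable {E : Type*} [NormedAddCommGroup E] [InnerProductSpace ℂ E]

/-- The signed sum of vectors. -/
def signSum (v : ι → E) (f : ι → Bool) : E := ∑ i, (bsign (f i) : ℂ) • v i

omit [DecidableEq ι] in
theorem map_signSum {F : Type*} [NormedAddCommGroup F] [InnerProductSpace ℂ F] (G : E →L[ℂ] F)
    (v : ι → E) (f : ι → Bool) : G (signSum v f) = signSum (fun i => G (v i)) f := by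
  simp [signSum]

theorem sum_signSum (v : ι → E) : ∑ f : ι → Bool, signSum v f = 0 := by
  simp only [signSum]
  rw [Finset.sum_comm]
  refine Finset.sum_eq_zero fun i _ => ?_
  rw [← Finset.sum_smul, ← Complex.ofReal_sum, sum_bsign i]
  simp

theorem avg_inner_signSum (v w : ι → E) :
    ∑ f : ι → Bool, inner ℂ (signSum v f) (signSum w f)
      = (Fintype.card (ι → Bool) : ℂ) * ∑ i, inner ℂ (v i) (w i) := by
  have h : ∀ f : ι → Bool, inner ℂ (signSum v f) (signSum w f)
      = ∑ i, ∑ j, ((bsign (f i) * bsign (f j) : ℝ) : ℂ) * inner ℂ (v i) (w j) := by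
    intro f
    simp only [signSum, sum_inner, inner_sum, inner_smul_left, inner_smul_right, Complex.conj_ofReal]
    simp_rw [Finset.mul_sum]
    rw [Finset.sum_comm]
    refine Finset.sum_congr rfl fun i _ => Finset.sum_congr rfl fun j _ => ?_
    push_cast
    ring
  simp_rw [h]
  rw [Finset.sum_comm, Finset.mul_sum]
  refine Finset.sum_congr rfl fun i _ => ?_
  rw [Finset.sum_comm]
  simp_rw [← Finset.sum_mul, ← Complex.ofReal_sum, sum_bsign_mul i]
  rw [Finset.sum_eq_single i]
  · simp
  · intro j _ hj
    simp [Ne.symm hj]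
  · simp

/-- Some choice of signs does at least as well as the average. -/
theorem exists_le_average {X : Type*} [Fintype X] [Nonempty X] (g : X → ℝ) {a : ℝ}
    (h : ∑ x, g x ≤ (Fintype.card X : ℝ) * a) : ∃ x, g x ≤ a := by
  obtain ⟨x, -, hx⟩ := Finset.exists_le_of_sum_le Finset.univ_nonempty
    (show ∑ x, g x ≤ ∑ _x : X, a by simpa [mul_comm] using h)
  exact ⟨x, hx⟩

end Vale.Agent.P078.Walk
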