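import Vale.Agent.P078.Std.Mult
import Vale.Agent.P078.Walk.Signs

/-!
# P078: operators on `L²(A)` that are bounded and real on the MASA

`RB G C` says that `G` maps `a Ω`, for self-adjoint `a` in the MASA, to `b Ω` with `b` self-adjoint
in the MASA and `‖b‖ ≤ C ‖a‖`. Multipliers, the maps `a ↦ E(Q a Q)` and their real algebraic
combinations have this property.
-/

noncomputable section

namespace Vale.Agent.P078

open scoped InnerProductSpace

universe u

variable {H : Type u} [NormedAddCommGroup H] [InnerProductSpace ℂ H] [CompleteSpace H]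

namespace Walk

variable (S : Std H)

/-- `G` is real and bounded on the MASA, with constant `C`. -/
structure RB (G : S.L2A →L[ℂ] S.L2A) (C : ℝ) : Prop where
  nonneg : 0 ≤ C
  maps : ∀ a ∈ S.A, IsSelfAdjoint a → ∃ b ∈ S.A, IsSelfAdjoint b ∧ ‖b‖ ≤ C * ‖a‖ ∧
    ∀ v : S.L2A, (v : H) = a S.Ω → (G v : H) = b S.Ω

variable {S} {G G' : S.L2A →L[ℂ] S.L2A} {C C' : ℝ}

theorem RB.mono (h : RB S G C) (hC : C ≤ C') : RB S G C' where
  nonneg := h.nonneg.trans hC
  maps a ha hsa := by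
    obtain ⟨b, hb, hbsa, hn, hv⟩ := h.maps a ha hsa
    exact ⟨b, hb, hbsa, hn.trans (mul_le_mul_of_nonneg_right hC (norm_nonneg a)), hv⟩

theorem rb_zero : RB S (0 : S.L2A →L[ℂ] S.L2A) 0 where
  nonneg := le_rfl
  maps a _ _ := ⟨0, zero_mem _, IsSelfAdjoint.zero _, by simp, fun _ _ => by simp⟩

theorem rb_one : RB S (1 : S.L2A →L[ℂ] S.L2A) 1 where
  nonneg := zero_le_one
  maps a ha hsa := ⟨a, ha, hsa, (one_mul ‖a‖).ge, fun v hv => hv⟩

theorem RB.add (h : RB S G C) (h' : RB S G' C') : RB S (G + G') (C + C') where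
  nonneg := add_nonneg h.nonneg h'.nonneg
  maps a ha hsa := by
    obtain ⟨b, hb, hbsa, hn, hv⟩ := h.maps a ha hsa
    obtain ⟨b', hb', hbsa', hn', hv'⟩ := h'.maps a ha hsa
    refine ⟨b + b', add_mem hb hb', hbsa.add hbsa', ?_, fun v hva => ?_⟩
    · rw [add_mul]
      exact (norm_add_le b b').trans (add_le_add hn hn')
    · simp [hv v hva, hv' v hva]

theorem RB.neg (h : RB S G C) : RB S (-G) C where
  nonneg := h.nonneg
  maps a ha hsa := by
    obtain ⟨b, hb, hbsa, hn, hv⟩ := h.maps a ha hsa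
    exact ⟨-b, neg_mem hb, hbsa.neg, by rwa [norm_neg], fun v hva => by simp [hv v hva]⟩

theorem RB.sub (h : RB S G C) (h' : RB S G' C') : RB S (G - G') (C + C') := by
  rw [sub_eq_add_neg]
  exact h.add h'.neg

theorem RB.smul (h : RB S G C) (t : ℝ) : RB S (t • G) (|t| * C) where
  nonneg := mul_nonneg (abs_nonneg t) h.nonneg
  maps a ha hsa := by
    obtain ⟨b, hb, hbsa, hn, hv⟩ := h.maps a ha hsa
    refine ⟨t • b, ?_, (IsSelfAdjoint.all t).smul hbsa, ?_, fun v hva => by simp [hv v hva]⟩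
    · rw [← Complex.coe_smul]
      exact S.smul_mem_A _ hb
    · rw [norm_smul, Real.norm_eq_abs, mul_assoc]
      exact mul_le_mul_of_nonneg_left hn (abs_nonneg t)

theorem RB.comp (h : RB S G C) (h' : RB S G' C') : RB S (G * G') (C * C') where
  nonneg := mul_nonneg h.nonneg h'.nonneg
  maps a ha hsa := by
    obtain ⟨b', hb', hbsa', hn', hv'⟩ := h'.maps a ha hsa
    obtain ⟨b, hb, hbsa, hn, hv⟩ := h.maps b' hb' hbsa'
    refine ⟨b, hb, hbsa, ?_, fun v hva => hv (G' v) (hv' v hva)⟩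
    rw [mul_assoc]
    exact hn.trans (mul_le_mul_of_nonneg_left hn' h.nonneg)

theorem RB.pow (h : RB S G C) : ∀ k : ℕ, RB S (G ^ k) (C ^ k)
  | 0 => by simpa using rb_one
  | k + 1 => by
    rw [pow_succ, pow_succ]
    exact (h.pow k).comp h

theorem rb_sum {ι : Type*} (s : Finset ι) {F : ι → S.L2A →L[ℂ] S.L2A} {D : ι → ℝ}
    (h : ∀ i ∈ s, RB S (F i) (D i)) : RB S (∑ i ∈ s, F i) (∑ i ∈ s, D i) := by
  classical
  induction s using Finset.induction with
  | empty => simpa using rb_zero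
  | insert i s hi ih =>
    rw [Finset.sum_insert hi, Finset.sum_insert hi]
    exact (h i (Finset.mem_insert_self i s)).add
      (ih fun j hj => h j (Finset.mem_insert_of_mem hj))

theorem rb_mul {b : Op H} (hb : b ∈ S.A) (hsa : IsSelfAdjoint b) : RB S (S.mul b) ‖b‖ where
  nonneg := norm_nonneg b
  maps a ha hsa' := by
    refine ⟨b * a, mul_mem hb ha, ?_, norm_mul_le b a, fun v hva => ?_⟩
    · exact hsa.commute_iff hsa' |>.mp (S.A_comm b hb a ha)
    · rw [S.mul_apply hb, hva]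
      rfl

theorem rb_T {Q : Op H} (hQ : Q ∈ S.M) (hsa : IsSelfAdjoint Q) : RB S (S.T Q Q) (‖Q‖ ^ 2) where
  nonneg := sq_nonneg _
  maps a ha hsa' := by
    have hm : Q * a * Q ∈ S.M := mul_mem (mul_mem hQ (S.A_le ha)) hQ
    refine ⟨S.exp (Q * a * Q), S.exp_mem _, S.exp_isSelfAdjoint hm ?_, ?_, fun v hva => ?_⟩
    · have := hsa'.conjugate Q
      rwa [hsa.star_eq] at this
    · refine (S.norm_exp_le hm).trans ?_
      calc ‖Q * a * Q‖ ≤ ‖Q * a‖ * ‖Q‖ := norm_mul_le _ _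
        _ ≤ ‖Q‖ * ‖a‖ * ‖Q‖ := mul_le_mul_of_nonneg_right (norm_mul_le _ _) (norm_nonneg _)
        _ = ‖Q‖ ^ 2 * ‖a‖ := by ring
    · rw [S.T_apply hQ hQ ha hva, hsa.star_eq]

theorem n2_eq_norm {a : Op H} (v : S.L2A) (hv : (v : H) = a S.Ω) : S.n2 a = ‖v‖ := by
  rw [Std.n2, ← hv]
  rfl

theorem inner_eq_tau {a b : Op H} (v w : S.L2A) (hv : (v : H) = a S.Ω) (hw : (w : H) = b S.Ω) :
    inner ℂ v w = S.tau (star a * b) := by
  rw [Submodule.coe_inner, hv, hw, S.tau_star_mul]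

/-- A self-adjoint contraction built from signs on a partition. -/
def signEl (P : S.Parti) (f : Fin P.n → Bool) : Op H := ∑ k, (bsign (f k) : ℂ) • P.p k

theorem signEl_mem (P : S.Parti) (f : Fin P.n → Bool) : signEl P f ∈ S.A :=
  sum_mem fun k _ => S.smul_mem_A _ (P.isPart.1 k).1

theorem signEl_sa (P : S.Parti) (f : Fin P.n → Bool) : IsSelfAdjoint (signEl P f) :=
  isSelfAdjoint_sum _ fun k _ => by
    rw [Complex.coe_smul]
    exact (IsSelfAdjoint.all (bsign (f k))).smul (P.isPart.1 k).2.isSelfAdjoint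

theorem signEl_sq (P : S.Parti) (f : Fin P.n → Bool) : signEl P f * signEl P f = 1 := by
  simp only [signEl, Finset.sum_mul, Finset.mul_sum, smul_mul_smul_comm, P.isPart.mul_eq_ite,
    smul_ite, smul_zero, Finset.sum_ite_eq', Finset.mem_univ, if_true, ← Complex.ofReal_mul,
    bsign_sq, Complex.ofReal_one, one_smul]
  exact P.isPart.2.2

theorem norm_signEl_le (P : S.Parti) (f : Fin P.n → Bool) : ‖signEl P f‖ ≤ 1 := by
  have h := CStarRing.norm_star_mul_self (x := signEl P f)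
  rw [(signEl_sa P f).star_eq, signEl_sq] at h
  have h1 : ‖(1 : Op H)‖ ≤ 1 := ContinuousLinearMap.norm_id_le
  nlinarith [norm_nonneg (signEl P f)]

end Walk

end Vale.Agent.P078
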