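import Vale.Agent.P078.Trace
import Vale.Agent.P078.Walk.Kill
import Vale.Agent.P078.Walk.Lift

/-!
# P078: the trace data of a standard algebra

The algebra `S.alg` with `re ktr` and the diagonal `kexp` is a `TraceData`.
-/

noncomputable section

namespace Vale.Agent.P078

universe u

variable {H : Type u} [NormedAddCommGroup H] [InnerProductSpace ℂ H] [CompleteSpace H]

namespace Walk

variable (S : Std H)

/-- The multipliers as a star subalgebra. -/
def mulAlg : StarSubalgebra ℂ (S.L2A →L[ℂ] S.L2A) where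
  carrier := {F | ∃ a ∈ S.A, S.mul a = F}
  mul_mem' := by
    rintro _ _ ⟨a, ha, rfl⟩ ⟨b, hb, rfl⟩
    exact ⟨a * b, mul_mem ha hb, S.mul_mul ha hb⟩
  one_mem' := ⟨1, one_mem _, S.mul_one⟩
  add_mem' := by
    rintro _ _ ⟨a, ha, rfl⟩ ⟨b, hb, rfl⟩
    exact ⟨a + b, add_mem ha hb, S.mul_add a b⟩
  zero_mem' := ⟨0, zero_mem _, S.mul_zero⟩
  algebraMap_mem' c := ⟨c • 1, S.smul_mem_A c (one_mem _), by
    rw [S.mul_smul, S.mul_one, Algebra.algebraMap_eq_smul_one]⟩
  star_mem' := by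
    rintro _ ⟨a, ha, rfl⟩
    exact ⟨star a, star_mem ha, S.mul_star a⟩

theorem mem_mulAlg {F : S.L2A →L[ℂ] S.L2A} : F ∈ mulAlg S ↔ ∃ a ∈ S.A, S.mul a = F := Iff.rfl

theorem isClosed_mulAlg : IsClosed (mulAlg S : Set (S.L2A →L[ℂ] S.L2A)) := by
  have : CompleteSpace S.A := S.A_isClosed.isComplete.completeSpace_coe
  let f : S.A → (S.L2A →L[ℂ] S.L2A) := fun a => S.mul (a : Op H)
  have hf : Isometry f := Isometry.of_dist_eq fun a b => by
    rw [Subtype.dist_eq, dist_eq_norm, dist_eq_norm, ← S.mul_sub]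
    exact S.norm_mul (sub_mem a.2 b.2)
  have e : (mulAlg S : Set (S.L2A →L[ℂ] S.L2A)) = Set.range f := by
    ext F
    simp only [SetLike.mem_coe, mem_mulAlg, Set.mem_range, f, Subtype.exists, exists_prop]
  rw [e]
  exact hf.isClosedEmbedding.isClosed_range

theorem mul_nonneg_iff {a : Op H} (ha : a ∈ S.A) : 0 ≤ S.mul a ↔ 0 ≤ a := by
  constructor
  · intro h
    have h1 := Std.kexp_nonneg (Std.mul_mem_alg ha) h
    rwa [Std.kexp_mul ha] at h1
  · intro h
    have hs := S.sqrt_mem_A ha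
    have hsa := S.mul_isSelfAdjoint (IsSelfAdjoint.of_nonneg (CFC.sqrt_nonneg a))
    rw [← CFC.sqrt_mul_sqrt_self a h, S.mul_mul hs hs]
    have := star_mul_self_nonneg (S.mul (CFC.sqrt a))
    rwa [hsa.star_eq] at this

theorem mul_le_mul_iff {a b : Op H} (ha : a ∈ S.A) (hb : b ∈ S.A) :
    S.mul a ≤ S.mul b ↔ a ≤ b := by
  rw [← sub_nonneg, ← S.mul_sub, mul_nonneg_iff S (sub_mem hb ha), sub_nonneg]

theorem mul_smul_real (t : ℝ) (a : Op H) : S.mul (t • a) = t • S.mul a := by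
  rw [← Complex.coe_smul, S.mul_smul]
  exact Complex.coe_smul t (S.mul a)

theorem mul_proj {a : Op H} (ha : a ∈ S.A) (hp : IsStarProjection a) :
    IsStarProjection (S.mul a) :=
  ⟨by rw [IsIdempotentElem, ← S.mul_mul ha ha, hp.isIdempotentElem.eq],
    S.mul_isSelfAdjoint hp.isSelfAdjoint⟩

/-- The trace data of `S`. -/
def stdData : TraceData (S.L2A →L[ℂ] S.L2A) where
  B := S.alg
  D := mulAlg S
  closed_B := Std.isClosed_alg
  closed_D := isClosed_mulAlg S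
  D_le := by
    rintro F ⟨a, ha, rfl⟩
    exact Std.mul_mem_alg ha
  D_comm := by
    rintro _ ⟨a, ha, rfl⟩ _ ⟨b, hb, rfl⟩
    exact S.mul_comm_mul ha hb
  tr F := (S.ktr F).re
  tr_add a ha b hb := by rw [Std.ktr_add ha hb, Complex.add_re]
  tr_smul t a ha := by rw [← Complex.coe_smul, Std.ktr_smul _ ha, Complex.re_ofReal_mul]
  tr_comm a ha b hb := by rw [Std.ktr_mul_comm ha hb]
  tr_nonneg a ha h := (Complex.nonneg_iff.mp (Std.ktr_nonneg ha h)).1
  tr_le a ha := (Complex.abs_re_le_norm _).trans (Std.norm_ktr_le ha)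
  Phi F := S.mul (S.kexp F)
  Phi_mem F _ := ⟨S.kexp F, Std.kexp_mem F, rfl⟩
  Phi_add a ha b hb := by rw [Std.kexp_add ha hb, S.mul_add]
  Phi_smul t a ha := by
    rw [← Complex.coe_smul, Std.kexp_smul _ ha, S.mul_smul]
    exact Complex.coe_smul t (S.mul (S.kexp a))
  Phi_nonneg a ha h := (mul_nonneg_iff S (Std.kexp_mem a)).mpr (Std.kexp_nonneg ha h)
  Phi_norm a ha := (S.norm_mul_le _).trans (Std.norm_kexp_le ha)
  Phi_bimod := by
    rintro _ ⟨d, hd, rfl⟩ _ ⟨e, he, rfl⟩ a ha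
    rw [Std.kexp_bimod hd he ha, S.mul_mul (mul_mem hd (Std.kexp_mem a)) he,
      S.mul_mul hd (Std.kexp_mem a)]
  tr_Phi a ha := by rw [Std.ktr_mul (Std.kexp_mem a), Std.tau_kexp ha]
  Phi_one := by rw [Std.kexp_one, S.mul_one]

theorem tr_mul_eq {a : Op H} (ha : a ∈ S.A) : (stdData S).tr (S.mul a) = (S.tau a).re := by
  change (S.ktr (S.mul a)).re = _
  rw [Std.ktr_mul ha]

end Walk

end Vale.Agent.P078
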