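import Vale.Agent.P078.Walk.State
import Vale.Agent.P078.Walk.StdData

/-!
# P078: Neumann approximation of the resolvent

A finite Neumann sum `Z` of the resolvent gives a killing operator with entries in the algebra,
real and bounded on the MASA with a constant that does not depend on the weights, whose diagonal
blocks and row are within `η` of the exact ones.
-/

noncomputable section

namespace Vale.Agent.P078

universe u

namespace TraceData

variable {𝔄 : Type u} [CStarAlgebra 𝔄] [PartialOrder 𝔄] [StarOrderedRing 𝔄] {T : TraceData 𝔄}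
variable {r : ℕ} {R w sw : Fin r → 𝔄} {ρ : ℝ}

/-- A Neumann sum for the inverse of `X`. -/
def neumann (c : ℝ) (N : ℕ) (X : 𝔄) : 𝔄 := c⁻¹ • ∑ k ∈ Finset.range N, (1 - c⁻¹ • X) ^ k

omit [PartialOrder 𝔄] [StarOrderedRing 𝔄] in
theorem mul_neumann (c : ℝ) (N : ℕ) (X : 𝔄) : X * neumann c N X = 1 - (1 - c⁻¹ • X) ^ N := by
  rw [← mul_neg_geom_sum, neumann, sub_sub_cancel, mul_smul_comm, smul_mul_assoc]

omit [PartialOrder 𝔄] [StarOrderedRing 𝔄] in
theorem norm_mul4_le (a b c d : 𝔄) : ‖a * b * c * d‖ ≤ ‖a‖ * ‖b‖ * ‖c‖ * ‖d‖ := by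
  refine (norm_mul_le _ _).trans (mul_le_mul_of_nonneg_right ?_ (norm_nonneg d))
  refine (norm_mul_le _ _).trans (mul_le_mul_of_nonneg_right ?_ (norm_nonneg c))
  exact norm_mul_le a b

omit [PartialOrder 𝔄] [StarOrderedRing 𝔄] in
theorem norm_gram_le {CR : ℝ} (hCR : 0 ≤ CR) (hR : ∀ c, ‖R c‖ ≤ CR) (hw : ∀ c, ‖w c‖ ≤ 1) :
    ‖gram R w‖ ≤ r * CR ^ 2 := by
  calc ‖gram R w‖ ≤ ∑ c, ‖R c * w c * star (R c)‖ := norm_sum_le _ _
    _ ≤ ∑ _c : Fin r, CR ^ 2 := Finset.sum_le_sum fun c _ => by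
        calc ‖R c * w c * star (R c)‖ ≤ ‖R c‖ * ‖w c‖ * ‖star (R c)‖ :=
              (norm_mul_le _ _).trans (mul_le_mul_of_nonneg_right (norm_mul_le _ _) (norm_nonneg _))
          _ ≤ CR * 1 * CR := by
              rw [norm_star]
              exact mul_le_mul (mul_le_mul (hR c) (hw c) (norm_nonneg _) hCR) (hR c)
                (norm_nonneg _) (by positivity)
          _ = CR ^ 2 := by ring
    _ = r * CR ^ 2 := by simp

theorem norm_neumann_sub_res_le (hρ : 0 < ρ) (hw : ∀ c, 0 ≤ w c) {M : ℝ}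
    (hM : ‖gram R w‖ ≤ M) (N : ℕ) :
    ‖neumann (ρ + M + 1) (N + 1) (ρ • (1 : 𝔄) + gram R w) - res ρ R w‖
      ≤ ρ⁻¹ * (1 - ρ / (ρ + M + 1)) ^ (N + 1) := by
  have hM0 : 0 ≤ M := (norm_nonneg _).trans hM
  set c := ρ + M + 1 with hc
  have hc0 : 0 < c := by positivity
  set X := ρ • (1 : 𝔄) + gram R w with hX
  set Y := 1 - c⁻¹ • X with hY
  have hu := (shift_pos (R := R) hρ hw).isUnit
  have e : neumann c (N + 1) X - res ρ R w = -(res ρ R w * Y ^ (N + 1)) := by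
    have h1 := congrArg (fun z => res ρ R w * z) (mul_neumann c (N + 1) X)
    simp only [← mul_assoc] at h1
    rw [show res ρ R w * X = 1 from Ring.inverse_mul_cancel _ hu, one_mul, mul_sub, mul_one] at h1
    rw [h1, ← hY]
    abel
  have hle : X ≤ c • (1 : 𝔄) := by
    have h := le_norm_smul_one (gram_nonneg (R := R) hw) (hM.trans (by linarith : M ≤ M + 1))
    rw [hX, hc, show ρ + M + 1 = ρ + (M + 1) by ring, add_smul ρ (M + 1)]
    exact add_le_add le_rfl h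
  have hY0 : 0 ≤ Y := by
    have := smul_le_smul_of_nonneg_left hle (inv_nonneg.mpr hc0.le)
    rw [smul_smul, inv_mul_cancel₀ hc0.ne', one_smul] at this
    exact sub_nonneg.mpr this
  have hY1 : Y ≤ (1 - ρ / c) • (1 : 𝔄) := by
    have := smul_le_smul_of_nonneg_left (smul_one_le_shift (R := R) (ρ := ρ) hw)
      (inv_nonneg.mpr hc0.le)
    rw [smul_smul, ← div_eq_inv_mul] at this
    rw [sub_smul, one_smul]
    exact sub_le_sub_left this 1
  have hq : 0 ≤ 1 - ρ / c := by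
    rw [sub_nonneg, div_le_one hc0]
    linarith
  have hYn : ‖Y‖ ≤ 1 - ρ / c := by
    refine (CStarAlgebra.norm_le_norm_of_nonneg_of_le hY0 hY1).trans ?_
    rw [norm_smul, Real.norm_of_nonneg hq]
    refine mul_le_of_le_one_right hq ?_
    rcases subsingleton_or_nontrivial 𝔄 with h0 | h0
    · simp [Subsingleton.elim (1 : 𝔄) 0]
    · simp
  rw [e, norm_neg]
  refine (norm_mul_le _ _).trans (mul_le_mul (norm_res_le hρ hw) ?_ (norm_nonneg _)
    (inv_nonneg.mpr hρ.le))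
  exact (norm_pow_le' Y (Nat.succ_pos N)).trans (pow_le_pow_left₀ (norm_nonneg Y) hYn _)

/-- The bound on the entries of the killing operator. -/
def killB (CR ρ : ℝ) : ℝ := 1 + CR ^ 2 * (ρ⁻¹ + 1)

/-- The constant of the perturbation estimate. -/
def killK (r : ℕ) (CR ρ : ℝ) : ℝ :=
  r * (2 * killB CR ρ * CR ^ 2) + r * (2 * (r * (CR * killB CR ρ)) * (r * (CR * CR ^ 2)))

omit [PartialOrder 𝔄] [StarOrderedRing 𝔄] in
theorem norm_mul_star_sub_le {x y : 𝔄} {B d : ℝ} (hx : ‖x‖ ≤ B) (hy : ‖y‖ ≤ B)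
    (hd : ‖x - y‖ ≤ d) : ‖x * star x - y * star y‖ ≤ 2 * B * d := by
  have e : x * star x - y * star y = (x - y) * star x + y * star (x - y) := by
    rw [star_sub, sub_mul, mul_sub]
    abel
  rw [e]
  calc ‖(x - y) * star x + y * star (x - y)‖
      ≤ ‖(x - y) * star x‖ + ‖y * star (x - y)‖ := norm_add_le _ _
    _ ≤ d * B + B * d := by
        refine add_le_add ((norm_mul_le _ _).trans ?_) ((norm_mul_le _ _).trans ?_)
        · rw [norm_star]
          exact mul_le_mul hd hx (norm_nonneg _) ((norm_nonneg _).trans hd)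
        · rw [norm_star]
          exact mul_le_mul hy hd (norm_nonneg _) ((norm_nonneg _).trans hy)
    _ = 2 * B * d := by ring

omit [PartialOrder 𝔄] [StarOrderedRing 𝔄] in
theorem norm_killL_le {CR Cz : ℝ} (hCR : 0 ≤ CR) (hR : ∀ c, ‖R c‖ ≤ CR) (hw : ∀ c, ‖w c‖ ≤ 1)
    (hsw : ∀ c, ‖sw c‖ ≤ 1) {Z : 𝔄} (hZ : ‖Z‖ ≤ Cz) (c d : Fin r) :
    ‖killL R w sw Z c d‖ ≤ 1 + CR ^ 2 * Cz := by
  unfold killL
  refine (norm_sub_le _ _).trans (add_le_add ?_ ?_)
  · split_ifs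
    · exact hsw c
    · simp
  · refine (norm_mul4_le _ _ _ _).trans ?_
    rw [norm_star]
    calc ‖w c‖ * ‖R c‖ * ‖Z‖ * ‖R d * sw d‖ ≤ 1 * CR * Cz * (CR * 1) := by
          refine mul_le_mul (mul_le_mul (mul_le_mul (hw c) (hR c) (norm_nonneg _) zero_le_one) hZ
            (norm_nonneg _) (by positivity)) ?_ (norm_nonneg _)
            (mul_nonneg (by positivity) ((norm_nonneg _).trans hZ))
          exact (norm_mul_le _ _).trans (mul_le_mul (hR d) (hsw d) (norm_nonneg _) hCR)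
      _ = CR ^ 2 * Cz := by ring

omit [PartialOrder 𝔄] [StarOrderedRing 𝔄] in
theorem norm_killL_sub_le {CR δ : ℝ} (hCR : 0 ≤ CR) (hR : ∀ c, ‖R c‖ ≤ CR)
    (hw : ∀ c, ‖w c‖ ≤ 1) (hsw : ∀ c, ‖sw c‖ ≤ 1) {Z Z' : 𝔄} (hZ : ‖Z - Z'‖ ≤ δ) (c d : Fin r) :
    ‖killL R w sw Z c d - killL R w sw Z' c d‖ ≤ CR ^ 2 * δ := by
  have e : killL R w sw Z c d - killL R w sw Z' c d
      = -(w c * star (R c) * (Z - Z') * (R d * sw d)) := by
    simp only [killL, mul_sub, sub_mul]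
    abel
  rw [e, norm_neg]
  refine (norm_mul4_le _ _ _ _).trans ?_
  rw [norm_star]
  calc ‖w c‖ * ‖R c‖ * ‖Z - Z'‖ * ‖R d * sw d‖ ≤ 1 * CR * δ * (CR * 1) := by
        refine mul_le_mul (mul_le_mul (mul_le_mul (hw c) (hR c) (norm_nonneg _) zero_le_one) hZ
          (norm_nonneg _) (by positivity)) ?_ (norm_nonneg _)
          (mul_nonneg (by positivity) ((norm_nonneg _).trans hZ))
        exact (norm_mul_le _ _).trans (mul_le_mul (hR d) (hsw d) (norm_nonneg _) hCR)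
    _ = CR ^ 2 * δ := by ring

theorem killRow_mem (h : RootData T R w sw) {Z : 𝔄} (hZ : Z ∈ T.B) (d : Fin r) :
    killRow R w sw Z d ∈ T.B := by
  rw [killRow_eq]
  exact sub_mem (mul_mem (h.R_mem d) (T.D_le (h.sw_mem d)))
    (mul_mem (mul_mem (T.gram_mem h.R_mem h.w_mem) hZ) (mul_mem (h.R_mem d) (T.D_le (h.sw_mem d))))

theorem RootData.kill_approx (h : RootData T R w sw) (hρ : 0 < ρ) {CR : ℝ} (hCR : 0 ≤ CR)
    (hR : ∀ c, ‖R c‖ ≤ CR) (hw : ∀ c, ‖w c‖ ≤ 1) (hsw : ∀ c, ‖sw c‖ ≤ 1) {u : 𝔄} (huB : u ∈ T.B)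
    (hu : IsStarProjection u) (huR : ∀ c, u * R c = R c) {Z : 𝔄} (hZ : Z ∈ T.B) {δ : ℝ}
    (hδ1 : δ ≤ 1) (hd : ‖Z - res ρ R w‖ ≤ δ) :
    (∀ c, ‖killU R w sw Z c - killU R w sw (res ρ R w) c‖ ≤ killK r CR ρ * δ) ∧
      ∑ d, T.tr (killRow R w sw Z d * star (killRow R w sw Z d))
        ≤ ρ * T.tr u + killK r CR ρ * δ := by
  have hδ : 0 ≤ δ := (norm_nonneg _).trans hd
  set Z₀ := res ρ R w with hZ₀def
  have hn₀ : ‖Z₀‖ ≤ ρ⁻¹ + 1 := (norm_res_le hρ h.w_nonneg).trans (by linarith)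
  have hn : ‖Z‖ ≤ ρ⁻¹ + 1 := by
    have := norm_le_norm_add_norm_sub' Z Z₀
    linarith [norm_res_le (R := R) hρ h.w_nonneg]
  set B := killB CR ρ with hB
  have hB0 : 0 ≤ B := by rw [hB, killB]; positivity
  have hL : ∀ c d, ‖killL R w sw Z c d‖ ≤ B := norm_killL_le hCR hR hw hsw hn
  have hL₀ : ∀ c d, ‖killL R w sw Z₀ c d‖ ≤ B := norm_killL_le hCR hR hw hsw hn₀
  have hLd := norm_killL_sub_le hCR hR hw hsw hd
  have hK1 : (r : ℝ) * (2 * B * (CR ^ 2 * δ)) ≤ killK r CR ρ * δ := by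
    rw [killK, ← hB, add_mul]
    have : 0 ≤ (r : ℝ) * (2 * (r * (CR * B)) * (r * (CR * CR ^ 2))) * δ := by positivity
    nlinarith
  have hK2 : (r : ℝ) * (2 * (r * (CR * B)) * (r * (CR * (CR ^ 2 * δ)))) ≤ killK r CR ρ * δ := by
    rw [killK, ← hB, add_mul]
    have : 0 ≤ (r : ℝ) * (2 * B * CR ^ 2) * δ := by positivity
    nlinarith
  refine ⟨fun c => ?_, ?_⟩
  · refine le_trans ?_ hK1
    rw [killU, killU, ← Finset.sum_sub_distrib]
    refine (norm_sum_le _ _).trans ?_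
    refine (Finset.sum_le_sum fun d _ => norm_mul_star_sub_le (hL c d) (hL₀ c d) (hLd c d)).trans_eq
      ?_
    simp
  · have hrow : ∀ (Z' : 𝔄), (∀ c d, ‖killL R w sw Z' c d‖ ≤ B) → ∀ d,
        ‖killRow R w sw Z' d‖ ≤ r * (CR * B) := fun Z' hb d => by
      refine (norm_sum_le _ _).trans ((Finset.sum_le_sum fun c _ =>
        (norm_mul_le _ _).trans (mul_le_mul (hR c) (hb c d) (norm_nonneg _) hCR)).trans_eq ?_)
      simp
    have hrowd : ∀ d, ‖killRow R w sw Z d - killRow R w sw Z₀ d‖ ≤ r * (CR * (CR ^ 2 * δ)) := by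
      intro d
      rw [killRow, killRow, ← Finset.sum_sub_distrib]
      simp only [← mul_sub]
      refine (norm_sum_le _ _).trans ((Finset.sum_le_sum fun c _ =>
        (norm_mul_le _ _).trans (mul_le_mul (hR c) (hLd c d) (norm_nonneg _) hCR)).trans_eq ?_)
      simp
    have hZ₀ : Z₀ ∈ T.B := T.res_mem hρ h.R_mem h.w_mem h.w_nonneg
    have hm : ∀ (Z' : 𝔄), Z' ∈ T.B → ∀ d,
        killRow R w sw Z' d * star (killRow R w sw Z' d) ∈ T.B := fun Z' hZ' d =>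
      mul_mem (killRow_mem h hZ' d) (star_mem (killRow_mem h hZ' d))
    have hterm : ∀ d, T.tr (killRow R w sw Z d * star (killRow R w sw Z d))
        ≤ T.tr (killRow R w sw Z₀ d * star (killRow R w sw Z₀ d))
          + 2 * (r * (CR * B)) * (r * (CR * (CR ^ 2 * δ))) := fun d => by
      have h1 := (abs_le.mp (T.tr_le _ (sub_mem (hm Z hZ d) (hm Z₀ hZ₀ d)))).2
      rw [T.tr_sub (hm Z hZ d) (hm Z₀ hZ₀ d)] at h1
      have h2 := norm_mul_star_sub_le (hrow Z hL d) (hrow Z₀ hL₀ d) (hrowd d)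
      linarith
    refine (Finset.sum_le_sum fun d _ => hterm d).trans ?_
    rw [Finset.sum_add_distrib, Finset.sum_const, Finset.card_univ, Fintype.card_fin, nsmul_eq_mul]
    exact add_le_add (h.sum_tr_killRow hρ huB hu huR) hK2

end TraceData

variable {H : Type u} [NormedAddCommGroup H] [InnerProductSpace ℂ H] [CompleteSpace H]

namespace Walk

open TraceData

variable {S : Std H}

/-- Multipliers of weights and of their square roots. -/
theorem rootData {r : ℕ} {R : Fin r → (S.L2A →L[ℂ] S.L2A)} {w : Fin r → Op H}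
    (hR : ∀ c, R c ∈ S.alg) (hw : ∀ c, w c ∈ S.A ∧ 0 ≤ w c) :
    RootData (stdData S) R (fun c => S.mul (w c)) (fun c => S.mul (CFC.sqrt (w c))) where
  R_mem := hR
  w_mem c := ⟨w c, (hw c).1, rfl⟩
  w_nonneg c := (mul_nonneg_iff S (hw c).1).mpr (hw c).2
  sw_mem c := ⟨_, S.sqrt_mem_A (hw c).1, rfl⟩
  sw_sa c := S.mul_isSelfAdjoint (IsSelfAdjoint.of_nonneg (CFC.sqrt_nonneg (w c)))
  sw_sq c := by
    rw [← S.mul_mul (S.sqrt_mem_A (hw c).1) (S.sqrt_mem_A (hw c).1),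
      CFC.sqrt_mul_sqrt_self _ (hw c).2]

theorem sqrt_mul_proj {a w : Op H} (ha : a ∈ S.A) (hp : IsStarProjection a) (hw : w ∈ S.A)
    (h0 : 0 ≤ w) (h : w * a = w) : a * CFC.sqrt w = CFC.sqrt w := by
  have hs := S.sqrt_mem_A hw
  have hsa : star (CFC.sqrt w) = CFC.sqrt w :=
    (IsSelfAdjoint.of_nonneg (CFC.sqrt_nonneg w)).star_eq
  have h1 : star (CFC.sqrt w * (1 - a)) * (CFC.sqrt w * (1 - a)) = 0 := by
    rw [star_mul, hsa, star_sub, star_one, hp.isSelfAdjoint.star_eq,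
      show (1 - a) * CFC.sqrt w * (CFC.sqrt w * (1 - a))
        = (1 - a) * (CFC.sqrt w * CFC.sqrt w) * (1 - a) by simp only [mul_assoc],
      CFC.sqrt_mul_sqrt_self w h0, mul_assoc, _root_.mul_sub w, _root_.mul_one, h, sub_self,
      MulZeroClass.mul_zero]
  rw [CStarRing.star_mul_self_eq_zero_iff, _root_.mul_sub, _root_.mul_one, sub_eq_zero] at h1
  rw [S.A_comm a ha _ hs, ← h1]

/-- The Neumann approximation of the killing operator. -/
theorem exists_approx (S : Std H) (r : ℕ) (CR ρ η : ℝ) (hCR : 0 ≤ CR) (hρ : 0 < ρ) (hη : 0 < η) :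
    ∃ CL : ℝ, ∀ (a w : Fin r → Op H) (R : Fin r → (S.L2A →L[ℂ] S.L2A)) (u : Op H),
      (∀ c, a c ∈ S.A ∧ IsStarProjection (a c) ∧ w c ∈ S.A ∧ 0 ≤ w c ∧ w c ≤ a c ∧
        w c * a c = w c) →
      (∀ c, R c ∈ S.alg ∧ ‖R c‖ ≤ CR ∧ RB S (R c) CR ∧ RB S (star (R c)) CR ∧
        S.mul u * R c = R c) →
      u ∈ S.A → IsStarProjection u →
      ∃ Z : S.L2A →L[ℂ] S.L2A, Z ∈ S.alg ∧
        (∀ c d,
          killL R (fun c => S.mul (w c)) (fun c => S.mul (CFC.sqrt (w c))) Z c d ∈ S.alg ∧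
          RB S (killL R (fun c => S.mul (w c)) (fun c => S.mul (CFC.sqrt (w c))) Z c d) CL ∧
          S.mul (a c) * killL R (fun c => S.mul (w c)) (fun c => S.mul (CFC.sqrt (w c))) Z c d
            = killL R (fun c => S.mul (w c)) (fun c => S.mul (CFC.sqrt (w c))) Z c d) ∧
        (∀ c, ‖killU R (fun c => S.mul (w c)) (fun c => S.mul (CFC.sqrt (w c))) Z c
            - killU R (fun c => S.mul (w c)) (fun c => S.mul (CFC.sqrt (w c)))
                (res ρ R (fun c => S.mul (w c))) c‖ ≤ η) ∧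
        ∑ d, (stdData S).tr
            (killRow R (fun c => S.mul (w c)) (fun c => S.mul (CFC.sqrt (w c))) Z d *
              star (killRow R (fun c => S.mul (w c)) (fun c => S.mul (CFC.sqrt (w c))) Z d))
          ≤ ρ * S.rtau u + η := by
  set c0 := ρ + r * CR ^ 2 + 1 with hc0def
  have hc0 : 0 < c0 := by positivity
  set q := 1 - ρ / c0 with hqdef
  have hK : 0 ≤ killK r CR ρ := by rw [killK, killB]; positivity
  set δ := min 1 (η / (killK r CR ρ + 1)) with hδdef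
  have hδ : 0 < δ := lt_min one_pos (by positivity)
  have hKδ : killK r CR ρ * δ ≤ η := by
    calc killK r CR ρ * δ ≤ killK r CR ρ * (η / (killK r CR ρ + 1)) :=
          mul_le_mul_of_nonneg_left (min_le_right _ _) hK
      _ ≤ (killK r CR ρ + 1) * (η / (killK r CR ρ + 1)) := by
          gcongr
          linarith
      _ = η := by field_simp
  have hq1 : q < 1 := by rw [hqdef]; linarith [div_pos hρ hc0]
  have hq0 : 0 ≤ q := by
    rw [hqdef, sub_nonneg, div_le_one hc0, hc0def]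
    nlinarith
  obtain ⟨N, hN⟩ := exists_pow_lt_of_lt_one (mul_pos hρ hδ) hq1
  have hN' : ρ⁻¹ * q ^ (N + 1) ≤ δ := by
    rw [inv_mul_le_iff₀ hρ]
    exact (pow_le_pow_of_le_one hq0 hq1.le (Nat.le_succ N)).trans hN.le
  set CX := |ρ| * 1 + ∑ _c : Fin r, CR * 1 * CR with hCXdef
  set CZ := |c0⁻¹| * ∑ k ∈ Finset.range (N + 1), (1 + |c0⁻¹| * CX) ^ k with hCZdef
  refine ⟨1 + 1 * CR * CZ * (CR * 1), fun a w R u haw hR huA hu => ?_⟩
  set mw := fun c => S.mul (w c) with hmw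
  set sw := fun c => S.mul (CFC.sqrt (w c)) with hsw
  have h : RootData (stdData S) R mw sw :=
    rootData (fun c => (hR c).1) fun c => ⟨(haw c).2.2.1, (haw c).2.2.2.1⟩
  have hw1 : ∀ c, ‖w c‖ ≤ 1 := fun c =>
    (CStarAlgebra.norm_le_one_iff_of_nonneg (w c) (haw c).2.2.2.1).mpr
      ((haw c).2.2.2.2.1.trans (haw c).2.1.le_one)
  have hs1 : ∀ c, ‖CFC.sqrt (w c)‖ ≤ 1 := fun c => by
    have e := CStarRing.norm_star_mul_self (x := CFC.sqrt (w c))
    rw [(IsSelfAdjoint.of_nonneg (CFC.sqrt_nonneg (w c))).star_eq,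
      CFC.sqrt_mul_sqrt_self _ (haw c).2.2.2.1] at e
    nlinarith [norm_nonneg (CFC.sqrt (w c)), hw1 c]
  have hmw1 : ∀ c, ‖mw c‖ ≤ 1 := fun c => (S.norm_mul_le _).trans (hw1 c)
  have hsw1 : ∀ c, ‖sw c‖ ≤ 1 := fun c => (S.norm_mul_le _).trans (hs1 c)
  set X := ρ • (1 : S.L2A →L[ℂ] S.L2A) + gram R mw with hX
  set Z := neumann c0 (N + 1) X with hZdef
  have hgram : gram R mw ∈ S.alg := (stdData S).gram_mem h.R_mem h.w_mem
  have hXm : X ∈ S.alg := add_mem ((stdData S).smul_mem_B ρ (one_mem _)) hgram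
  have hZm : Z ∈ S.alg := (stdData S).smul_mem_B _ (sum_mem fun k _ =>
    pow_mem (sub_mem (one_mem _) ((stdData S).smul_mem_B _ hXm)) k)
  have hrw : ∀ c, RB S (mw c) 1 := fun c =>
    (rb_mul (haw c).2.2.1 (IsSelfAdjoint.of_nonneg (haw c).2.2.2.1)).mono (hw1 c)
  have hrs : ∀ c, RB S (sw c) 1 := fun c =>
    (rb_mul (S.sqrt_mem_A (haw c).2.2.1) (IsSelfAdjoint.of_nonneg (CFC.sqrt_nonneg _))).mono
      (hs1 c)
  have hXrb : RB S X CX :=
    (rb_one.smul ρ).add (rb_sum Finset.univ fun c _ =>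
      (((hR c).2.2.1).comp (hrw c)).comp (hR c).2.2.2.1)
  have hZrb : RB S Z CZ :=
    (rb_sum (Finset.range (N + 1)) fun k _ => (rb_one.sub (hXrb.smul c0⁻¹)).pow k).smul c0⁻¹
  refine ⟨Z, hZm, fun c d => ⟨?_, ?_, ?_⟩, ?_⟩
  · refine sub_mem ?_ (mul_mem (mul_mem (mul_mem ((stdData S).D_le (h.w_mem c))
      (star_mem (h.R_mem c))) hZm) (mul_mem (h.R_mem d) ((stdData S).D_le (h.sw_mem d))))
    split_ifs
    · exact (stdData S).D_le (h.sw_mem c)
    · exact zero_mem _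
  · have h1 : RB S (if c = d then sw c else 0) 1 := by
      split_ifs
      · exact hrs c
      · exact rb_zero.mono zero_le_one
    exact h1.sub ((((hrw c).comp (hR c).2.2.2.1).comp hZrb).comp (((hR d).2.2.1).comp (hrs d)))
  · have e1 : S.mul (a c) * mw c = mw c := by
      rw [hmw, ← S.mul_mul (haw c).1 (haw c).2.2.1, S.A_comm _ (haw c).1 _ (haw c).2.2.1,
        (haw c).2.2.2.2.2]
    have e2 : S.mul (a c) * sw c = sw c := by
      rw [hsw, ← S.mul_mul (haw c).1 (S.sqrt_mem_A (haw c).2.2.1),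
        sqrt_mul_proj (haw c).1 (haw c).2.1 (haw c).2.2.1 (haw c).2.2.2.1 (haw c).2.2.2.2.2]
    simp only [killL, _root_.mul_sub, ← mul_assoc, e1]
    split_ifs
    · rw [e2]
    · rw [MulZeroClass.mul_zero]
  · have hd : ‖Z - res ρ R mw‖ ≤ δ :=
      (norm_neumann_sub_res_le hρ h.w_nonneg
        (norm_gram_le hCR (fun c => (hR c).2.1) hmw1) N).trans hN'
    obtain ⟨h1, h2⟩ := h.kill_approx hρ hCR (fun c => (hR c).2.1) hmw1 hsw1
      (u := S.mul u) (Std.mul_mem_alg huA) (mul_proj S huA hu) (fun c => (hR c).2.2.2.2) hZm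
      (min_le_left _ _) hd
    refine ⟨fun c => (h1 c).trans hKδ, h2.trans ?_⟩
    rw [tr_mul_eq S huA]
    exact add_le_add le_rfl hKδ

end Walk

end Vale.Agent.P078
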