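import Vale.Agent.P078.Walk.Lower

/-!
# P078: assembly of the tracial core

The walk started at the initial state reaches, by readying and moving, a state with almost nothing
unresolved; the final step then paves `y`. This gives the tracial core with exponent two from the
step lemmas, which are hypotheses here.
-/

noncomputable section

namespace Vale.Agent.P078.Walk

universe u

variable {H : Type u} [NormedAddCommGroup H] [InnerProductSpace ℂ H] [CompleteSpace H]

/-- A move from a ready state lowers the potential by a fixed amount. -/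
def MoveStep (S : Std H) (p : Par) (y : Op H) : Prop :=
  ∀ δ η ρ : ℝ, 0 < δ → 0 < η → η < 1 → 0 < ρ → ρ ≤ 1 →
    ∃ t > 0, ∀ st : St H p.r, Inv S p y st → Ready S p η y st → δ ≤ S.rtau st.u →
      ∃ st' : St H p.r, Inv S p y st' ∧ Zpot S p ρ η y st' ≤ Zpot S p ρ η y st - t

/-- Every state can be made ready without raising the potential. -/
def ReadyStep (S : Std H) (p : Par) (y : Op H) : Prop :=
  ∀ ρ η : ℝ, 0 < ρ → 0 < η → η < 1 → ∀ st : St H p.r, Inv S p y st →
    ∃ st' : St H p.r, Inv S p y st' ∧ Ready S p η y st' ∧ Zpot S p ρ η y st' ≤ Zpot S p ρ η y st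

/-- The properties of the initial and of the final states. -/
structure EndSteps (S : Std H) (p : Par) (y : Op H) : Prop where
  init_inv : Inv S p y (init p y)
  init_Zpot : ∀ ρ η : ℝ, 0 < ρ → 0 < η → Zpot S p ρ η y (init p y) ≤ 6 * p.r
  terms : ∀ st : St H p.r, Inv S p y st →
    0 ≤ Psi S p st ∧ 0 ≤ Pot S p st ∧ 0 ≤ Clock S st ∧ 0 ≤ DlSum p y st
  finish : ∀ st : St H p.r, Inv S p y st → ∃ (P : Fin (p.r + 1) → Op H) (q : Op H),
    IsPart (S.A : Set (Op H)) 1 P ∧ q ∈ S.M ∧ IsStarProjection q ∧ ‖q * pinch P y * q‖ ≤ p.ε ∧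
      p.ε / 4 * S.n2 (1 - q) ^ 2 ≤
        S.rtau st.u + S.rtau st.g2 + S.rtau st.g1 + S.rtau (DlSum p y st)

theorem rtau_proj_mul_le (S : Std H) {g D : Op H} (hg : g ∈ S.A) (hgp : IsStarProjection g)
    (hD : D ∈ S.M) (h0 : 0 ≤ D) : S.rtau (g * D) ≤ S.rtau D := by
  have hc : IsStarProjection (1 - g) := hgp.one_sub
  have hcM : 1 - g ∈ S.M := sub_mem (one_mem _) (S.A_le hg)
  have h1 : 0 ≤ (1 - g) * D * (1 - g) := by
    simpa [hc.isSelfAdjoint.star_eq] using star_left_conjugate_nonneg h0 (1 - g)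
  have h2 : S.tau ((1 - g) * D * (1 - g)) = S.tau ((1 - g) * D) := by
    rw [S.tau_comm (mul_mem hcM hD) hcM, ← mul_assoc, hc.isIdempotentElem.eq]
  have h3 := S.re_tau_nonneg h1
  rw [h2, sub_mul, one_mul, S.tau_sub, Complex.sub_re] at h3
  simp only [Std.rtau]
  linarith

theorem DlSum_mem (S : Std H) (p : Par) {y : Op H} (hy : Inp S y) {r : ℕ} {st : St H r}
    (hv : Inv S p y st) : DlSum p y st ∈ S.M := by
  refine sum_mem fun i _ => sub_mem (add_mem ?_ ?_) (mul_mem (hv.W_mem i) (star_mem (hv.W_mem i)))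
  · rw [← Complex.coe_smul]; exact S.M.smul_mem hy.mem _
  · rw [← Complex.coe_smul]; exact S.M.smul_mem (one_mem _) _

theorem pinch_of_mem (S : Std H) {n : ℕ} {P : Fin n → Op H}
    (hP : IsPart (S.A : Set (Op H)) 1 P) {a : Op H} (ha : a ∈ S.A) : pinch P a = a := by
  have : ∀ i, P i * a * P i = a * P i := fun i => by
    rw [S.A_comm (P i) (hP.1 i).1 a ha, mul_assoc, (hP.1 i).2.isIdempotentElem.eq]
  simp only [pinch, this, ← Finset.mul_sum, hP.2.2, mul_one]

theorem losses_le {e B γ thr thrK η ρ D G1 G2 P : ℝ} (he : 0 < e) (hB : 0 < B) (hγ : 0 < γ)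
    (hthr : 0 < thr) (hK : 0 < thrK) (hη : 0 < η) (hρ : 0 < ρ) (h1 : η ≤ e * γ / B)
    (h2 : η ≤ e * thr * γ / B) (h3 : ρ ≤ (e * thrK ^ 2 / B) ^ 2) (hD : 0 ≤ D)
    (hDB : γ / η * D ≤ B) (hPB : P / Real.sqrt ρ ≤ B) (hG1 : thr * G1 ≤ D)
    (hG2 : thrK ^ 2 * G2 ≤ P) : D ≤ e ∧ G1 ≤ e ∧ G2 ≤ e := by
  rw [div_mul_eq_mul_div, div_le_iff₀ hη] at hDB
  rw [le_div_iff₀ hB] at h1 h2
  have hD1 : γ * D ≤ γ * e := by linarith
  have hD2 : γ * D ≤ γ * (e * thr) := by linarith
  refine ⟨le_of_mul_le_mul_left hD1 hγ, le_of_mul_le_mul_left (a := thr) ?_ hthr, ?_⟩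
  · linarith [le_of_mul_le_mul_left hD2 hγ]
  rw [div_le_iff₀ (Real.sqrt_pos.2 hρ)] at hPB
  have h5 : Real.sqrt ρ ≤ e * thrK ^ 2 / B :=
    (Real.sqrt_le_sqrt h3).trans_eq (Real.sqrt_sq (by positivity))
  rw [le_div_iff₀ hB] at h5
  exact le_of_mul_le_mul_left (a := thrK ^ 2) (by linarith) (by positivity)

/-- One run of the walk paves `y`. -/
theorem exists_pave_zero_mean (S : Std H) {p : Par} (hg : p.Good) {y : Op H} (hy : Inp S y)
    (hready : ReadyStep S p y) (hmove : MoveStep S p y) (hend : EndSteps S p y) {δ : ℝ} (hδ : 0 < δ) :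
    ∃ (P : Fin (p.r + 1) → Op H) (q : Op H), IsPart (S.A : Set (Op H)) 1 P ∧ q ∈ S.M ∧
      IsStarProjection q ∧ S.n2 (1 - q) < δ ∧ ‖q * pinch P y * q‖ ≤ p.ε := by
  classical
  have hε := hg.ε_pos
  have hv0 : 0 < p.v := by unfold Par.v; linarith
  have hσ : 0 < p.σ := by unfold Par.σ; linarith
  have hh0 : 0 < p.h0 := by unfold Par.h0; positivity
  have hthr : 0 < p.thr := by unfold Par.thr; positivity
  have hγ : 0 < p.γ := by unfold Par.γ; positivity
  have hr : (0 : ℝ) < p.r := by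
    rcases Nat.eq_zero_or_pos p.r with h | h
    · have := hg.r_big
      simp [Par.L, h] at this
      norm_num at this
    · exact_mod_cast h
  have hL : 0 < p.L := by unfold Par.L; positivity
  have hK : 0 < p.thrK := by unfold Par.thrK; positivity
  set e : ℝ := p.ε / 4 * δ ^ 2 / 8 with he
  have he0 : 0 < e := by positivity
  set B : ℝ := 6 * (p.r : ℝ) + 1 with hB
  have hB0 : 0 < B := by positivity
  -- the parameters of the run
  set η : ℝ := min (1 / 2) (min (e * p.γ / B) (e * p.thr * p.γ / B)) with hηdef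
  have hη : 0 < η := by
    rw [hηdef]
    exact lt_min (by norm_num) (lt_min (by positivity) (by positivity))
  have hη1 : η < 1 := lt_of_le_of_lt (min_le_left _ _) (by norm_num)
  set ρ : ℝ := min 1 ((e * p.thrK ^ 2 / B) ^ 2) with hρdef
  have hρ : 0 < ρ := lt_min one_pos (by positivity)
  obtain ⟨t, ht, hmv⟩ := hmove e η ρ he0 hη hη1 hρ (min_le_left _ _)
  have hZeq : ∀ st : St H p.r, Zpot S p ρ η y st =
      Psi S p st / Real.sqrt ρ + Pot S p st + Clock S st + p.γ / η * S.rtau (DlSum p y st) :=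
    fun st => rfl
  have hZ0 : ∀ st : St H p.r, Inv S p y st → 0 ≤ Zpot S p ρ η y st := fun st hv => by
    obtain ⟨h1, h2, h3, h4⟩ := hend.terms st hv
    have h5 : 0 ≤ S.rtau (DlSum p y st) := S.re_tau_nonneg h4
    rw [hZeq]
    positivity
  -- readying and moving until almost nothing is unresolved
  have hloop : ∀ (n : ℕ) (st : St H p.r), Inv S p y st → Zpot S p ρ η y st < (n : ℝ) * t →
      ∃ st' : St H p.r, Inv S p y st' ∧ S.rtau st'.u < e ∧
        Zpot S p ρ η y st' ≤ Zpot S p ρ η y st := by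
    intro n
    induction n with
    | zero =>
      intro st hv hZ
      have := hZ0 st hv
      simp only [Nat.cast_zero, zero_mul] at hZ
      linarith
    | succ n ih =>
      intro st hv hZ
      obtain ⟨s1, hv1, hR1, hZ1⟩ := hready ρ η hρ hη hη1 st hv
      rcases lt_or_ge (S.rtau s1.u) e with hu | hu
      · exact ⟨s1, hv1, hu, hZ1⟩
      obtain ⟨s2, hv2, hZ2⟩ := hmv s1 hv1 hR1 hu
      obtain ⟨s3, hv3, hu3, hZ3⟩ := ih s2 hv2 (by push_cast at hZ; linarith)
      exact ⟨s3, hv3, hu3, by linarith⟩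
  obtain ⟨n, hn⟩ := exists_nat_gt (Zpot S p ρ η y (init p y) / t)
  obtain ⟨st, hv, hu, hZ⟩ := hloop n _ hend.init_inv ((div_lt_iff₀ ht).1 hn)
  have hZB : Zpot S p ρ η y st ≤ B := by
    have := hend.init_Zpot ρ η hρ hη
    linarith
  -- the losses are small
  obtain ⟨h1, h2, h3, h4⟩ := hend.terms st hv
  have hD0 : 0 ≤ S.rtau (DlSum p y st) := S.re_tau_nonneg h4
  have hsq : 0 < Real.sqrt ρ := Real.sqrt_pos.2 hρ
  have hP0 : 0 ≤ Psi S p st / Real.sqrt ρ := by positivity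
  have hD0' : 0 ≤ p.γ / η * S.rtau (DlSum p y st) := by positivity
  rw [hZeq] at hZB
  obtain ⟨hD1, hg1, hg2⟩ := losses_le he0 hB0 hγ hthr hK hη hρ
    ((min_le_right _ _).trans (min_le_left _ _)) ((min_le_right _ _).trans (min_le_right _ _))
    (min_le_right _ _) hD0 (by linarith) (by linarith)
    (hv.g1_le.trans (rtau_proj_mul_le S hv.g1_mem hv.g1_proj (DlSum_mem S p hy hv) h4))
    (show p.thrK ^ 2 * S.rtau st.g2 ≤ Psi S p st from le_add_of_nonneg_right (sq_nonneg _))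
  obtain ⟨P, q, hP, hqM, hq, hqn, hq2⟩ := hend.finish st hv
  refine ⟨P, q, hP, hqM, hq, ?_, hqn⟩
  by_contra hcon
  push Not at hcon
  have h9 : δ ^ 2 ≤ S.n2 (1 - q) ^ 2 := pow_le_pow_left₀ hδ.le hcon 2
  have h10 := mul_le_mul_of_nonneg_left h9 (show (0 : ℝ) ≤ p.ε / 4 by linarith only [hε])
  linarith only [hq2, h10, hu, hg2, hg1, hD1, he, he0]

/-- `C / ε ^ 2` pieces pave every tracial pair, from the steps of the walk. -/
theorem exists_const_of_steps
    (hmove : ∀ (H : Type u) [NormedAddCommGroup H] [InnerProductSpace ℂ H] [CompleteSpace H]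
      (S : Std H) (p : Par) (y : Op H), p.Good → Inp S y → MoveStep S p y)
    (hend : ∀ (H : Type u) [NormedAddCommGroup H] [InnerProductSpace ℂ H] [CompleteSpace H]
      (S : Std H) (p : Par) (y : Op H), p.Good → Inp S y → EndSteps S p y) :
    ∃ C : ℝ, ∀ (H : Type u) [NormedAddCommGroup H] [InnerProductSpace ℂ H] [CompleteSpace H]
      (S : Std H) (ε : ℝ), 0 < ε → ε ≤ 1 → ∃ r : ℕ, (r : ℝ) ≤ C / ε ^ 2 ∧ S.Paves ε r := by
  refine ⟨8 * 100000 * 4096000 + 2, fun H _ _ _ S ε hε hε1 => ?_⟩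
  set K : ℝ := 8 * 100000 * 4096000 with hK
  set p : Par := ⟨ε / 2, ⌈K / ε ^ 2⌉₊⟩ with hp
  have hsq : 0 < ε ^ 2 := by positivity
  have hr : K / ε ^ 2 ≤ (p.r : ℝ) := Nat.le_ceil _
  have hg : p.Good := by
    refine ⟨half_pos hε, (half_le_self hε.le).trans hε1, ?_⟩
    rw [div_le_iff₀ hsq] at hr
    show (8 : ℝ) ≤ p.cν * p.L
    have e : p.cν * p.L = (p.r : ℝ) * ε ^ 2 / (100000 * 4096000) := by
      simp only [Par.cν, Par.L, Par.h0, Par.σ, Par.v, hp]
      ring
    rw [e, le_div_iff₀ (by norm_num)]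
    linarith
  refine ⟨p.r + 1, ?_, fun x hx hsa hnorm δ hδ => ?_⟩
  · have h1 : (p.r : ℝ) ≤ K / ε ^ 2 + 1 := (Nat.ceil_lt_add_one (by positivity)).le
    have h2 : (1 : ℝ) ≤ 1 / ε ^ 2 := by
      rw [le_div_iff₀ hsq, one_mul]
      exact pow_le_one₀ hε.le hε1
    have h3 : (8 * 100000 * 4096000 + 2 : ℝ) / ε ^ 2 = K / ε ^ 2 + 2 * (1 / ε ^ 2) := by
      rw [hK]; ring
    rw [h3]
    push_cast
    linarith
  set a := S.exp x with ha
  set y : Op H := (1 / 2 : ℂ) • (x - a) with hy'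
  have haA : a ∈ S.A := S.exp_mem x
  have hasa : IsSelfAdjoint a := S.exp_isSelfAdjoint hx hsa
  have ha1 : ‖a‖ ≤ 1 := (S.norm_exp_le hx).trans hnorm
  have hhalf : star (1 / 2 : ℂ) = 1 / 2 := by simp
  have hy : Inp S y := by
    refine ⟨S.M.smul_mem (sub_mem hx (S.A_le haA)) _, ?_, ?_, ?_⟩
    · rw [IsSelfAdjoint, hy', star_smul, hhalf, star_sub, hsa.star_eq, hasa.star_eq]
    · rw [hy', norm_smul]
      have := norm_sub_le x a
      simp only [norm_div, norm_one, RCLike.norm_ofNat]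
      linarith
    · rw [hy', S.exp_smul _ (sub_mem hx (S.A_le haA)), S.exp_sub hx (S.A_le haA),
        S.exp_of_mem haA, ← ha, sub_self, smul_zero]
  obtain ⟨P, q, hP, hqM, hq, hqd, hqn⟩ :=
    exists_pave_zero_mean S hg hy (fun ρ η hρ hη hη1 st hv => exists_ready S hg hy ρ η hρ hη hη1 st hv) (hmove H S p y hg hy) (hend H S p y hg hy) hδ
  refine ⟨P, a, q, hP, haA, hasa, ha1, hqM, hq, hqd, ?_⟩
  have e : pinch P x - a = (2 : ℂ) • pinch P y := by
    have hsub : pinch P (x - a) = pinch P x - pinch P a := by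
      simp only [pinch, mul_sub, sub_mul, Finset.sum_sub_distrib]
    rw [hy', pinch_smul, smul_smul, hsub, pinch_of_mem S hP haA]
    norm_num
  rw [e, mul_smul_comm, smul_mul_assoc, norm_smul, RCLike.norm_ofNat]
  have : p.ε = ε / 2 := rfl
  linarith

/-- The tracial core with exponent two, from the steps of the walk. -/
theorem tracialCore_of_steps
    (hmove : ∀ (H : Type u) [NormedAddCommGroup H] [InnerProductSpace ℂ H] [CompleteSpace H]
      (S : Std H) (p : Par) (y : Op H), p.Good → Inp S y → MoveStep S p y)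
    (hend : ∀ (H : Type u) [NormedAddCommGroup H] [InnerProductSpace ℂ H] [CompleteSpace H]
      (S : Std H) (p : Par) (y : Op H), p.Good → Inp S y → EndSteps S p y) :
    TracialCore.{u} := by
  obtain ⟨C, hC⟩ := exists_const_of_steps hmove hend
  exact ⟨C, 2, hC⟩

end Vale.Agent.P078.Walk
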