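import Vale.Agent.P078.Walk.Rows

/-!
# P078: the random move and its exact averages

For operators `L c d` that are bounded and real on the MASA and a partition `P`, the move
`x c = Σ_d L c d ζ_d`, with independent signs on the pieces of `P`, has mean zero and its quadratic
forms average to diagonal sums over `P`.
-/

noncomputable section

namespace Vale.Agent.P078

open scoped InnerProductSpace

universe u

variable {H : Type u} [NormedAddCommGroup H] [InnerProductSpace ℂ H] [CompleteSpace H]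

namespace Walk

variable {S : Std H} {p : Par} {y : Op H} {η : ℝ} {st : St H p.r}

theorem eq_of_av {a b : Op H} (ha : a ∈ S.A) (hb : b ∈ S.A) (h : S.av a = S.av b) : a = b := by
  refine S.eq_of_n2 (S.A_le ha) (S.A_le hb) ?_
  rw [← S.norm_av (sub_mem ha hb), av_sub_eq ha hb, h, sub_self, norm_zero]

theorem av_signEl (P : S.Parti) (f : Fin P.n → Bool) :
    S.av (signEl P f) = ∑ k, (bsign (f k) : ℂ) • S.av (P.p k) := by
  rw [signEl, av_sum_eq _ _ fun k _ => S.smul_mem_A _ (P.isPart.1 k).1]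
  exact Finset.sum_congr rfl fun k _ => Std.av_smul _ (P.isPart.1 k).1

theorem exists_move_vectors {r : ℕ} (P : S.Parti) (L : Fin r → Fin r → (S.L2A →L[ℂ] S.L2A))
    {CL : ℝ} (a : Fin r → Op H) (ha : ∀ c, a c ∈ S.A) (hL : ∀ c d, RB S (L c d) CL)
    (haL : ∀ c d, S.mul (a c) * L c d = L c d) :
    ∃ X : (Fin r × Fin P.n → Bool) → Fin r → Op H, ∀ f c,
      X f c ∈ S.A ∧ IsSelfAdjoint (X f c) ∧ ‖X f c‖ ≤ r * CL ∧ X f c * a c = X f c ∧
      S.av (X f c) = signSum (fun i : Fin r × Fin P.n => L c i.1 (S.av (P.p i.2))) f := by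
  have h : ∀ (f : Fin r × Fin P.n → Bool) c, ∃ x : Op H,
      x ∈ S.A ∧ IsSelfAdjoint x ∧ ‖x‖ ≤ r * CL ∧ x * a c = x ∧
      S.av x = signSum (fun i : Fin r × Fin P.n => L c i.1 (S.av (P.p i.2))) f := by
    intro f c
    have hb : ∀ d, ∃ b ∈ S.A, IsSelfAdjoint b ∧ ‖b‖ ≤ CL ∧
        S.av b = L c d (S.av (signEl P fun k => f (d, k))) := by
      intro d
      obtain ⟨b, hb, hbs, hbn, hbv⟩ := (hL c d).maps _ (signEl_mem P fun k => f (d, k))
        (signEl_sa P fun k => f (d, k))
      refine ⟨b, hb, hbs, hbn.trans (mul_le_of_le_one_right (hL c d).nonneg (norm_signEl_le P _)), ?_⟩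
      exact Subtype.ext (by rw [S.coe_av hb, hbv _ (S.coe_av (signEl_mem P _))])
    choose b hb hbs hbn hbv using hb
    have hsum : ∑ d, b d ∈ S.A := sum_mem fun d _ => hb d
    have hav : S.av (∑ d, b d)
        = signSum (fun i : Fin r × Fin P.n => L c i.1 (S.av (P.p i.2))) f := by
      rw [av_sum_eq _ _ fun d _ => hb d, signSum, Fintype.sum_prod_type]
      refine Finset.sum_congr rfl fun d _ => ?_
      rw [hbv, av_signEl, map_sum]
      exact Finset.sum_congr rfl fun k _ => map_smul (L c d) _ _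
    refine ⟨∑ d, b d, hsum, isSelfAdjoint_sum _ fun d _ => hbs d,
      (norm_sum_le _ _).trans ((Finset.sum_le_sum fun d _ => hbn d).trans (le_of_eq (by simp))),
      eq_of_av (mul_mem hsum (ha c)) hsum ?_, hav⟩
    rw [S.A_comm _ hsum _ (ha c), ← S.mul_av (ha c) hsum, hav, map_signSum]
    simp only [← op_apply, haL]
  choose X hX using h
  exact ⟨X, hX⟩

theorem sum_form_signSum (P : S.Parti) {r : ℕ} (L : Fin r → (S.L2A →L[ℂ] S.L2A))
    (G : S.L2A →L[ℂ] S.L2A) :
    ∑ f : Fin r × Fin P.n → Bool,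
      (inner ℂ (signSum (fun i : Fin r × Fin P.n => L i.1 (S.av (P.p i.2))) f)
        (G (signSum (fun i : Fin r × Fin P.n => L i.1 (S.av (P.p i.2))) f))).re
      = (Fintype.card (Fin r × Fin P.n → Bool) : ℝ)
        * ∑ d, (S.kdiag P (star (L d) * G * L d)).re := by
  simp_rw [map_signSum G]
  rw [← Complex.re_sum, avg_inner_signSum, Fintype.sum_prod_type, ← Complex.ofReal_natCast,
    Complex.re_ofReal_mul, Complex.re_sum]
  congr 1
  refine Finset.sum_congr rfl fun d _ => congrArg Complex.re ?_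
  refine Finset.sum_congr rfl fun k _ => ?_
  change inner ℂ (L d (S.av (P.p k))) (G (L d (S.av (P.p k))))
    = inner ℂ (S.av (P.p k)) (star (L d) (G (L d (S.av (P.p k)))))
  rw [ContinuousLinearMap.star_eq_adjoint, ContinuousLinearMap.adjoint_inner_right]

theorem sum_normSq_signSum (P : S.Parti) {r : ℕ} (K : Fin r → (S.L2A →L[ℂ] S.L2A)) :
    ∑ f : Fin r × Fin P.n → Bool,
      ‖signSum (fun i : Fin r × Fin P.n => K i.1 (S.av (P.p i.2))) f‖ ^ 2
      = (Fintype.card (Fin r × Fin P.n → Bool) : ℝ)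
        * ∑ d, (S.kdiag P (star (K d) * K d)).re := by
  have h := sum_form_signSum P K 1
  simp only [mul_one, op_one_apply] at h
  rw [← h]
  exact Finset.sum_congr rfl fun f _ => (inner_self_eq_norm_sq (𝕜 := ℂ) _).symm

theorem move_mean_zero {r : ℕ} (P : S.Parti) (L : Fin r → Fin r → (S.L2A →L[ℂ] S.L2A))
    (X : (Fin r × Fin P.n → Bool) → Fin r → Op H) (hX : ∀ f c, X f c ∈ S.A)
    (hav : ∀ f c, S.av (X f c)
      = signSum (fun i : Fin r × Fin P.n => L c i.1 (S.av (P.p i.2))) f) (c : Fin r) :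
    ∑ f, X f c = 0 := by
  refine eq_of_av (sum_mem fun f _ => hX f c) (zero_mem _) ?_
  rw [av_sum_eq _ _ fun f _ => hX f c, Finset.sum_congr rfl fun f _ => hav f c, sum_signSum]
  simpa using (av_smul_real (S := S) 0 (zero_mem S.A)).symm

theorem linTerm_add (hv : Inv S p y st) (c : Fin p.r) {a b : Op H} (ha : a ∈ S.A) (hb : b ∈ S.A) :
    linTerm S p st c (a + b) = linTerm S p st c a + linTerm S p st c b := by
  have hm : ∀ i {z : Op H}, z ∈ S.A → Qc p st c i * z * Qc p st c i ∈ S.M := fun i z hz =>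
    mul_mem (mul_mem (hv.Q_mem c i) (S.A_le hz)) (hv.Q_mem c i)
  have he : ∀ i, S.exp (Qc p st c i * (a + b) * Qc p st c i)
      = S.exp (Qc p st c i * a * Qc p st c i) + S.exp (Qc p st c i * b * Qc p st c i) := fun i => by
    rw [mul_add, add_mul, S.exp_add (hm i ha) (hm i hb)]
  simp only [linTerm, he]
  simp only [Fin.sum_univ_two, add_mul, mul_add, mul_sub, smul_add, smul_sub]
  abel

theorem linZ_add (hv : Inv S p y st) (ρ : ℝ) {a b : Fin p.r → Op H} (ha : ∀ c, a c ∈ S.A)
    (hb : ∀ c, b c ∈ S.A) :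
    linZ S p ρ st (a + b) = linZ S p ρ st a + linZ S p ρ st b := by
  simp only [linZ, linK, Pi.add_apply, fun c => linTerm_add hv c (ha c) (hb c),
    Finset.sum_add_distrib, Finset.sum_sub_distrib, mul_add, add_mul, smul_add, rtau_add, rtau_sub]
  ring

theorem linZ_zero (hv : Inv S p y st) (ρ : ℝ) : linZ S p ρ st 0 = 0 := by
  have h := linZ_add hv ρ (a := 0) (b := 0) (fun _ => zero_mem _) (fun _ => zero_mem _)
  rw [add_zero] at h
  linarith

theorem linZ_sum {ι : Type*} (hv : Inv S p y st) (ρ : ℝ) (s : Finset ι)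
    (x : ι → Fin p.r → Op H) (hx : ∀ f c, x f c ∈ S.A) :
    ∑ f ∈ s, linZ S p ρ st (x f) = linZ S p ρ st (∑ f ∈ s, x f) := by
  classical
  induction s using Finset.induction with
  | empty => simp [linZ_zero hv ρ]
  | insert i s hi ih =>
    rw [Finset.sum_insert hi, Finset.sum_insert hi, ih, linZ_add hv ρ (hx i)]
    intro c
    rw [Finset.sum_apply]
    exact sum_mem fun f _ => hx f c

end Walk

end Vale.Agent.P078
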