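import Vale.Agent.P078.Walk.Approx
import Vale.Agent.P078.Walk.Moments

/-!
# P078: one move lowers the potential

Given the two drift bounds for the covariance of the killing operator, a ready state with at least
`δ` unresolved trace has a move that lowers the potential by a fixed amount.
-/

noncomputable section

namespace Vale.Agent.P078

open scoped InnerProductSpace Topology
open Filter

universe u

variable {H : Type u} [NormedAddCommGroup H] [InnerProductSpace ℂ H] [CompleteSpace H]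

namespace Walk

variable (S : Std H) (p : Par)

/-- An admissible covariance for colour `c`, with its diagonal `d`, weight `w` and slack `e`. -/
structure ColCov {r : ℕ} (st : St H r) (c : Fin r) (w d e : Op H) (U : S.L2A →L[ℂ] S.L2A) : Prop where
  w_mem : w ∈ S.A
  d_mem : d ∈ S.A
  e_mem : e ∈ S.A
  w_nonneg : 0 ≤ w
  d_nonneg : 0 ≤ d
  e_nonneg : 0 ≤ e
  w_act : w * st.act c = w
  d_act : d * st.act c = d
  d_le : d ≤ w
  w_le : w ≤ (1 + (4 : ℝ) • (p.cν • (st.h c + 1 - st.act c))) * (d + e)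
  U_mem : U ∈ S.alg
  U_nonneg : 0 ≤ U
  U_le : U ≤ S.mul w
  kexp_U : S.kexp U = d

/-- The two drift bounds at a state. -/
structure DriftBounds (st : St H p.r) : Prop where
  pot : ∀ c i, ∃ C : ℝ, ∀ w d e U, ColCov S p st c w d e U →
    (S.ktr (S.T (Qc p st c i) (Qc p st c i * Qc p st c i) * U)).re ≤ C * S.rtau e
  kill : ∀ c, ∀ b ∈ S.A, 0 ≤ b → st.u * b = b → ∃ C : ℝ, ∀ w d e U, ColCov S p st c w d e U →
    ∑ i, (p.v⁻¹ * (S.ktr (S.mul b * S.T (Qc p st c i) (Qc p st c i) * U)).re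
        + p.v⁻¹ ^ 2 * (S.ktr (S.T (Qc p st c i) (Qc p st c i * (b * st.h c) * Qc p st c i) * U)).re)
      - 2 * p.κ * S.rtau (b * d) ≤ C * S.rtau e

/-- The leverage allowed in colour `c`. -/
def nuEl {r : ℕ} (st : St H r) (c : Fin r) : Op H := p.cν • (st.h c + 1 - st.act c)

variable {S p} {y : Op H} {η : ℝ} {st : St H p.r}

theorem Inv.nuEl_bounds (hv : Inv S p y st) (hR : Ready S p η y st) (c : Fin p.r) :
    nuEl p st c ∈ S.A ∧ (p.cν * min p.hmin 1) • (1 : Op H) ≤ nuEl p st c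
      ∧ nuEl p st c ≤ (1 / 4 : ℝ) • (1 : Op H) ∧ p.cν • st.h c ≤ nuEl p st c := by
  have hcν : (0 : ℝ) ≤ p.cν := by norm_num [Par.cν]
  have hap := hv.act_proj c
  refine ⟨smul_mem_A' _ (sub_mem (add_mem (hv.h_mem c) (one_mem _)) (hv.act_mem c)), ?_, ?_, ?_⟩
  · rw [nuEl, mul_smul]
    refine smul_le_smul_of_nonneg_left ?_ hcν
    calc min p.hmin 1 • (1 : Op H)
        = min p.hmin 1 • st.act c + min p.hmin 1 • (1 - st.act c) := by
          rw [← smul_add, add_sub_cancel]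
      _ ≤ p.hmin • st.act c + (1 : ℝ) • (1 - st.act c) :=
          add_le_add (smul_le_smul_of_nonneg_right (min_le_left _ _) hap.nonneg)
            (smul_le_smul_of_nonneg_right (min_le_right _ _) hap.one_sub.nonneg)
      _ ≤ st.h c + (1 : ℝ) • (1 - st.act c) := by
          refine add_le_add ((hR.h_low c).trans ?_) le_rfl
          exact mul_le_self_of_le_one (hv.h_nonneg c) hap.le_one
            (S.A_comm _ (hv.h_mem c) _ (hv.act_mem c))
      _ = st.h c + 1 - st.act c := by rw [one_smul]; abel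
  · have h2 : st.h c + 1 - st.act c ≤ (2 : ℝ) • (1 : Op H) := by
      rw [two_smul]
      exact (sub_le_self _ hap.nonneg).trans (add_le_add (hv.h_le c) le_rfl)
    refine (smul_le_smul_of_nonneg_left h2 hcν).trans ?_
    · rw [smul_smul]
      exact smul_le_smul_of_nonneg_right (by norm_num [Par.cν]) zero_le_one
  · refine smul_le_smul_of_nonneg_left ?_ hcν
    rw [add_sub_assoc]
    exact le_add_of_nonneg_right hap.one_sub.nonneg

theorem tr_mul_move {G L : S.L2A →L[ℂ] S.L2A} (hG : G ∈ S.alg) (hL : L ∈ S.alg) :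
    (S.ktr (star L * G * L)).re = (stdData S).tr (G * (L * star L)) := by
  change _ = (S.ktr (G * (L * star L))).re
  rw [mul_assoc, Std.ktr_mul_comm (star_mem hL) (mul_mem hG hL), mul_assoc]

theorem Inv.tr_formOp (hv : Inv S p y st) (ρ : ℝ) (c : Fin p.r) {U : S.L2A →L[ℂ] S.L2A}
    (hU : U ∈ S.alg) :
    (stdData S).tr (formOp S p ρ st c * U)
      = 2 / Real.sqrt ρ * (∑ i, (p.v⁻¹ * (S.ktr (S.mul st.bd * S.T (Qc p st c i) (Qc p st c i) * U)).re
          + p.v⁻¹ ^ 2 * (S.ktr (S.T (Qc p st c i)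
              (Qc p st c i * (st.bd * st.h c) * Qc p st c i) * U)).re)
          - 2 * p.κ * S.rtau (st.bd * S.kexp U))
        + ∑ i, p.v⁻¹ ^ 2 * (S.ktr (S.T (Qc p st c i) (Qc p st c i * Qc p st c i) * U)).re
        - S.rtau (S.kexp U) := by
  set T := stdData S with hT
  have hQ := hv.Q_mem c
  have a1 : ∀ i, S.mul st.bd * S.T (Qc p st c i) (Qc p st c i) ∈ S.alg := fun i =>
    mul_mem (Std.mul_mem_alg hv.bd_mem) (Std.T_mem_alg (hQ i) (hQ i))
  have a2 : ∀ i, S.T (Qc p st c i) (Qc p st c i * (st.bd * st.h c) * Qc p st c i) ∈ S.alg := fun i =>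
    Std.T_mem_alg (hQ i) (mul_mem (mul_mem (hQ i) (S.A_le (mul_mem hv.bd_mem (hv.h_mem c)))) (hQ i))
  have a3 : ∀ i, S.T (Qc p st c i) (Qc p st c i * Qc p st c i) ∈ S.alg := fun i =>
    Std.T_mem_alg (hQ i) (mul_mem (hQ i) (hQ i))
  have a4 : S.mul st.bd ∈ S.alg := Std.mul_mem_alg hv.bd_mem
  have hs : ∀ (t : ℝ) {F : S.L2A →L[ℂ] S.L2A}, F ∈ S.alg →
      T.tr ((t • F) * U) = t * T.tr (F * U) := fun t {F} hF => by
    rw [← T.tr_smul t _ (mul_mem hF hU)]
    congr 1
  have hadd : ∀ {F G : S.L2A →L[ℂ] S.L2A}, F ∈ S.alg → G ∈ S.alg →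
      T.tr ((F + G) * U) = T.tr (F * U) + T.tr (G * U) := fun hF hG => by
    rw [add_mul, T.tr_add _ (mul_mem hF hU) _ (mul_mem hG hU)]
  have hsub : ∀ {F G : S.L2A →L[ℂ] S.L2A}, F ∈ S.alg → G ∈ S.alg →
      T.tr ((F - G) * U) = T.tr (F * U) - T.tr (G * U) := fun hF hG => by
    rw [sub_mul, T.tr_sub (mul_mem hF hU) (mul_mem hG hU)]
  have e4 : T.tr (S.mul st.bd * U) = S.rtau (st.bd * S.kexp U) := by
    change (S.ktr _).re = _
    rw [Std.ktr_mul_kexp hU hv.bd_mem]
    rfl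
  have e5 : T.tr U = S.rtau (S.kexp U) := by
    change (S.ktr _).re = _
    rw [← Std.tau_kexp hU]
    rfl
  set f1 := fun i => p.v⁻¹ • (S.mul st.bd * S.T (Qc p st c i) (Qc p st c i))
  set f2 := fun i => p.v⁻¹ ^ 2 • S.T (Qc p st c i) (Qc p st c i * (st.bd * st.h c) * Qc p st c i)
  have m : ∀ i, f1 i + f2 i - p.κ • S.mul st.bd ∈ S.alg := fun i =>
    sub_mem (add_mem (alg_smul_mem _ (a1 i)) (alg_smul_mem _ (a2 i))) (alg_smul_mem _ a4)
  have m' : ∀ i, p.v⁻¹ ^ 2 • S.T (Qc p st c i) (Qc p st c i * Qc p st c i) ∈ S.alg := fun i =>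
    alg_smul_mem _ (a3 i)
  rw [formOp, Fin.sum_univ_two, Fin.sum_univ_two,
    hsub (add_mem (alg_smul_mem _ (add_mem (m 0) (m 1))) (add_mem (m' 0) (m' 1))) (one_mem _),
    hadd (alg_smul_mem _ (add_mem (m 0) (m 1))) (add_mem (m' 0) (m' 1)),
    hs _ (add_mem (m 0) (m 1)), hadd (m 0) (m 1), hadd (m' 0) (m' 1),
    hsub (add_mem (alg_smul_mem _ (a1 0)) (alg_smul_mem _ (a2 0))) (alg_smul_mem _ a4),
    hsub (add_mem (alg_smul_mem _ (a1 1)) (alg_smul_mem _ (a2 1))) (alg_smul_mem _ a4),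
    hadd (alg_smul_mem _ (a1 0)) (alg_smul_mem _ (a2 0)),
    hadd (alg_smul_mem _ (a1 1)) (alg_smul_mem _ (a2 1)),
    hs _ (a1 0), hs _ (a1 1), hs _ (a2 0), hs _ (a2 1), hs _ a4, hs _ (a3 0), hs _ (a3 1),
    one_mul, e4, e5, Fin.sum_univ_two, Fin.sum_univ_two]
  change 2 / Real.sqrt ρ * (p.v⁻¹ * (S.ktr _).re + p.v⁻¹ ^ 2 * (S.ktr _).re - _
    + (p.v⁻¹ * (S.ktr _).re + p.v⁻¹ ^ 2 * (S.ktr _).re - _))
    + (p.v⁻¹ ^ 2 * (S.ktr _).re + p.v⁻¹ ^ 2 * (S.ktr _).re) - _ = _
  ring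

theorem cov_weights (hv : Inv S p y st) (c : Fin p.r) {ρ : ℝ} (hρ : 0 < ρ)
    {R : Fin p.r → (S.L2A →L[ℂ] S.L2A)} (hR : ∀ c, R c ∈ S.alg) {w e : Fin p.r → Op H}
    (hw : ∀ c, w c ∈ S.A ∧ 0 ≤ w c ∧ w c * st.act c = w c) (he : e c ∈ S.A ∧ 0 ≤ e c)
    (hwle : S.mul (w c) ≤ (1 + (4 : ℝ) • S.mul (nuEl p st c)) * (S.mul (w c)
      - S.mul (w c) * (stdData S).quad ρ R (fun c => S.mul (w c)) c * S.mul (w c) + S.mul (e c)))
    (hν : nuEl p st c ∈ S.A) :
    ColCov S p st c (w c) (S.kexp (TraceData.killU R (fun c => S.mul (w c))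
      (fun c => S.mul (CFC.sqrt (w c))) (TraceData.res ρ R fun c => S.mul (w c)) c)) (e c)
      (TraceData.killU R (fun c => S.mul (w c))
        (fun c => S.mul (CFC.sqrt (w c))) (TraceData.res ρ R fun c => S.mul (w c)) c) := by
  set mw := fun c => S.mul (w c)
  set sw := fun c => S.mul (CFC.sqrt (w c))
  have hrd : TraceData.RootData (stdData S) R mw sw :=
    rootData hR fun c => ⟨(hw c).1, (hw c).2.1⟩
  set U := TraceData.killU R mw sw (TraceData.res ρ R mw) c with hUdef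
  have hUeq := hrd.killU_res hρ c
  have hwB : mw c ∈ S.alg := Std.mul_mem_alg (hw c).1
  have hUm : U ∈ S.alg := by
    rw [hUdef, hUeq]
    exact sub_mem hwB (mul_mem (mul_mem hwB
      ((stdData S).quad_arg_mem hρ hrd.R_mem hrd.w_mem hrd.w_nonneg c)) hwB)
  have hU0 : 0 ≤ U := TraceData.killU_nonneg (R := R) (w := mw) (sw := sw) _ c
  have hUle : U ≤ S.mul (w c) := hrd.killU_res_le hρ c
  have hk : S.mul (S.kexp U) = mw c - mw c * (stdData S).quad ρ R mw c * mw c := hrd.Phi_killU hρ c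
  have hkd : S.kexp U * st.act c = S.kexp U := by
    have e1 : U * S.mul (st.act c) = U := by
      have hwa : mw c * S.mul (st.act c) = mw c := by
        change S.mul (w c) * _ = S.mul (w c)
        rw [← S.mul_mul (hw c).1 (hv.act_mem c), (hw c).2.2]
      rw [hUdef, hUeq, sub_mul, mul_assoc (mw c * _), hwa]
    have e2 := Std.kexp_bimod (one_mem S.A) (hv.act_mem c) hUm
    rw [S.mul_one, one_mul, e1, one_mul] at e2
    exact e2.symm
  have hle : S.kexp U ≤ w c := by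
    have h1 := Std.kexp_nonneg (sub_mem hwB hUm) (sub_nonneg.mpr hUle)
    rwa [Std.kexp_sub hwB hUm, Std.kexp_mul (hw c).1, sub_nonneg] at h1
  refine ⟨(hw c).1, Std.kexp_mem U, he.1, (hw c).2.1, Std.kexp_nonneg hUm hU0, he.2, (hw c).2.2,
    hkd, hle, ?_, hUm, hU0, hUle, rfl⟩
  change w c ≤ (1 + (4 : ℝ) • nuEl p st c) * _
  rw [← mul_le_mul_iff S (hw c).1 (mul_mem (add_mem (one_mem _)
    (smul_mem_A' _ hν)) (add_mem (Std.kexp_mem U) he.1))]
  change S.mul (w c) ≤ S.mul ((1 + (4 : ℝ) • nuEl p st c) * _)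
  rw [S.mul_mul (add_mem (one_mem _) (smul_mem_A' _ hν)) (add_mem (Std.kexp_mem U) he.1),
    S.mul_add, S.mul_add, S.mul_one, mul_smul_real, hk]
  exact hwle

theorem clock_lower (hg : p.Good) (hv : Inv S p y st) (hR : Ready S p η y st)
    {w d e : Fin p.r → Op H} (hc : ∀ c, ∃ U, ColCov S p st c (w c) (d c) (e c) U)
    (hwa : ∀ c, w c ≤ st.act c)
    (hlost : ∑ c, S.rtau (nuEl p st c * (st.act c - w c)) ≤ S.rtau st.u) :
    3 * p.L / 16 * S.rtau st.u - ∑ c, S.rtau (e c) ≤ ∑ c, S.rtau (d c) := by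
  have hcν : (0 : ℝ) < p.cν := by norm_num [Par.cν]
  have hmono : ∀ {a b : Op H}, a ≤ b → S.rtau a ≤ S.rtau b := fun h => S.re_tau_mono h
  have hu0 : 0 ≤ S.rtau st.u := S.re_tau_nonneg hv.u_proj.nonneg
  choose U hU using hc
  have h1 : ∀ c, S.rtau (w c) ≤ 2 * (S.rtau (d c) + S.rtau (e c)) := by
    intro c
    rw [← rtau_add, ← rtau_smul]
    refine hmono ((hU c).w_le.trans ?_)
    have hde : 0 ≤ d c + e c := add_nonneg (hU c).d_nonneg (hU c).e_nonneg
    have hν := hv.nuEl_bounds hR c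
    have h4 : 1 + (4 : ℝ) • nuEl p st c ≤ (2 : ℝ) • (1 : Op H) := by
      rw [two_smul]
      refine add_le_add le_rfl ((smul_le_smul_of_nonneg_left hν.2.2.1 (by norm_num)).trans ?_)
      rw [smul_smul]
      norm_num
    have hm : d c + e c ∈ S.A := add_mem (hU c).d_mem (hU c).e_mem
    calc (1 + (4 : ℝ) • (p.cν • (st.h c + 1 - st.act c))) * (d c + e c)
        = (d c + e c) * (1 + (4 : ℝ) • nuEl p st c) :=
          S.A_comm _ (add_mem (one_mem _) (smul_mem_A' _ hν.1)) _ hm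
      _ ≤ (d c + e c) * ((2 : ℝ) • 1) := mul_le_mul_left_of_comm hde h4
          (S.A_comm _ hm _ (add_mem (one_mem _) (smul_mem_A' _ hν.1))) (by simp)
      _ = (2 : ℝ) • (d c + e c) := by rw [mul_smul_comm, mul_one]
  have h2 : ∀ c, S.rtau (st.h c * st.act c) - p.cν⁻¹ * S.rtau (nuEl p st c * (st.act c - w c))
      ≤ S.rtau (w c) := by
    intro c
    have hwm := (hU c).w_mem
    have hν := hv.nuEl_bounds hR c
    have hd0 : 0 ≤ st.act c - w c := sub_nonneg.mpr (hwa c)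
    have hdm : st.act c - w c ∈ S.A := sub_mem (hv.act_mem c) hwm
    have h3 : p.cν * S.rtau (st.h c * (st.act c - w c))
        ≤ S.rtau (nuEl p st c * (st.act c - w c)) := by
      rw [← rtau_smul, ← smul_mul_assoc, S.A_comm _ (smul_mem_A' _ (hv.h_mem c)) _ hdm,
        S.A_comm _ hν.1 _ hdm]
      exact hmono (mul_le_mul_left_of_comm hd0 hν.2.2.2
        (S.A_comm _ hdm _ (smul_mem_A' _ (hv.h_mem c))) (S.A_comm _ hdm _ hν.1))
    have h4 : S.rtau (st.h c * w c) ≤ S.rtau (w c) := by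
      rw [S.A_comm _ (hv.h_mem c) _ hwm]
      exact hmono (mul_le_self_of_le_one (hU c).w_nonneg (hv.h_le c)
        (S.A_comm _ hwm _ (hv.h_mem c)))
    have h5 : S.rtau (st.h c * (st.act c - w c))
        = S.rtau (st.h c * st.act c) - S.rtau (st.h c * w c) := by rw [mul_sub, rtau_sub]
    have h6 := mul_le_mul_of_nonneg_left h3 (inv_nonneg.mpr hcν.le)
    rw [← mul_assoc, inv_mul_cancel₀ hcν.ne', one_mul] at h6
    linarith
  have h7 : p.L / 2 * S.rtau st.u ≤ ∑ c, S.rtau (st.h c * st.act c) := by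
    rw [← rtau_sum, ← rtau_smul]
    refine hmono (hR.heavy.trans (le_of_eq ?_))
    rw [Finset.mul_sum]
    refine Finset.sum_congr rfl fun c _ => ?_
    rw [St.act, ← mul_assoc, S.A_comm _ (hv.h_mem c) _ hv.u_mem, mul_assoc, hv.h_al]
  have h8 := Finset.sum_le_sum fun c (_ : c ∈ Finset.univ) => h2 c
  have h9 := Finset.sum_le_sum fun c (_ : c ∈ Finset.univ) => h1 c
  rw [Finset.sum_sub_distrib, ← Finset.mul_sum] at h8
  rw [← Finset.mul_sum, Finset.sum_add_distrib] at h9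
  have h10 : p.cν⁻¹ ≤ p.L / 8 := by
    rw [inv_le_iff_one_le_mul₀' hcν]
    linarith [hg.r_big]
  have h11 := mul_le_mul_of_nonneg_left hlost (inv_nonneg.mpr hcν.le)
  have h12 := mul_le_mul_of_nonneg_right h10 hu0
  linarith

theorem Par.Good.L_big (hg : p.Good) : 800000 ≤ p.L := by
  have h := hg.r_big
  rw [Par.cν] at h
  linarith

theorem exists_move_of_drift (hg : p.Good) (hy : Inp S y) {δ η ρ : ℝ} (hδ : 0 < δ) (hη : 0 < η)
    (hη1 : η ≤ 1) (hρ : 0 < ρ) (hρ1 : ρ ≤ 1)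
    (hdrift : ∀ st : St H p.r, Inv S p y st → Ready S p η y st → DriftBounds S p st) :
    ∃ t > 0, ∀ st : St H p.r, Inv S p y st → Ready S p η y st → δ ≤ S.rtau st.u →
      ∃ st' : St H p.r, Inv S p y st' ∧ Zpot S p ρ η y st' ≤ Zpot S p ρ η y st - t := by
  have hL := hg.L_big
  have hLδ : 0 < p.L * δ := mul_pos (by linarith) hδ
  have hvpos := hg.v_pos
  have hQb : 0 < Qbd η := by unfold Qbd; positivity
  have hsq : 0 < Real.sqrt ρ := Real.sqrt_pos.mpr hρ
  have hk : 0 ≤ Kbd p η := by unfold Kbd; positivity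
  have hCR : 0 ≤ CRow p η := by unfold CRow; positivity
  have hCF : 0 ≤ CForm p ρ η := by unfold CForm; positivity
  set N := (p.r : ℝ) * CForm p ρ η + 2 / Real.sqrt ρ + 1 with hN
  have hN0 : 0 < N := by positivity
  set ηN := p.L * δ / (64 * N) with hηNdef
  have hηN : 0 < ηN := by positivity
  obtain ⟨CL, hCL⟩ := exists_approx S p.r (CRow p η) ρ ηN hCR hρ hηN
  have hCx : 0 ≤ (p.r : ℝ) * |CL| := by positivity
  obtain ⟨C, t₀, ht₀, hstep⟩ := exists_step (S := S) hg hy hη hη1 ρ hCx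
  set t := min t₀ (p.L * δ / (16 * (|C| + 1))) with ht
  have htpos : 0 < t := lt_min ht₀ (by positivity)
  refine ⟨t ^ 2 * (p.L * δ / 16), by positivity, fun st0 hv0 hR0 hu0 => ?_⟩
  obtain ⟨st, hv, hR, hbd, hueq, hZ⟩ := exists_cap hg hy hv0 hR0 hη hη1 ρ
  have hu : δ ≤ S.rtau st.u := by rwa [hueq]
  have hDB := hdrift st hv hR
  choose Cp hCp using hDB.pot
  choose Ck hCk using fun c => hDB.kill c st.bd hv.bd_mem hv.bd_nonneg hv.bd_u
  set Cc := fun c => 2 / Real.sqrt ρ * |Ck c| + ∑ i, p.v⁻¹ ^ 2 * |Cp c i| + 1 with hCc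
  have hCc0 : ∀ c, 1 ≤ Cc c := fun c => by
    rw [hCc]
    exact le_add_of_nonneg_left (by positivity)
  have hCcsum : 0 ≤ ∑ c, Cc c := Finset.sum_nonneg fun c _ => zero_le_one.trans (hCc0 c)
  set ηe := p.L * δ / (64 * (∑ c, Cc c + 1)) with hηedef
  have hηe : 0 < ηe := by positivity
  -- weights
  set T := stdData S with hT
  have hν := hv.nuEl_bounds hR
  have hrow := fun c => hR.rowOp_bounds hg hy hv hη hη1 c
  set R := fun c => rowOp S p st c with hRdef
  have hcol : TraceData.ColData T (fun c => S.mul (st.act c)) (fun c => S.mul (nuEl p st c)) :=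
    { a_mem := fun c => ⟨_, hv.act_mem c, rfl⟩
      a_proj := fun c => mul_proj S (hv.act_mem c) (hv.act_proj c)
      nu_mem := fun c => ⟨_, (hν c).1, rfl⟩
      nu_pos := fun c => ⟨p.cν * min p.hmin 1,
        mul_pos (by norm_num [Par.cν]) (lt_min hg.hmin_pos one_pos), by
        rw [← S.mul_one, ← mul_smul_real]
        exact (mul_le_mul_iff S (smul_mem_A' _ (one_mem _)) (hν c).1).mpr (hν c).2.1⟩
      nu_small := fun c => by
        rw [← S.mul_one, ← mul_smul_real]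
        exact (mul_le_mul_iff S (hν c).1 (smul_mem_A' _ (one_mem _))).mpr (hν c).2.2.1 }
  obtain ⟨W, E, hW, hlost, hE, hEsum, hWle⟩ := hcol.exists_weights (ρ := ρ) (R := R) hρ
    (fun c => hv.rowOp_mem c) (u := S.mul st.u) (Std.mul_mem_alg hv.u_mem)
    (mul_proj S hv.u_mem hv.u_proj) (fun c => (hrow c).2.2.2) hηe
  choose w hwm hwW using fun c => (hW c).1
  choose e hem heE using fun c => (hE c).1
  have hWeq : W = fun c => S.mul (w c) := funext fun c => (hwW c).symm
  have hw0 : ∀ c, 0 ≤ w c := fun c => (mul_nonneg_iff S (hwm c)).mp (hwW c ▸ (hW c).2.1)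
  have hwa : ∀ c, w c ≤ st.act c := fun c =>
    (mul_le_mul_iff S (hwm c) (hv.act_mem c)).mp (hwW c ▸ (hW c).2.2.1)
  have hwact : ∀ c, w c * st.act c = w c := fun c =>
    S.mul_inj (mul_mem (hwm c) (hv.act_mem c)) (hwm c) (by
      rw [S.mul_mul (hwm c) (hv.act_mem c), hwW c]
      exact (hW c).2.2.2)
  have he0 : ∀ c, 0 ≤ e c := fun c => (mul_nonneg_iff S (hem c)).mp (heE c ▸ (hE c).2)
  set mw := fun c => S.mul (w c) with hmw
  set sw := fun c => S.mul (CFC.sqrt (w c)) with hswdef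
  set U := fun c => TraceData.killU R mw sw (TraceData.res ρ R mw) c with hUdef
  have hcov : ∀ c, ColCov S p st c (w c) (S.kexp (U c)) (e c) (U c) := fun c => by
    refine cov_weights hv c hρ (fun c => hv.rowOp_mem c)
      (fun c => ⟨hwm c, hw0 c, hwact c⟩) ⟨hem c, he0 c⟩ ?_ (hν c).1
    have h := hWle c
    rw [hWeq] at h
    rw [heE c]
    exact h
  have hlost' : ∑ c, S.rtau (nuEl p st c * (st.act c - w c)) ≤ S.rtau st.u := by
    refine le_of_eq_of_le (Finset.sum_congr rfl fun c _ => ?_) (hlost.trans (le_of_eq ?_))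
    · rw [← hwW c, ← S.mul_sub, ← S.mul_mul (hν c).1 (sub_mem (hv.act_mem c) (hwm c)),
        hT, tr_mul_eq S (mul_mem (hν c).1 (sub_mem (hv.act_mem c) (hwm c)))]
      rfl
    · rw [hT, tr_mul_eq S hv.u_mem]
      rfl
  have hesum : ∑ c, S.rtau (e c) ≤ ηe := by
    refine le_of_eq_of_le (Finset.sum_congr rfl fun c _ => ?_) hEsum
    rw [← heE c, hT, tr_mul_eq S (hem c)]
    rfl
  have hclock := clock_lower hg hv hR (fun c => ⟨U c, hcov c⟩) hwa hlost'
  -- approximation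
  obtain ⟨Z, hZm, hL', hUN, hKN⟩ := hCL (fun c => st.act c) w R st.u
    (fun c => ⟨hv.act_mem c, hv.act_proj c, hwm c, hw0 c, hwa c, hwact c⟩)
    (fun c => ⟨hv.rowOp_mem c, (hrow c).1, (hrow c).2.1, (hrow c).2.2.1, (hrow c).2.2.2⟩)
    hv.u_mem hv.u_proj
  set Lop := TraceData.killL R mw sw Z with hLop
  set Krow := fun d => TraceData.killRow R mw sw Z d with hKrow
  have hKm : ∀ d, Krow d ∈ S.alg := fun d =>
    sum_mem fun c _ => mul_mem (hv.rowOp_mem c) (hL' c d).1
  -- the limit of the averages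
  set avg : S.Parti → ℝ := fun P =>
    (∑ c, ∑ d, (S.kdiag P (star (Lop c d) * formOp S p ρ st c * Lop c d)).re)
      + 2 / Real.sqrt ρ * ∑ d, (S.kdiag P (star (Krow d) * Krow d)).re with havg
  set lim : ℝ := (∑ c, ∑ d, (S.ktr (star (Lop c d) * formOp S p ρ st c * Lop c d)).re)
      + 2 / Real.sqrt ρ * ∑ d, (S.ktr (star (Krow d) * Krow d)).re with hlim
  have hmem1 : ∀ c d, star (Lop c d) * formOp S p ρ st c * Lop c d ∈ S.alg := fun c d =>
    mul_mem (mul_mem (star_mem (hL' c d).1) (hv.formOp_mem ρ c)) (hL' c d).1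
  have hmem2 : ∀ d, star (Krow d) * Krow d ∈ S.alg := fun d => mul_mem (star_mem (hKm d)) (hKm d)
  have htend : Tendsto avg S.fine (𝓝 lim) := by
    refine Tendsto.add (tendsto_finsetSum _ fun c _ => tendsto_finsetSum _ fun d _ => ?_)
      (Tendsto.const_mul _ (tendsto_finsetSum _ fun d _ => ?_))
    · exact (Complex.continuous_re.tendsto _).comp (Std.ktr_tendsto' (hmem1 c d))
    · exact (Complex.continuous_re.tendsto _).comp (Std.ktr_tendsto' (hmem2 d))
  have hlimle : lim ≤ -(17 * p.L * δ / 128) := by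
    have h1 : ∀ c, ∑ d, (S.ktr (star (Lop c d) * formOp S p ρ st c * Lop c d)).re
        ≤ T.tr (formOp S p ρ st c * U c) + CForm p ρ η * ηN := by
      intro c
      have hG := hv.formOp_mem ρ c
      have hUm := (hcov c).U_mem
      have hUhm : TraceData.killU R mw sw Z c ∈ S.alg :=
        sum_mem fun d _ => mul_mem (hL' c d).1 (star_mem (hL' c d).1)
      rw [Finset.sum_congr rfl fun d _ => tr_mul_move hG (hL' c d).1,
        ← T.tr_sum _ _ fun d _ => mul_mem hG (mul_mem (hL' c d).1 (star_mem (hL' c d).1)),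
        ← Finset.mul_sum]
      change T.tr (formOp S p ρ st c * TraceData.killU R mw sw Z c) ≤ _
      have h2 := (le_abs_self _).trans (T.tr_le _ (mul_mem hG (sub_mem hUhm hUm)))
      rw [mul_sub, T.tr_sub (mul_mem hG hUhm) (mul_mem hG hUm)] at h2
      have h3 := h2.trans (le_of_eq_of_le (by rw [← mul_sub])
        (op_mul_norm_le (hR.norm_formOp hg hy hv hη hη1 hbd ρ c) (hUN c)))
      linarith
    have h2 : ∀ c, T.tr (formOp S p ρ st c * U c)
        ≤ Cc c * S.rtau (e c) - S.rtau (S.kexp (U c)) := by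
      intro c
      rw [hv.tr_formOp ρ c (hcov c).U_mem]
      have he := S.re_tau_nonneg (he0 c)
      have hk1 := mul_le_mul_of_nonneg_left ((hCk c _ _ _ _ (hcov c)).trans
        (mul_le_mul_of_nonneg_right (le_abs_self (Ck c)) he))
        (by positivity : (0 : ℝ) ≤ 2 / Real.sqrt ρ)
      have hp1 : ∑ i, p.v⁻¹ ^ 2 * (S.ktr (S.T (Qc p st c i) (Qc p st c i * Qc p st c i) * U c)).re
          ≤ (∑ i, p.v⁻¹ ^ 2 * |Cp c i|) * S.rtau (e c) := by
        rw [Finset.sum_mul]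
        refine Finset.sum_le_sum fun i _ => ?_
        rw [mul_assoc]
        exact mul_le_mul_of_nonneg_left ((hCp c i _ _ _ _ (hcov c)).trans
          (mul_le_mul_of_nonneg_right (le_abs_self _) he)) (by positivity)
      have he' : 0 ≤ S.rtau (e c) := he
      rw [hCc]
      linarith
    have h3 : ∑ d, (S.ktr (star (Krow d) * Krow d)).re ≤ ρ * S.rtau st.u + ηN := by
      refine le_of_eq_of_le (Finset.sum_congr rfl fun d _ => ?_) hKN
      change _ = (S.ktr _).re
      rw [Std.ktr_mul_comm (star_mem (hKm d)) (hKm d)]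
    have h4 : ∑ c, Cc c * S.rtau (e c) ≤ p.L * δ / 64 := by
      calc ∑ c, Cc c * S.rtau (e c) ≤ ∑ c, (∑ b, Cc b + 1) * S.rtau (e c) := by
            refine Finset.sum_le_sum fun c _ =>
              mul_le_mul_of_nonneg_right ?_ (S.re_tau_nonneg (he0 c))
            have := Finset.single_le_sum (f := Cc) (fun i _ => zero_le_one.trans (hCc0 i))
              (Finset.mem_univ c)
            linarith
        _ = (∑ b, Cc b + 1) * ∑ c, S.rtau (e c) := (Finset.mul_sum _ _ _).symm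
        _ ≤ (∑ b, Cc b + 1) * ηe := mul_le_mul_of_nonneg_left hesum (by linarith)
        _ = p.L * δ / 64 := by rw [hηedef]; field_simp
    have h5 : (p.r : ℝ) * (CForm p ρ η * ηN) + 2 / Real.sqrt ρ * ηN ≤ p.L * δ / 64 := by
      have h51 : N * ηN = p.L * δ / 64 := by rw [hηNdef]; field_simp
      rw [← h51, hN]
      linarith
    have h6 : 2 / Real.sqrt ρ * (ρ * S.rtau st.u) ≤ 2 * S.rtau st.u := by
      have e1 : 2 / Real.sqrt ρ * (ρ * S.rtau st.u) = 2 * Real.sqrt ρ * S.rtau st.u := by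
        field_simp
        rw [Real.sq_sqrt hρ.le]
      rw [e1]
      refine mul_le_mul_of_nonneg_right ?_ (S.re_tau_nonneg hv.u_proj.nonneg)
      have : Real.sqrt ρ ≤ 1 := Real.sqrt_le_one.mpr hρ1
      linarith
    have h7 : ∑ c, S.rtau (e c) ≤ p.L * δ / 64 := by
      refine hesum.trans ?_
      rw [hηedef]
      gcongr
      linarith
    have h8 := Finset.sum_le_sum fun c (_ : c ∈ Finset.univ) => (h1 c).trans
      (add_le_add (h2 c) le_rfl)
    have h9 := mul_le_mul_of_nonneg_left h3 (by positivity : (0 : ℝ) ≤ 2 / Real.sqrt ρ)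
    simp only [Finset.sum_add_distrib, Finset.sum_sub_distrib, Finset.sum_const, Finset.card_univ,
      Fintype.card_fin, nsmul_eq_mul] at h8
    have h10 : (3 * p.L / 16 - 2) * δ ≤ (3 * p.L / 16 - 2) * S.rtau st.u :=
      mul_le_mul_of_nonneg_left hu (by linarith)
    have h11 : 800000 * δ ≤ p.L * δ := mul_le_mul_of_nonneg_right hL hδ.le
    rw [hlim]
    linarith
  obtain ⟨P, hP⟩ := (htend.eventually (gt_mem_nhds (show lim < -(p.L * δ / 8) by linarith))).exists
  -- the move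
  obtain ⟨X, hX⟩ := exists_move_vectors P Lop (CL := |CL|) (fun c => st.act c) hv.act_mem
    (fun c d => ((hL' c d).2.1).mono (le_abs_self CL)) (fun c d => (hL' c d).2.2)
  have hquad : ∑ f, quadZ S p ρ st (X f)
      = (Fintype.card (Fin p.r × Fin P.n → Bool) : ℝ) * avg P := by
    have e1 : ∀ f, quadZ S p ρ st (X f)
        = ∑ c, (inner ℂ (signSum (fun i : Fin p.r × Fin P.n => Lop c i.1 (S.av (P.p i.2))) f)
            (formOp S p ρ st c
              (signSum (fun i : Fin p.r × Fin P.n => Lop c i.1 (S.av (P.p i.2))) f))).re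
          + 2 / Real.sqrt ρ
            * ‖signSum (fun i : Fin p.r × Fin P.n => Krow i.1 (S.av (P.p i.2))) f‖ ^ 2 := by
      intro f
      rw [hv.quadZ_eq ρ fun c => ⟨(hX f c).1, (hX f c).2.1, (hX f c).2.2.2.1⟩]
      have e2 : ∑ c, rowOp S p st c (S.av (X f c))
          = signSum (fun i : Fin p.r × Fin P.n => Krow i.1 (S.av (P.p i.2))) f := by
        simp only [fun c => (hX f c).2.2.2.2, map_signSum, hKrow, TraceData.killRow, sum_apply]
        unfold signSum
        rw [Finset.sum_comm]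
        refine Finset.sum_congr rfl fun i _ => ?_
        rw [← Finset.smul_sum]
        rfl
      rw [e2]
      simp only [fun c => (hX f c).2.2.2.2]
    simp only [e1, Finset.sum_add_distrib, ← Finset.mul_sum]
    rw [Finset.sum_comm]
    simp only [sum_form_signSum, sum_normSq_signSum, ← Finset.mul_sum, havg]
    ring
  have hlin : ∑ f, linZ S p ρ st (X f) = 0 := by
    rw [linZ_sum hv ρ _ _ fun f c => (hX f c).1]
    have h0 : (∑ f, X f) = 0 := funext fun c => by
      rw [Finset.sum_apply]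
      exact move_mean_zero P Lop X (fun f c => (hX f c).1) (fun f c => (hX f c).2.2.2.2) c
    rw [h0, linZ_zero hv ρ]
  have hsum : ∑ f, (t * linZ S p ρ st (X f) + t ^ 2 * quadZ S p ρ st (X f))
      ≤ (Fintype.card (Fin p.r × Fin P.n → Bool) : ℝ) * (t ^ 2 * -(p.L * δ / 8)) := by
    rw [Finset.sum_add_distrib, ← Finset.mul_sum, ← Finset.mul_sum, hlin, hquad, mul_zero, zero_add,
      mul_left_comm]
    exact mul_le_mul_of_nonneg_left (mul_le_mul_of_nonneg_left hP.le (by positivity))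
      (Nat.cast_nonneg _)
  obtain ⟨f, hf⟩ := exists_le_average _ hsum
  obtain ⟨st', hv', hZ'⟩ := hstep st hv hR hbd (X f)
    (fun c => ⟨(hX f c).1, (hX f c).2.1, (hX f c).2.2.1, (hX f c).2.2.2.1⟩) t htpos (min_le_left _ _)
  refine ⟨st', hv', ?_⟩
  have hCt : C * t ^ 3 ≤ t ^ 2 * (p.L * δ / 16) := by
    have h1 : C * t ≤ p.L * δ / 16 := by
      calc C * t ≤ (|C| + 1) * t := mul_le_mul_of_nonneg_right
            (by linarith [le_abs_self C]) htpos.le
        _ ≤ (|C| + 1) * (p.L * δ / (16 * (|C| + 1))) :=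
            mul_le_mul_of_nonneg_left (min_le_right _ _) (by positivity)
        _ = p.L * δ / 16 := by field_simp
    have h2 := mul_le_mul_of_nonneg_left h1 (sq_nonneg t)
    linarith
  linarith

end Walk

end Vale.Agent.P078
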