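import Vale.Agent.P078.Walk.Drift
import Vale.Agent.P078.Walk.Move

/-!
# P078: the drift bounds of a ready state
-/

noncomputable section

namespace Vale.Agent.P078.Walk

universe u

variable {H : Type u} [NormedAddCommGroup H] [InnerProductSpace ℂ H] [CompleteSpace H]
variable {S : Std H} {p : Par} {y : Op H} {η : ℝ}

theorem ColCov.toCov {st : St H p.r} {c : Fin p.r} {w d e : Op H} {U : S.L2A →L[ℂ] S.L2A}
    (cv : ColCov S p st c w d e U) : Cov S p (st.h c) (st.act c) w d e U where
  w_mem := cv.w_mem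
  d_mem := cv.d_mem
  e_mem := cv.e_mem
  w_nonneg := cv.w_nonneg
  d_nonneg := cv.d_nonneg
  e_nonneg := cv.e_nonneg
  w_supp := cv.w_act
  d_supp := cv.d_act
  d_le := cv.d_le
  w_le := cv.w_le
  U_mem := cv.U_mem
  U_nonneg := cv.U_nonneg
  U_le := cv.U_le
  kexp_U := cv.kexp_U

/-- Every ready state satisfies the drift bounds. -/
theorem driftBounds (hg : p.Good) (hy : Inp S y) (st : St H p.r) (hv : Inv S p y st)
    (hR : Ready S p η y st) : DriftBounds S p st where
  pot c i := by
    obtain ⟨C, -, h⟩ := pot_drift hg hy hv hR c i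
    exact ⟨C, fun w d e U cv => h w d e U cv.toCov⟩
  kill c b hb hb0 _ := by
    obtain ⟨C, -, h⟩ := kill_drift hg hy hv hR c hb hb0
    exact ⟨C, fun w d e U cv => h w d e U cv.toCov⟩

end Vale.Agent.P078.Walk
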