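import Vale.Agent.P078.Walk.Ends
import Vale.Agent.P078.Walk.DriftBounds

/-!
# P078: the tracial core with exponent two
-/

noncomputable section

namespace Vale.Agent.P078.Walk

universe u

/-- `C / ε ^ 2` pieces pave every tracial pair in standard form. -/
theorem exists_const_paves :
    ∃ C : ℝ, ∀ (H : Type u) [NormedAddCommGroup H] [InnerProductSpace ℂ H] [CompleteSpace H]
      (S : Std H) (ε : ℝ), 0 < ε → ε ≤ 1 → ∃ r : ℕ, (r : ℝ) ≤ C / ε ^ 2 ∧ S.Paves ε r :=
  exists_const_of_steps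
    (fun _ _ _ _ _ _ _ hg hy δ η ρ hδ hη hη1 hρ hρ1 =>
      exists_move_of_drift hg hy hδ hη hη1.le hρ hρ1 fun st hv hR => driftBounds hg hy st hv hR)
    (fun _ _ _ _ S _ _ hg hy => endSteps S hg hy)

end Vale.Agent.P078.Walk
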