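import Vale.Agent.P078.Std.Mult

/-!
# P078: positivity of the maps `T X Y`
-/

noncomputable section

namespace Vale.Agent.P078

open scoped InnerProductSpace ComplexOrder

universe u

variable {H : Type u} [NormedAddCommGroup H] [InnerProductSpace ℂ H] [CompleteSpace H]

namespace Std

variable (S : Std H)

/-- An operator on `L²(A)` with nonnegative form on `A Ω` is nonnegative. -/
theorem nonneg_of_form {F : S.L2A →L[ℂ] S.L2A} (hF : IsSelfAdjoint F)
    (h : ∀ a : Op H, ∀ ha : a ∈ S.A,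
      0 ≤ (⟪(⟨a S.Ω, S.mem_L2A ha⟩ : S.L2A), F ⟨a S.Ω, S.mem_L2A ha⟩⟫_ℂ).re) :
    0 ≤ F := by
  rw [ContinuousLinearMap.nonneg_iff_isPositive, ContinuousLinearMap.isPositive_def']
  refine ⟨hF, fun x => ?_⟩
  rw [ContinuousLinearMap.reApplyInnerSelf_apply, inner_re_symm]
  have hc : Continuous fun z : S.L2A => (⟪z, F z⟫_ℂ).re :=
    Complex.continuous_re.comp (continuous_id.inner F.continuous)
  refine le_of_forall_pos_le_add fun ε hε => ?_
  obtain ⟨δ, hδ, hδ'⟩ := Metric.continuousAt_iff.1 (hc.continuousAt (x := x)) ε hε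
  obtain ⟨a, ha, hax⟩ := S.exists_near x hδ
  have h1 := hδ' (x := ⟨a S.Ω, S.mem_L2A ha⟩) (by rw [dist_eq_norm, Submodule.coe_norm]; exact hax)
  rw [Real.dist_eq] at h1
  have h2 := h a ha
  change (0 : ℝ) ≤ (⟪x, F x⟫_ℂ).re + ε
  linarith [(abs_lt.1 h1).2]

theorem re_tau_star_conj_mul_nonneg {P m Z : Op H} (hP : P ∈ S.M) (hP0 : 0 ≤ P) (hm : m ∈ S.M)
    (hm0 : 0 ≤ m) (hZ : Z ∈ S.M) : 0 ≤ (S.tau (star Z * P * Z * m)).re := by
  set r := CFC.sqrt m with hr
  have hrM : r ∈ S.M := S.sqrt_mem_M hm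
  have hrs : star r = r := (IsSelfAdjoint.of_nonneg (CFC.sqrt_nonneg m)).star_eq
  have hrr : r * r = m := CFC.sqrt_mul_sqrt_self m hm0
  have e : S.tau (star Z * P * Z * m) = S.tau (r * (star Z * P * Z) * r) := by
    rw [← hrr, ← mul_assoc (star Z * P * Z)]
    exact S.tau_comm (mul_mem (mul_mem (mul_mem (star_mem hZ) hP) hZ) hrM) hrM ▸
      (by simp only [mul_assoc])
  rw [e]
  refine S.re_tau_nonneg ?_
  have h0 := star_left_conjugate_nonneg (star_left_conjugate_nonneg hP0 Z) r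
  rwa [hrs] at h0

/-- The quadratic expansion: positivity of `c ↦ τ(Z* P Z m)`, `Z = X₁ c Y₁ + X₂ c Y₂`. -/
theorem pair_nonneg {P m X₁ X₂ Y₁ Y₂ : Op H} (hP : P ∈ S.M) (hP0 : 0 ≤ P) (hm : m ∈ S.M)
    (hm0 : 0 ≤ m) (hX₁ : X₁ ∈ S.M) (hX₂ : X₂ ∈ S.M) (hY₁ : Y₁ ∈ S.M) (hY₂ : Y₂ ∈ S.M) :
    0 ≤ S.T (star X₁ * P * X₁) (Y₁ * m * star Y₁) + S.T (star X₂ * P * X₂) (Y₂ * m * star Y₂)
      + (S.T (star X₁ * P * X₂) (Y₁ * m * star Y₂) + S.T (star X₂ * P * X₁) (Y₂ * m * star Y₁)) := by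
  have hPs : star P = P := (IsSelfAdjoint.of_nonneg hP0).star_eq
  have hms : star m = m := (IsSelfAdjoint.of_nonneg hm0).star_eq
  have hXX : ∀ {X X' : Op H}, X ∈ S.M → X' ∈ S.M → star X * P * X' ∈ S.M :=
    fun hX hX' => mul_mem (mul_mem (star_mem hX) hP) hX'
  have hYY : ∀ {Y Y' : Op H}, Y ∈ S.M → Y' ∈ S.M → Y * m * star Y' ∈ S.M :=
    fun hY hY' => mul_mem (mul_mem hY hm) (star_mem hY')
  refine S.nonneg_of_form ?_ fun c hc => ?_
  · have hadd : ∀ f g : S.L2A →L[ℂ] S.L2A, star (f + g) = star f + star g := fun f g => by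
      simp [ContinuousLinearMap.star_eq_adjoint, map_add]
    rw [IsSelfAdjoint, hadd, hadd, hadd, S.T_star (hXX hX₁ hX₁) (hYY hY₁ hY₁),
      S.T_star (hXX hX₂ hX₂) (hYY hY₂ hY₂), S.T_star (hXX hX₁ hX₂) (hYY hY₁ hY₂),
      S.T_star (hXX hX₂ hX₁) (hYY hY₂ hY₁)]
    simp only [star_mul, star_star, hPs, hms, ← mul_assoc]
    abel
  · simp only [add_apply, inner_add_right]
    rw [S.inner_T_Omega (hXX hX₁ hX₁) (hYY hY₁ hY₁) hc hc,
      S.inner_T_Omega (hXX hX₂ hX₂) (hYY hY₂ hY₂) hc hc,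
      S.inner_T_Omega (hXX hX₁ hX₂) (hYY hY₁ hY₂) hc hc,
      S.inner_T_Omega (hXX hX₂ hX₁) (hYY hY₂ hY₁) hc hc]
    have key : ∀ {X X' Y Y' : Op H}, X ∈ S.M → X' ∈ S.M → Y ∈ S.M → Y' ∈ S.M →
        S.tau (star c * (star (star X * P * X') * c * (Y * m * star Y')))
          = S.tau (star Y' * star c * star X' * P * (X * c * Y) * m) := by
      intro X X' Y Y' hX hX' hY hY'
      have hcM := S.A_le hc
      calc S.tau (star c * (star (star X * P * X') * c * (Y * m * star Y')))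
          = S.tau (star c * star X' * P * (X * c * Y) * m * star Y') := by
            simp only [star_mul, star_star, hPs, mul_assoc]
        _ = _ := by
            rw [S.tau_comm (mul_mem (mul_mem (mul_mem (mul_mem (star_mem hcM) (star_mem hX')) hP)
              (mul_mem (mul_mem hX hcM) hY)) hm) (star_mem hY')]
            simp only [mul_assoc]
    rw [key hX₁ hX₁ hY₁ hY₁, key hX₂ hX₂ hY₂ hY₂, key hX₁ hX₂ hY₁ hY₂, key hX₂ hX₁ hY₂ hY₁,
      ← tau_add, ← tau_add, ← tau_add]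
    have h0 := S.re_tau_star_conj_mul_nonneg hP hP0 hm hm0
      (add_mem (mul_mem (mul_mem hX₁ (S.A_le hc)) hY₁) (mul_mem (mul_mem hX₂ (S.A_le hc)) hY₂))
    refine h0.trans_eq (congrArg (fun z => (S.tau z).re) ?_)
    simp only [star_add, star_mul, add_mul, _root_.mul_add, ← mul_assoc]
    abel

theorem T_zero_left (Y : Op H) : S.T 0 Y = 0 := by
  simp [T]

theorem T_nonneg {X Y : Op H} (hX : X ∈ S.M) (hX0 : 0 ≤ X) (hY : Y ∈ S.M) (hY0 : 0 ≤ Y) :
    0 ≤ S.T X Y := by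
  have h := S.pair_nonneg hX hX0 hY hY0 (one_mem _) (zero_mem _) (one_mem _) (one_mem _)
  simpa [T_zero_left] using h

theorem T_sub_left (X X' Y : Op H) : S.T (X - X') Y = S.T X Y - S.T X' Y := by
  rw [eq_sub_iff_add_eq, ← S.T_add_left, sub_add_cancel]

theorem T_smul_left_real (c : ℝ) (X Y : Op H) : S.T (c • X) Y = c • S.T X Y := by
  rw [← Complex.coe_smul c X, S.T_smul_left, Complex.conj_ofReal]
  exact RCLike.real_smul_eq_coe_smul (K := ℂ) c (S.T X Y) |>.symm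

theorem T_mem_left {a Y : Op H} (ha : a ∈ S.A) (hY : Y ∈ S.M) :
    S.T a Y = S.mul (star a * S.exp Y) :=
  S.L2A_ext fun b hb => by
    rw [S.T_apply_Omega (S.A_le ha) hY hb,
      S.mul_apply_Omega (mul_mem (star_mem ha) (S.exp_mem _)) hb]
    refine Subtype.ext (congrArg (fun z : Op H => z S.Ω) ?_)
    show S.exp (star a * b * Y) = star a * S.exp Y * b
    rw [S.exp_mul_left (mul_mem (star_mem ha) hb) hY, mul_assoc, mul_assoc,
      S.A_comm _ hb _ (S.exp_mem Y)]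

theorem T_mem_right {X a : Op H} (hX : X ∈ S.M) (ha : a ∈ S.A) :
    S.T X a = S.mul (S.exp (star X) * a) :=
  S.L2A_ext fun b hb => by
    rw [S.T_apply_Omega hX (S.A_le ha) hb,
      S.mul_apply_Omega (mul_mem (S.exp_mem _) ha) hb]
    refine Subtype.ext (congrArg (fun z : Op H => z S.Ω) ?_)
    show S.exp (star X * b * a) = S.exp (star X) * a * b
    rw [mul_assoc, S.exp_mul_right (mul_mem hb ha) (star_mem hX), mul_assoc, S.A_comm _ hb _ ha]

theorem T_swap {X Y c : Op H} (hX : X ∈ S.M) (hY : Y ∈ S.M) (hc : c ∈ S.A) :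
    S.T X (c * Y) = S.T X Y * S.mul c := by
  rw [S.T_comp_mul hX hY hc]
  refine S.L2A_ext fun b hb => ?_
  rw [S.T_apply_Omega hX (mul_mem (S.A_le hc) hY) hb,
    S.T_apply_Omega (mul_mem (S.A_le (star_mem hc)) hX) hY hb]
  refine Subtype.ext (congrArg (fun z : Op H => S.exp z S.Ω) ?_)
  rw [star_mul, star_star]
  simp only [mul_assoc]
  rw [← mul_assoc c b Y, S.A_comm _ hc _ hb, mul_assoc]

end Std

end Vale.Agent.P078
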