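import Vale.Agent.P078.Walk.LowerAux
import Vale.Agent.P078.Walk.DriftT
import Vale.Agent.P078.Trace

/-!
# P078: the drift of one move

For a covariance `U` dominated as in the weight construction, the second order change of the killed quantity of one
colour is nonpositive up to the error of the weights, and so is the second order change of the trace of the barrier.
Everything follows from positivity of `T X Y` for positive `X, Y` and two quadratic expansions.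
-/

noncomputable section

namespace Vale.Agent.P078

universe u

variable {H : Type u} [NormedAddCommGroup H] [InnerProductSpace ℂ H] [CompleteSpace H]

namespace Std

variable {S : Std H}

theorem rtau_add (x y : Op H) : S.rtau (x + y) = S.rtau x + S.rtau y := by
  simp [rtau, tau_add]

theorem rtau_sub (x y : Op H) : S.rtau (x - y) = S.rtau x - S.rtau y := by
  simp [rtau, tau_sub]

theorem rtau_smul (c : ℝ) (x : Op H) : S.rtau (c • x) = c * S.rtau x := by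
  rw [rtau, ← Complex.coe_smul, tau_smul]
  simp [rtau]

theorem rtau_nonneg {x : Op H} (hx : 0 ≤ x) : 0 ≤ S.rtau x := S.re_tau_nonneg hx

theorem rtau_mono {x y : Op H} (h : x ≤ y) : S.rtau x ≤ S.rtau y := S.re_tau_mono h

theorem smul_real_mem_M (c : ℝ) {x : Op H} (hx : x ∈ S.M) : c • x ∈ S.M := by
  rw [← Complex.coe_smul]
  exact S.M.smul_mem hx _

theorem smul_real_mem_A (c : ℝ) {x : Op H} (hx : x ∈ S.A) : c • x ∈ S.A := by
  rw [← Complex.coe_smul]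
  exact S.A.smul_mem hx _

theorem exp_smul_real (c : ℝ) {x : Op H} (hx : x ∈ S.M) : S.exp (c • x) = c • S.exp x := by
  rw [← Complex.coe_smul, S.exp_smul _ hx, Complex.coe_smul]

theorem mul_nonneg_A {x y : Op H} (hx : x ∈ S.A) (hy : y ∈ S.A) (hx0 : 0 ≤ x) (hy0 : 0 ≤ y) :
    0 ≤ x * y :=
  Commute.mul_nonneg hx0 hy0 (S.A_comm x hx y hy)

theorem mul_le_A {z x y : Op H} (hz : z ∈ S.A) (hx : x ∈ S.A) (hy : y ∈ S.A) (hz0 : 0 ≤ z)
    (h : x ≤ y) : z * x ≤ z * y := by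
  rw [← sub_nonneg, ← _root_.mul_sub]
  exact S.mul_nonneg_A hz (sub_mem hy hx) hz0 (sub_nonneg.2 h)

theorem mul_le_mul_A {x y z : Op H} (hz : z ∈ S.A) (hx : x ∈ S.A) (hy : y ∈ S.A) (hz0 : 0 ≤ z)
    (h : x ≤ y) : x * z ≤ y * z := by
  rw [S.A_comm x hx z hz, S.A_comm y hy z hz]
  exact S.mul_le_A hz hx hy hz0 h

/-- The real part of the trace of a product of two positive elements of the algebra is nonnegative. -/
theorem re_ktr_mul_nonneg {P Z : S.L2A →L[ℂ] S.L2A} (hP : P ∈ S.alg) (hP0 : 0 ≤ P)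
    (hZ : Z ∈ S.alg) (hZ0 : 0 ≤ Z) : 0 ≤ (S.ktr (P * Z)).re := by
  letI : CStarAlgebra (S.L2A →L[ℂ] S.L2A) := inferInstance
  set r := CFC.sqrt P with hr
  have hrA : r ∈ S.alg := sqrt_mem isClosed_alg hP
  have hrs : star r = r := (CFC.sqrt_nonneg P).isSelfAdjoint.star_eq
  have e : S.ktr (P * Z) = S.ktr (r * Z * r) := by
    conv_lhs => rw [← CFC.sqrt_mul_sqrt_self P hP0, mul_assoc]
    exact ktr_mul_comm hrA (mul_mem hrA hZ)
  rw [e]
  have h0 := star_left_conjugate_nonneg hZ0 r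
  rw [hrs] at h0
  exact (Complex.le_def.1 (ktr_nonneg (mul_mem (mul_mem hrA hZ) hrA) h0)).1

theorem re_ktr_mul_le {P F G : S.L2A →L[ℂ] S.L2A} (hP : P ∈ S.alg) (hP0 : 0 ≤ P) (hF : F ∈ S.alg)
    (hG : G ∈ S.alg) (h : F ≤ G) : (S.ktr (P * F)).re ≤ (S.ktr (P * G)).re := by
  have h0 := re_ktr_mul_nonneg hP hP0 (sub_mem hG hF) (sub_nonneg.2 h)
  rw [_root_.mul_sub, ktr_sub (mul_mem hP hG) (mul_mem hP hF), Complex.sub_re] at h0
  linarith

/-- The trace of `T X Y` against a multiplier. -/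
theorem re_ktr_T_mul {X Y x : Op H} (hX : X ∈ S.M) (hXs : IsSelfAdjoint X) (hY : Y ∈ S.M)
    (hx : x ∈ S.A) : (S.ktr (S.T X Y * S.mul x)).re = S.rtau (x * S.exp X * S.exp Y) := by
  rw [ktr_mul_comm (T_mem_alg hX hY) (mul_mem_alg hx), ktr_mul_T hx hX hY,
    (S.exp_isSelfAdjoint hX hXs).star_eq]
  rfl

theorem re_ktr_star {F G : S.L2A →L[ℂ] S.L2A} (hF : F ∈ S.alg) (hG : G ∈ S.alg)
    (hGs : IsSelfAdjoint G) : (S.ktr (star F * G)).re = (S.ktr (F * G)).re := by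
  have e : star F * G = star (G * F) := by
    rw [ContinuousLinearMap.star_eq_adjoint (G * F)]
    conv_lhs => rw [← hGs.star_eq]
    exact (ContinuousLinearMap.adjoint_comp G F).symm
  rw [e, ktr_star (mul_mem hG hF), Complex.conj_re, ktr_mul_comm hG hF]

theorem re_ktr_kexp {x : Op H} {F : S.L2A →L[ℂ] S.L2A} (hx : x ∈ S.A) (hF : F ∈ S.alg) :
    (S.ktr (S.mul x * F)).re = S.rtau (x * S.kexp F) := by
  rw [ktr_mul_kexp hF hx]
  rfl

/-- An element between zero and a multiplier supported in `a` is supported in `a`. -/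
theorem supported_of_le {w a : Op H} (hw : w ∈ S.A) (ha : a ∈ S.A) (hap : IsStarProjection a)
    (hwa : w * a = w) {F : S.L2A →L[ℂ] S.L2A} (hF0 : 0 ≤ F) (hFw : F ≤ S.mul w) :
    F * S.mul a = F ∧ S.mul a * F = F := by
  have ha' : (1 - a) ∈ S.A := sub_mem (one_mem _) ha
  have hs : star (S.mul (1 - a)) = S.mul (1 - a) := by
    rw [← S.mul_star, hap.one_sub.isSelfAdjoint.star_eq]
  have h1 := star_left_conjugate_le_conjugate hFw (S.mul (1 - a))
  have h2 : S.mul w * S.mul (1 - a) = 0 := by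
    rw [← S.mul_mul hw ha', _root_.mul_sub, _root_.mul_one, hwa, sub_self, S.mul_zero]
  rw [mul_assoc _ (S.mul w), h2, MulZeroClass.mul_zero] at h1
  have h3 : star (S.mul (1 - a)) * F * S.mul (1 - a) = 0 :=
    le_antisymm h1 (star_left_conjugate_nonneg hF0 _)
  letI : CStarAlgebra (S.L2A →L[ℂ] S.L2A) := inferInstance
  set r := CFC.sqrt F with hr
  have hrs : star r = r := (CFC.sqrt_nonneg F).isSelfAdjoint.star_eq
  have hrr : r * r = F := CFC.sqrt_mul_sqrt_self F hF0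
  have h4 : star (r * S.mul (1 - a)) * (r * S.mul (1 - a)) = 0 := by
    rw [← h3, ← hrr]
    calc star (r * S.mul (1 - a)) * (r * S.mul (1 - a))
        = star (S.mul (1 - a)) * star r * (r * S.mul (1 - a)) := by rw [star_mul]
      _ = _ := by rw [hrs]; simp only [mul_assoc]
  have h5 : r * S.mul (1 - a) = 0 := (CStarRing.star_mul_self_eq_zero_iff _).1 h4
  have h6 : F * S.mul (1 - a) = 0 := by rw [← hrr, mul_assoc, h5, MulZeroClass.mul_zero]
  rw [S.mul_sub, S.mul_one, _root_.mul_sub, _root_.mul_one, sub_eq_zero] at h6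
  refine ⟨h6.symm, ?_⟩
  have h7 := congrArg star h6.symm
  rwa [star_mul, hF0.isSelfAdjoint.star_eq, ← S.mul_star, hap.isSelfAdjoint.star_eq] at h7

end Std

namespace Walk

open Vale.Agent.P078.Std

variable {S : Std H} {p : Par} {y : Op H} {η : ℝ}

/-- The covariance of one colour in a move: `U` with diagonal `d`, below the weight `w`, leverage error `e`. -/
structure Cov (S : Std H) (p : Par) (h a w d e : Op H) (U : S.L2A →L[ℂ] S.L2A) : Prop where
  w_mem : w ∈ S.A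
  d_mem : d ∈ S.A
  e_mem : e ∈ S.A
  w_nonneg : 0 ≤ w
  d_nonneg : 0 ≤ d
  e_nonneg : 0 ≤ e
  w_supp : w * a = w
  d_supp : d * a = d
  d_le : d ≤ w
  w_le : w ≤ (1 + (4 : ℝ) • (p.cν • (h + 1 - a))) * (d + e)
  U_mem : U ∈ S.alg
  U_nonneg : 0 ≤ U
  U_le : U ≤ S.mul w
  kexp_U : S.kexp U = d

/-- What is used of a state at one colour and one sign. -/
structure Loc (S : Std H) (p : Par) (h a hi W W' Ds E : Op H) : Prop where
  v_pos : 0 < p.v
  h_mem : h ∈ S.A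
  h_nonneg : 0 ≤ h
  h_le : h ≤ 1
  a_mem : a ∈ S.A
  a_proj : IsStarProjection a
  hi_mem : hi ∈ S.A
  hi_nonneg : 0 ≤ hi
  hi_supp : hi * a = hi
  h_hi : h * hi = a
  a_le_hi : a ≤ hi
  hi_le : hi ≤ p.hmin⁻¹ • (1 : Op H)
  W_mem : W ∈ S.M
  ok : Ok p.v 2 W h
  ok' : Ok p.v 2 W' h
  Ds_mem : Ds ∈ S.M
  Ds_nonneg : 0 ≤ Ds
  B_sum : Bop 2 W + Bop 2 W' = -((2 * p.σ) • (1 : Op H)) - Ds
  E_mem : E ∈ S.A
  E_nonneg : 0 ≤ E
  exp_B : S.exp (Bop 2 W) = -(p.σ • (1 : Op H)) - E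
  E_le : a * E ≤ p.thr • a
  Ds_le : a * S.exp Ds ≤ p.thr • a
  cold : (S.exp (Qop p.v 2 W h) + (p.σ / 2) • (1 : Op H)) * a ≤ 0

section Loc

variable {h a hi W W' Ds E w d e : Op H} {U : S.L2A →L[ℂ] S.L2A}

namespace Loc

variable (l : Loc S p h a hi W W' Ds E)
include l

theorem Q_mem : Qop p.v 2 W h ∈ S.M := Qop_mem S.M S.M_isClosed l.W_mem (S.A_le l.h_mem)

theorem Q_sa : IsSelfAdjoint (Qop p.v 2 W h) := l.ok.isSelfAdjoint_Q

theorem B_mem : Bop 2 W ∈ S.M :=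
  sub_mem (mul_mem l.W_mem (star_mem l.W_mem)) (smul_real_mem_M 2 (one_mem _))

theorem aQa_add_nonneg : 0 ≤ a * Qop p.v 2 W h * a + p.v • hi := by
  have h0 := smul_nonneg l.v_pos.le
    (l.hi_nonneg.isSelfAdjoint.conjugate_nonneg l.ok.h_add_hQh_nonneg)
  refine h0.trans (le_of_eq ?_)
  have e1 : hi * h = a := by rw [S.A_comm _ l.hi_mem _ l.h_mem, l.h_hi]
  have e2 : hi * h * hi = hi := by
    rw [e1, S.A_comm _ l.a_mem _ l.hi_mem, l.hi_supp]
  have e3 : hi * (h * Qop p.v 2 W h * h) * hi = a * Qop p.v 2 W h * a := by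
    calc hi * (h * Qop p.v 2 W h * h) * hi = (hi * h) * Qop p.v 2 W h * (h * hi) := by
          simp only [mul_assoc]
      _ = _ := by rw [e1, l.h_hi]
  rw [_root_.mul_add, add_mul, e2, mul_smul_comm, smul_mul_assoc, e3, smul_add,
    smul_inv_smul₀ l.v_pos.ne', add_comm]

/-- The diagonal of `Q - B`. -/
theorem exp_Delta : S.exp (Qop p.v 2 W h - Bop 2 W)
    = S.exp (Qop p.v 2 W h) + p.σ • (1 : Op H) + E := by
  rw [S.exp_sub l.Q_mem l.B_mem, l.exp_B]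
  abel

theorem Delta_nonneg : 0 ≤ Qop p.v 2 W h - Bop 2 W := sub_nonneg.2 l.ok.B_le_Q

theorem exp_Delta_nonneg : 0 ≤ S.exp (Qop p.v 2 W h) + p.σ • (1 : Op H) + E := by
  rw [← l.exp_Delta]
  exact S.exp_nonneg (sub_mem l.Q_mem l.B_mem) l.Delta_nonneg

theorem delta_le : a * (S.exp (Qop p.v 2 W h) + p.σ • (1 : Op H) + E)
    ≤ (p.σ / 2 + p.thr) • a := by
  have h1 := l.cold
  rw [add_mul, smul_mul_assoc, one_mul, S.A_comm _ (S.exp_mem _) _ l.a_mem,
    ← le_neg_iff_add_nonpos_right] at h1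
  calc a * (S.exp (Qop p.v 2 W h) + p.σ • (1 : Op H) + E)
      = a * S.exp (Qop p.v 2 W h) + p.σ • a + a * E := by
        rw [_root_.mul_add, _root_.mul_add, mul_smul_comm, _root_.mul_one]
    _ ≤ -((p.σ / 2) • a) + p.σ • a + p.thr • a := add_le_add (add_le_add h1 le_rfl) l.E_le
    _ = _ := by module

theorem neg_le_aq : -((p.σ + p.thr) • a) ≤ a * S.exp (Qop p.v 2 W h) := by
  have h1 := S.mul_le_A l.a_mem (zero_mem _)
    (add_mem (add_mem (S.exp_mem _) (smul_real_mem_A _ (one_mem _))) l.E_mem) l.a_proj.nonneg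
    l.exp_Delta_nonneg
  rw [MulZeroClass.mul_zero, _root_.mul_add, _root_.mul_add, mul_smul_comm, _root_.mul_one] at h1
  rw [← sub_nonneg]
  refine (add_nonneg h1 (sub_nonneg.2 l.E_le)).trans (le_of_eq ?_)
  module

theorem q_sq_le (hσ : 0 ≤ p.σ) (hthr : 0 ≤ p.thr) :
    a * (S.exp (Qop p.v 2 W h) * S.exp (Qop p.v 2 W h)) ≤ (p.σ + p.thr) ^ 2 • a := by
  set q := S.exp (Qop p.v 2 W h)
  have hq : q ∈ S.A := S.exp_mem _
  set t := p.σ + p.thr
  have h1 : 0 ≤ a * q + t • a := by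
    rw [← sub_neg_eq_add]
    exact sub_nonneg.2 l.neg_le_aq
  have h2 : 0 ≤ t • a - a * q := by
    refine sub_nonneg.2 (le_trans ?_ (smul_nonneg (add_nonneg hσ hthr) l.a_proj.nonneg))
    have h := l.cold
    rw [add_mul, smul_mul_assoc, one_mul, S.A_comm _ hq _ l.a_mem,
      ← le_neg_iff_add_nonpos_right] at h
    exact h.trans (neg_nonpos.2 (smul_nonneg (by linarith) l.a_proj.nonneg))
  have hm1 : a * q + t • a ∈ S.A := add_mem (mul_mem l.a_mem hq) (smul_real_mem_A _ l.a_mem)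
  have hm2 : t • a - a * q ∈ S.A := sub_mem (smul_real_mem_A _ l.a_mem) (mul_mem l.a_mem hq)
  have h3 := S.mul_nonneg_A hm1 hm2 h1 h2
  rw [← sub_nonneg]
  refine h3.trans (le_of_eq ?_)
  have haa : a * a = a := l.a_proj.isIdempotentElem.eq
  have hc : q * a = a * q := S.A_comm _ hq _ l.a_mem
  have e1 : a * q * a = a * q := by rw [mul_assoc, hc, ← mul_assoc, haa]
  have e2 : a * q * (a * q) = a * (q * q) := by rw [← mul_assoc, e1, mul_assoc]
  simp only [add_mul, _root_.mul_sub, smul_mul_assoc, mul_smul_comm, haa, ← mul_assoc a a q,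
    e1, e2]
  module

theorem N'_le : hi - p.v⁻¹ • (a * Bop 2 W * a)
    ≤ (2 + 2 * p.σ / p.v) • hi + p.v⁻¹ • (a * Ds * a) := by
  set sh := CFC.sqrt h
  set r := CFC.sqrt hi
  have hshA : sh ∈ S.A := S.sqrt_mem_A l.h_mem
  have hrA : r ∈ S.A := S.sqrt_mem_A l.hi_mem
  have hr0 : 0 ≤ r := CFC.sqrt_nonneg hi
  have hrr : r * r = hi := CFC.sqrt_mul_sqrt_self hi l.hi_nonneg
  have hrsh : r * sh = a := by
    have h2 : (r * sh) * (r * sh) = a * a := by
      rw [l.a_proj.isIdempotentElem.eq, mul_assoc, ← mul_assoc sh, S.A_comm _ hshA _ hrA, mul_assoc,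
        CFC.sqrt_mul_sqrt_self h l.h_nonneg, ← mul_assoc, hrr, S.A_comm _ l.hi_mem _ l.h_mem, l.h_hi]
    rw [← CFC.sqrt_mul_self (r * sh) (S.mul_nonneg_A hrA hshA hr0 (CFC.sqrt_nonneg h)), h2,
      CFC.sqrt_mul_self a l.a_proj.nonneg]
  have haB'a : a * Bop 2 W' * a ≤ p.v • hi := by
    have h1 := (IsSelfAdjoint.of_nonneg hr0).conjugate_le_conjugate l.ok'.sqrt_B_sqrt_le
    rw [mul_smul_comm, smul_mul_assoc, _root_.mul_one, hrr] at h1
    refine le_trans (le_of_eq ?_) h1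
    have hshr : sh * r = a := by rw [S.A_comm _ hshA _ hrA, hrsh]
    calc a * Bop 2 W' * a = (r * sh) * Bop 2 W' * (sh * r) := by rw [hrsh, hshr]
      _ = _ := by simp only [sh, mul_assoc]
  have e : hi - p.v⁻¹ • (a * Bop 2 W * a) = hi + (2 * p.σ / p.v) • a + p.v⁻¹ • (a * Ds * a)
      + p.v⁻¹ • (a * Bop 2 W' * a) := by
    rw [eq_sub_of_add_eq l.B_sum]
    simp only [_root_.mul_sub, _root_.sub_mul, mul_neg, neg_mul, mul_smul_comm, smul_mul_assoc,
      _root_.mul_one, l.a_proj.isIdempotentElem.eq, smul_sub, smul_neg, smul_smul, div_eq_inv_mul]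
    module
  have hσv : 0 ≤ 2 * p.σ / p.v := by
    have : 0 ≤ p.σ := div_nonneg l.v_pos.le (by norm_num)
    exact div_nonneg (by linarith) l.v_pos.le
  rw [e]
  calc hi + (2 * p.σ / p.v) • a + p.v⁻¹ • (a * Ds * a) + p.v⁻¹ • (a * Bop 2 W' * a)
      ≤ hi + (2 * p.σ / p.v) • hi + p.v⁻¹ • (a * Ds * a) + p.v⁻¹ • (p.v • hi) :=
        add_le_add (add_le_add (add_le_add le_rfl
          (smul_le_smul_of_nonneg_left l.a_le_hi hσv)) le_rfl)
          (smul_le_smul_of_nonneg_left haB'a (inv_nonneg.2 l.v_pos.le))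
    _ = _ := by rw [inv_smul_smul₀ l.v_pos.ne']; module

end Loc

namespace Cov

variable (cv : Cov S p h a w d e U)
include cv

theorem supp (ha : a ∈ S.A) (hap : IsStarProjection a) :
    (U * S.mul a = U ∧ S.mul a * U = U) ∧
      ((S.mul w - U) * S.mul a = S.mul w - U ∧ S.mul a * (S.mul w - U) = S.mul w - U) :=
  ⟨supported_of_le cv.w_mem ha hap cv.w_supp cv.U_nonneg cv.U_le,
    supported_of_le cv.w_mem ha hap cv.w_supp (sub_nonneg.2 cv.U_le)
      (sub_le_self _ cv.U_nonneg)⟩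

theorem V_mem : S.mul w - U ∈ S.alg := sub_mem (mul_mem_alg cv.w_mem) cv.U_mem

theorem kexp_V : S.kexp (S.mul w - U) = w - d := by
  rw [kexp_sub (mul_mem_alg cv.w_mem) cv.U_mem, kexp_mul cv.w_mem, cv.kexp_U]

theorem z_mem : w - d ∈ S.A := sub_mem cv.w_mem cv.d_mem

theorem w_le' (l : Loc S p h a hi W W' Ds E) (hc : 0 ≤ p.cν) :
    w ≤ (1 + 8 * p.cν) • (d + e) := by
  refine cv.w_le.trans ?_
  have hde : d + e ∈ S.A := add_mem cv.d_mem cv.e_mem
  have h1 : (1 : Op H) + (4 : ℝ) • (p.cν • (h + 1 - a)) ≤ (1 + 8 * p.cν) • (1 : Op H) := by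
    have h2 : h + 1 - a ≤ (2 : ℝ) • (1 : Op H) := by
      rw [two_smul]
      exact (sub_le_self _ l.a_proj.nonneg).trans (add_le_add l.h_le le_rfl)
    rw [smul_smul, add_smul, one_smul, show 8 * p.cν = 4 * p.cν * 2 by ring, ← smul_smul (4 * p.cν)]
    exact add_le_add le_rfl (smul_le_smul_of_nonneg_left h2 (by positivity))
  refine (S.mul_le_mul_A hde
    (add_mem (one_mem _) (smul_real_mem_A _ (smul_real_mem_A _
      (sub_mem (add_mem l.h_mem (one_mem _)) l.a_mem))))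
    (smul_real_mem_A _ (one_mem _)) (add_nonneg cv.d_nonneg cv.e_nonneg) h1).trans (le_of_eq ?_)
  rw [smul_mul_assoc, one_mul]

theorem hi_z_le (l : Loc S p h a hi W W' Ds E) (hc : 0 ≤ p.cν) :
    hi * (w - d) ≤ (4 * p.cν) • d + (4 * p.cν + p.hmin⁻¹) • e := by
  set t := 4 * p.cν
  have hde : d + e ∈ S.A := add_mem cv.d_mem cv.e_mem
  have hν : h + 1 - a ∈ S.A := sub_mem (add_mem l.h_mem (one_mem _)) l.a_mem
  have h1 : w - d ≤ t • ((h + 1 - a) * (d + e)) + e := by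
    rw [sub_le_iff_le_add]
    refine cv.w_le.trans (le_of_eq ?_)
    rw [add_mul, one_mul, smul_smul, smul_mul_assoc]
    abel
  have hr : t • ((h + 1 - a) * (d + e)) + e ∈ S.A :=
    add_mem (smul_real_mem_A _ (mul_mem hν hde)) cv.e_mem
  refine (S.mul_le_A l.hi_mem cv.z_mem hr l.hi_nonneg h1).trans ?_
  have e1 : hi * (h + 1 - a) = a := by
    rw [_root_.mul_sub, _root_.mul_add, _root_.mul_one, S.A_comm _ l.hi_mem _ l.h_mem, l.h_hi,
      l.hi_supp]
    abel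
  have h2 : a * (d + e) ≤ d + e := by
    refine (S.mul_le_mul_A hde l.a_mem (one_mem _) (add_nonneg cv.d_nonneg cv.e_nonneg)
      l.a_proj.le_one).trans (le_of_eq (one_mul _))
  have h3 : hi * e ≤ p.hmin⁻¹ • e := by
    refine (S.mul_le_mul_A cv.e_mem l.hi_mem (smul_real_mem_A _ (one_mem _)) cv.e_nonneg
      l.hi_le).trans (le_of_eq ?_)
    rw [smul_mul_assoc, one_mul]
  rw [_root_.mul_add, mul_smul_comm, ← mul_assoc, e1]
  refine (add_le_add (smul_le_smul_of_nonneg_left h2 (by positivity)) h3).trans (le_of_eq ?_)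
  module

/-- The trace of the drift of `Q`. -/
theorem qdrift (l : Loc S p h a hi W W' Ds E) {Y' : Op H} (hY : Y' ∈ S.M) (hY0 : 0 ≤ Y') :
    (S.ktr (S.T (Qop p.v 2 W h) Y' * U)).re
      ≤ S.rtau (S.exp Y' * (w * S.exp (Qop p.v 2 W h) + p.v • (hi * (w - d)))) := by
  set Q := Qop p.v 2 W h with hQ
  have haQa : a * Q * a ∈ S.M := mul_mem (mul_mem (S.A_le l.a_mem) l.Q_mem) (S.A_le l.a_mem)
  have hhi : p.v • hi ∈ S.A := smul_real_mem_A _ l.hi_mem
  have hP : a * Q * a + p.v • hi ∈ S.M := add_mem haQa (S.A_le hhi)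
  have key := re_ktr_mul_le (T_mem_alg hP hY) (S.T_nonneg hP l.aQa_add_nonneg hY hY0) cv.U_mem
    (mul_mem_alg cv.w_mem) cv.U_le
  rw [re_ktr_T_mul hP l.aQa_add_nonneg.isSelfAdjoint hY cv.w_mem, S.exp_add haQa (S.A_le hhi),
    S.exp_of_mem hhi, S.exp_bimod l.a_mem l.a_mem l.Q_mem] at key
  obtain ⟨⟨hUa, haU⟩, -⟩ := cv.supp l.a_mem l.a_proj
  have hs : star a = a := l.a_proj.isSelfAdjoint.star_eq
  have e0 : S.T (a * Q * a) Y' = S.mul a * S.T Q Y' * S.mul a := by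
    rw [S.mul_comp_T l.Q_mem hY l.a_mem,
      S.T_comp_mul (mul_mem l.Q_mem (S.A_le (star_mem l.a_mem))) hY l.a_mem, hs, mul_assoc]
  have e1 : S.ktr (S.T (a * Q * a) Y' * U) = S.ktr (S.T Q Y' * U) := by
    rw [e0, mul_assoc, haU, mul_assoc, ktr_mul_comm (mul_mem_alg l.a_mem)
      (mul_mem (T_mem_alg l.Q_mem hY) cv.U_mem), mul_assoc, hUa]
  rw [S.T_add_left, add_mul, ktr_add (mul_mem (T_mem_alg haQa hY) cv.U_mem)
    (mul_mem (T_mem_alg (S.A_le hhi) hY) cv.U_mem), Complex.add_re, e1, S.T_mem_left hhi hY,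
    re_ktr_kexp (mul_mem (star_mem hhi) (S.exp_mem _)) cv.U_mem, cv.kexp_U,
    (smul_nonneg l.v_pos.le l.hi_nonneg).isSelfAdjoint.star_eq] at key
  set q := S.exp Q
  set Y := S.exp Y'
  have hYA : Y ∈ S.A := S.exp_mem _
  have hqA : q ∈ S.A := S.exp_mem _
  have e2 : w * (a * q * a + p.v • hi) * Y - p.v • hi * Y * d
      = Y * (w * q + p.v • (hi * (w - d))) := by
    have e3 : w * (a * q * a) = w * q := by
      rw [← mul_assoc, ← mul_assoc, cv.w_supp, mul_assoc, S.A_comm _ hqA _ l.a_mem, ← mul_assoc,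
        cv.w_supp]
    rw [_root_.mul_add w, e3, mul_smul_comm,
      S.A_comm _ (add_mem (mul_mem cv.w_mem hqA) (smul_real_mem_A _ (mul_mem cv.w_mem l.hi_mem)))
        _ hYA]
    simp only [_root_.mul_add, _root_.mul_sub, smul_mul_assoc, mul_smul_comm, smul_sub]
    rw [S.A_comm _ l.hi_mem _ hYA, mul_assoc Y hi d, S.A_comm _ cv.w_mem _ l.hi_mem]
    abel
  have h4 := congrArg S.rtau e2
  rw [rtau_sub] at h4
  linarith

/-- A quadratic expansion against `V = mul w - U` bounds one cross term. -/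
theorem cross_le (l : Loc S p h a hi W W' Ds E) {Z F G : Op H} (hZ : Z ∈ S.M)
    (hZs : IsSelfAdjoint Z) {β : Op H} (hβ : β ∈ S.A) (hβs : IsSelfAdjoint β)
    {P : S.L2A →L[ℂ] S.L2A} (hP : P ∈ S.alg)
    (hF : F ∈ S.M) (hG : G ∈ S.M)
    (hFG : S.mul a * S.T Z (β * Qop p.v 2 W h) = S.T F G)
    (hpos : 0 ≤ P + (S.T F G + star (S.T F G))) :
    -(S.ktr (S.mul β * S.T Z (Qop p.v 2 W h) * (S.mul w - U))).re
      ≤ (S.ktr (P * (S.mul w - U))).re / 2 := by
  set Q := Qop p.v 2 W h with hQ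
  set V := S.mul w - U with hVdef
  have hV : V ∈ S.alg := cv.V_mem
  have hV0 : 0 ≤ V := sub_nonneg.2 cv.U_le
  obtain ⟨-, hVa, haV⟩ := cv.supp l.a_mem l.a_proj
  have hT := T_mem_alg hF hG
  have h0 := re_ktr_mul_nonneg (add_mem hP (add_mem hT (star_mem hT))) hpos hV hV0
  rw [add_mul, add_mul, ktr_add (mul_mem hP hV) (add_mem (mul_mem hT hV) (mul_mem (star_mem hT) hV)),
    ktr_add (mul_mem hT hV) (mul_mem (star_mem hT) hV), Complex.add_re, Complex.add_re,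
    re_ktr_star hT hV hV0.isSelfAdjoint] at h0
  have hTZ := T_mem_alg hZ l.Q_mem
  have hb := mul_mem_alg (S := S) hβ
  have e1 : S.ktr (S.T F G * V) = S.ktr (S.T Z Q * (S.mul β * V)) := by
    rw [← hFG, S.T_swap hZ l.Q_mem hβ, mul_assoc, ktr_mul_comm (mul_mem_alg l.a_mem)
      (mul_mem (mul_mem hTZ hb) hV), mul_assoc, hVa, mul_assoc]
  have e2 : star (S.mul β * V) = V * S.mul β := by
    rw [show star (S.mul β * V) = star V * star (S.mul β) from star_mul (S.mul β) V,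
      hV0.isSelfAdjoint.star_eq, (S.mul_isSelfAdjoint hβs).star_eq]
  have e3 : (S.ktr (S.T Z Q * (S.mul β * V))).re = (S.ktr (S.mul β * S.T Z Q * V)).re := by
    have hTs : IsSelfAdjoint (S.T Z Q) := by
      rw [IsSelfAdjoint, S.T_star hZ l.Q_mem, hZs.star_eq, l.Q_sa.star_eq]
    rw [ktr_mul_comm hTZ (mul_mem hb hV), ← re_ktr_star (mul_mem hb hV) hTZ hTs, e2,
      mul_assoc V, ktr_mul_comm hV (mul_mem hb hTZ)]
  rw [e1, e3] at h0
  linarith

/-- The trace of the inverse resolvent against `V`. -/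
theorem trace_N'_le (l : Loc S p h a hi W W' Ds E) {Y' : Op H} (hY' : Y' ∈ S.M) (hY'0 : 0 ≤ Y') :
    (S.ktr (S.T (hi - p.v⁻¹ • (a * Bop 2 W * a)) Y' * (S.mul w - U))).re
      ≤ S.rtau ((2 + 2 * p.σ / p.v) • (hi * S.exp Y' * (w - d)))
        + p.v⁻¹ * S.rtau (w * (a * S.exp Ds) * S.exp Y') := by
  set V := S.mul w - U
  have hV : V ∈ S.alg := cv.V_mem
  have hV0 : 0 ≤ V := sub_nonneg.2 cv.U_le
  set k := 2 + 2 * p.σ / p.v with hk
  set N' := hi - p.v⁻¹ • (a * Bop 2 W * a) with hN'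
  have haDa : a * Ds * a ∈ S.M := mul_mem (mul_mem (S.A_le l.a_mem) l.Ds_mem) (S.A_le l.a_mem)
  have haD0 : 0 ≤ a * Ds * a := l.a_proj.isSelfAdjoint.conjugate_nonneg l.Ds_nonneg
  have hN'M : N' ∈ S.M := sub_mem (S.A_le l.hi_mem)
    (smul_real_mem_M _ (mul_mem (mul_mem (S.A_le l.a_mem) l.B_mem) (S.A_le l.a_mem)))
  have hkhi : k • hi ∈ S.A := smul_real_mem_A _ l.hi_mem
  have hK : p.v⁻¹ • (a * Ds * a) ∈ S.M := smul_real_mem_M _ haDa
  have hK0 : 0 ≤ p.v⁻¹ • (a * Ds * a) := smul_nonneg (inv_nonneg.2 l.v_pos.le) haD0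
  have hkK : k • hi + p.v⁻¹ • (a * Ds * a) ∈ S.M := add_mem (S.A_le hkhi) hK
  have hle := l.N'_le
  have h := re_ktr_mul_nonneg (T_mem_alg (sub_mem hkK hN'M) hY')
    (S.T_nonneg (sub_mem hkK hN'M) (sub_nonneg.2 hle) hY' hY'0) hV hV0
  rw [S.T_sub_left, _root_.sub_mul,
    ktr_sub (mul_mem (T_mem_alg hkK hY') hV) (mul_mem (T_mem_alg hN'M hY') hV),
    Complex.sub_re, S.T_add_left, add_mul, ktr_add (mul_mem (T_mem_alg (S.A_le hkhi) hY') hV)
      (mul_mem (T_mem_alg hK hY') hV), Complex.add_re] at h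
  have h1 : (S.ktr (S.T (k • hi) Y' * V)).re = S.rtau (k • (hi * S.exp Y' * (w - d))) := by
    rw [S.T_mem_left hkhi hY', re_ktr_kexp (mul_mem (star_mem hkhi) (S.exp_mem _)) hV, cv.kexp_V,
      star_smul, star_trivial k, l.hi_nonneg.isSelfAdjoint.star_eq, smul_mul_assoc, smul_mul_assoc]
  have h2 : (S.ktr (S.T (p.v⁻¹ • (a * Ds * a)) Y' * V)).re
      ≤ p.v⁻¹ * S.rtau (w * (a * S.exp Ds) * S.exp Y') := by
    refine (re_ktr_mul_le (T_mem_alg hK hY') (S.T_nonneg hK hK0 hY' hY'0) hV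
      (mul_mem_alg cv.w_mem) (sub_le_self _ cv.U_nonneg)).trans (le_of_eq ?_)
    have e : a * S.exp Ds * a = a * S.exp Ds := by
      rw [mul_assoc, S.A_comm _ (S.exp_mem Ds) _ l.a_mem, ← mul_assoc,
        l.a_proj.isIdempotentElem.eq]
    rw [re_ktr_T_mul hK hK0.isSelfAdjoint hY' cv.w_mem, exp_smul_real _ haDa,
      S.exp_bimod l.a_mem l.a_mem l.Ds_mem, e, mul_smul_comm, smul_mul_assoc, rtau_smul]
  linarith

/-- The cross term with `B`. -/
theorem cross_B (l : Loc S p h a hi W W' Ds E) {b : Op H} (hb : b ∈ S.A) (hb0 : 0 ≤ b) :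
    -(S.ktr (S.mul (a * b) * S.T (Bop 2 W) (Qop p.v 2 W h) * (S.mul w - U))).re
      ≤ (S.rtau ((2 + 2 * p.σ / p.v) • (hi * S.exp (Qop p.v 2 W h * (h * b) * Qop p.v 2 W h)
            * (w - d)))
          + p.v⁻¹ * S.rtau (w * (a * S.exp Ds) * S.exp (Qop p.v 2 W h * (h * b) * Qop p.v 2 W h))
          + p.v * S.rtau ((S.exp (Qop p.v 2 W h) + p.σ • (1 : Op H) + E) * (a * b * hi)
              * (w - d))) / 2 := by
  set Q := Qop p.v 2 W h with hQ
  set B := Bop 2 W with hB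
  obtain ⟨hX0, hXN, hNX, hΔ⟩ := sqrt_resolvent l.ok
  set sh := CFC.sqrt h with hsh
  set X := 1 + p.v⁻¹ • (sh * Q * sh) with hX
  set N := 1 - p.v⁻¹ • (sh * B * sh) with hN
  set r := CFC.sqrt hi with hr
  have hshA : sh ∈ S.A := S.sqrt_mem_A l.h_mem
  have hrA : r ∈ S.A := S.sqrt_mem_A l.hi_mem
  have hsh0 : 0 ≤ sh := CFC.sqrt_nonneg h
  have hr0 : 0 ≤ r := CFC.sqrt_nonneg hi
  have hshs : star sh = sh := hsh0.isSelfAdjoint.star_eq
  have hrs : star r = r := hr0.isSelfAdjoint.star_eq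
  have hshsh : sh * sh = h := CFC.sqrt_mul_sqrt_self h l.h_nonneg
  have hrr : r * r = hi := CFC.sqrt_mul_sqrt_self hi l.hi_nonneg
  have hrsh : r * sh = a := by
    have h2 : (r * sh) * (r * sh) = a * a := by
      rw [l.a_proj.isIdempotentElem.eq, mul_assoc, ← mul_assoc sh, S.A_comm _ hshA _ hrA, mul_assoc,
        hshsh, ← mul_assoc, hrr, S.A_comm _ l.hi_mem _ l.h_mem, l.h_hi]
    rw [← CFC.sqrt_mul_self (r * sh) (S.mul_nonneg_A hrA hshA hr0 hsh0), h2,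
      CFC.sqrt_mul_self a l.a_proj.nonneg]
  have hshr : sh * r = a := by rw [S.A_comm _ hshA _ hrA, hrsh]
  have hBs : star B = B := (Bop_isSelfAdjoint (s := 2) (W := W)).star_eq
  have hQs : star Q = Q := l.Q_sa.star_eq
  have has : star a = a := l.a_proj.isSelfAdjoint.star_eq
  have hXM : X ∈ S.M := add_mem (one_mem _)
    (smul_real_mem_M _ (mul_mem (mul_mem (S.A_le hshA) l.Q_mem) (S.A_le hshA)))
  have hNM : N ∈ S.M := sub_mem (one_mem _)
    (smul_real_mem_M _ (mul_mem (mul_mem (S.A_le hshA) l.B_mem) (S.A_le hshA)))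
  have hNs : star N = N := by
    rw [hN, star_sub, star_one, star_smul, star_trivial (p.v⁻¹ : ℝ), star_mul, star_mul, hBs, hshs,
      mul_assoc]
  set N' := hi - p.v⁻¹ • (a * B * a) with hN'
  set m := h * b with hm
  have hmA : m ∈ S.A := mul_mem l.h_mem hb
  have hm0 : 0 ≤ m := S.mul_nonneg_A l.h_mem hb l.h_nonneg hb0
  have habA : a * b ∈ S.A := mul_mem l.a_mem hb
  have hab0 : 0 ≤ a * b := S.mul_nonneg_A l.a_mem hb l.a_proj.nonneg hb0
  have hpair := S.pair_nonneg hXM hX0 (S.A_le hmA) hm0 (mul_mem hNM (S.A_le hrA))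
    (mul_mem (S.A_le hshA) l.B_mem) l.Q_mem (S.A_le l.hi_mem)
  have p11 : star (N * r) * X * (N * r) = N' := by
    calc star (N * r) * X * (N * r) = r * ((N * X) * N) * r := by
          rw [star_mul, hNs, hrs]; simp only [mul_assoc]
      _ = r * r - p.v⁻¹ • ((r * sh) * B * (sh * r)) := by
          rw [hNX, one_mul, hN, _root_.mul_sub, _root_.sub_mul, _root_.mul_one, mul_smul_comm,
            smul_mul_assoc]
          simp only [mul_assoc]
      _ = N' := by rw [hrr, hrsh, hshr]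
  have p22 : star (sh * B) * X * (sh * B) = p.v • (Q - B) := by
    rw [hΔ, smul_inv_smul₀ l.v_pos.ne', star_mul, hshs, hBs]
    simp only [hB, mul_assoc]
  have p12 : star (N * r) * X * (sh * B) = a * B := by
    calc star (N * r) * X * (sh * B) = r * (N * X) * (sh * B) := by
          rw [star_mul, hNs, hrs]; simp only [mul_assoc]
      _ = _ := by rw [hNX, _root_.mul_one, ← mul_assoc, hrsh]
  have p21 : star (sh * B) * X * (N * r) = B * a := by
    calc star (sh * B) * X * (N * r) = B * sh * (X * N) * r := by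
          rw [star_mul, hBs, hshs]; simp only [mul_assoc]
      _ = _ := by rw [hXN, _root_.mul_one, mul_assoc, hshr]
  have hhm : hi * m = a * b := by
    rw [hm, ← mul_assoc, S.A_comm _ l.hi_mem _ l.h_mem, l.h_hi]
  have hmh : m * hi = a * b := by rw [S.A_comm _ hmA _ l.hi_mem, hhm]
  have his : star hi = hi := l.hi_nonneg.isSelfAdjoint.star_eq
  rw [p11, p22, p12, p21, his, hQs, mul_assoc Q m hi, hmh, hhm] at hpair
  have hN'M : N' ∈ S.M := sub_mem (S.A_le l.hi_mem)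
    (smul_real_mem_M _ (mul_mem (mul_mem (S.A_le l.a_mem) l.B_mem) (S.A_le l.a_mem)))
  have hY' : Q * m * Q ∈ S.M := mul_mem (mul_mem l.Q_mem (S.A_le hmA)) l.Q_mem
  have hY'0 : 0 ≤ Q * m * Q := by
    have := star_left_conjugate_nonneg hm0 Q
    rwa [hQs] at this
  have hΔM : Q - B ∈ S.M := sub_mem l.Q_mem l.B_mem
  have hvΔ : p.v • (Q - B) ∈ S.M := smul_real_mem_M _ hΔM
  have habhi : a * b * hi ∈ S.A := mul_mem habA l.hi_mem
  have hBa : B * a ∈ S.M := mul_mem l.B_mem (S.A_le l.a_mem)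
  have habQ : a * b * Q ∈ S.M := mul_mem (S.A_le habA) l.Q_mem
  have hst : S.T (a * B) (Q * (a * b)) = star (S.T (B * a) (a * b * Q)) := by
    rw [S.T_star hBa habQ, star_mul, star_mul, hBs, has, hQs, hab0.isSelfAdjoint.star_eq]
  rw [hst, add_comm (star _)] at hpair
  have hcr := cv.cross_le l l.B_mem Bop_isSelfAdjoint habA hab0.isSelfAdjoint
    (add_mem (T_mem_alg hN'M hY') (T_mem_alg hvΔ (S.A_le habhi))) hBa habQ
    (by rw [S.mul_comp_T l.B_mem (mul_mem (S.A_le habA) l.Q_mem) l.a_mem, has]) hpair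
  refine hcr.trans (div_le_div_of_nonneg_right ?_ (by norm_num))
  set V := S.mul w - U
  have hV : V ∈ S.alg := cv.V_mem
  have hV0 : 0 ≤ V := sub_nonneg.2 cv.U_le
  rw [add_mul, ktr_add (mul_mem (T_mem_alg hN'M hY') hV)
    (mul_mem (T_mem_alg hvΔ (S.A_le habhi)) hV), Complex.add_re]
  refine add_le_add ?_ (le_of_eq ?_)
  · exact cv.trace_N'_le l hY' hY'0
  · rw [S.T_mem_right hvΔ habhi, re_ktr_kexp (mul_mem (S.exp_mem _) habhi) hV, cv.kexp_V,
      (smul_nonneg l.v_pos.le l.Delta_nonneg).isSelfAdjoint.star_eq, exp_smul_real _ hΔM,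
      l.exp_Delta, smul_mul_assoc, smul_mul_assoc, rtau_smul]

/-- The cross term with `Q - B`. -/
theorem cross_Delta (l : Loc S p h a hi W W' Ds E) {b : Op H} (hb : b ∈ S.A) (hb0 : 0 ≤ b) :
    -(S.ktr (S.mul (a * b) * S.T (Qop p.v 2 W h - Bop 2 W) (Qop p.v 2 W h)
        * (S.mul w - U))).re
      ≤ ((2 * p.v)⁻¹ * S.rtau (w * (S.exp (Qop p.v 2 W h) + p.σ • (1 : Op H) + E)
            * S.exp (Qop p.v 2 W h * (h * b) * Qop p.v 2 W h))
          + 2 * p.v * S.rtau ((S.exp (Qop p.v 2 W h) + p.σ • (1 : Op H) + E) * (a * b * hi)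
              * (w - d))) / 2 := by
  set Q := Qop p.v 2 W h with hQ
  set Δ := Q - Bop 2 W with hΔdef
  have hΔM : Δ ∈ S.M := sub_mem l.Q_mem l.B_mem
  have hΔs : star Δ = Δ := l.Delta_nonneg.isSelfAdjoint.star_eq
  have hQs : star Q = Q := l.Q_sa.star_eq
  have has : star a = a := l.a_proj.isSelfAdjoint.star_eq
  set m := (2 * p.v)⁻¹ • (h * b) with hm
  set α := (2 * p.v) • hi with hα
  have h2v : 0 < 2 * p.v := by linarith [l.v_pos]
  have hhbA : h * b ∈ S.A := mul_mem l.h_mem hb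
  have hhb0 : 0 ≤ h * b := S.mul_nonneg_A l.h_mem hb l.h_nonneg hb0
  have hmA : m ∈ S.A := smul_real_mem_A _ hhbA
  have hm0 : 0 ≤ m := smul_nonneg (inv_nonneg.2 h2v.le) hhb0
  have hαA : α ∈ S.A := smul_real_mem_A _ l.hi_mem
  have hαs : star α = α := (smul_nonneg h2v.le l.hi_nonneg).isSelfAdjoint.star_eq
  have habA : a * b ∈ S.A := mul_mem l.a_mem hb
  have hab0 : 0 ≤ a * b := S.mul_nonneg_A l.a_mem hb l.a_proj.nonneg hb0
  have hpair := S.pair_nonneg hΔM l.Delta_nonneg (S.A_le hmA) hm0 (one_mem _) (one_mem _) l.Q_mem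
    (S.A_le hαA)
  have hhm : α * m = a * b := by
    rw [hα, hm, smul_mul_smul_comm, mul_inv_cancel₀ h2v.ne', one_smul, ← mul_assoc,
      S.A_comm _ l.hi_mem _ l.h_mem, l.h_hi]
  have hmh : m * α = a * b := by rw [S.A_comm _ hmA _ hαA, hhm]
  rw [star_one, one_mul, _root_.mul_one, hαs, hQs, mul_assoc Q m α, hmh, hhm] at hpair
  have habα : a * b * α ∈ S.A := mul_mem habA hαA
  have hYM : Q * m * Q ∈ S.M := mul_mem (mul_mem l.Q_mem (S.A_le hmA)) l.Q_mem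
  have hY0 : 0 ≤ Q * m * Q := by
    have := star_left_conjugate_nonneg hm0 Q
    rwa [hQs] at this
  have habQ : a * b * Q ∈ S.M := mul_mem (S.A_le habA) l.Q_mem
  have hst : S.T Δ (Q * (a * b)) = star (S.T Δ (a * b * Q)) := by
    rw [S.T_star hΔM habQ, star_mul, hΔs, hQs, hab0.isSelfAdjoint.star_eq]
  rw [hst, add_comm (star _)] at hpair
  set V := S.mul w - U
  have hV : V ∈ S.alg := cv.V_mem
  have hV0 : 0 ≤ V := sub_nonneg.2 cv.U_le
  obtain ⟨-, hVa, haV⟩ := cv.supp l.a_mem l.a_proj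
  have hT := T_mem_alg hΔM habQ
  have hP := add_mem (T_mem_alg hΔM hYM) (T_mem_alg hΔM (S.A_le habα))
  have h0 := re_ktr_mul_nonneg (add_mem hP (add_mem hT (star_mem hT))) hpair hV hV0
  rw [add_mul (S.T Δ (Q * m * Q) + S.T Δ (a * b * α)), add_mul (S.T Δ (a * b * Q)),
    ktr_add (mul_mem hP hV) (add_mem (mul_mem hT hV) (mul_mem (star_mem hT) hV)),
    ktr_add (mul_mem hT hV) (mul_mem (star_mem hT) hV), Complex.add_re, Complex.add_re,
    re_ktr_star hT hV hV0.isSelfAdjoint] at h0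
  have hTZ := T_mem_alg hΔM l.Q_mem
  have hbb := mul_mem_alg (S := S) habA
  have hTs : IsSelfAdjoint (S.T Δ Q) := by
    rw [IsSelfAdjoint, S.T_star hΔM l.Q_mem, hΔs, hQs]
  have e2 : star (S.mul (a * b) * V) = V * S.mul (a * b) := by
    rw [show star (S.mul (a * b) * V) = star V * star (S.mul (a * b)) from
        star_mul (S.mul (a * b)) V,
      hV0.isSelfAdjoint.star_eq, (S.mul_isSelfAdjoint hab0.isSelfAdjoint).star_eq]
  have e3 : (S.ktr (S.T Δ (a * b * Q) * V)).re = (S.ktr (S.mul (a * b) * S.T Δ Q * V)).re := by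
    rw [S.T_swap hΔM l.Q_mem habA, mul_assoc, ktr_mul_comm hTZ (mul_mem hbb hV),
      ← re_ktr_star (mul_mem hbb hV) hTZ hTs, e2, mul_assoc V, ktr_mul_comm hV (mul_mem hbb hTZ)]
  have h1 : (S.ktr ((S.T Δ (Q * m * Q) + S.T Δ (a * b * α)) * V)).re
      ≤ (2 * p.v)⁻¹ * S.rtau (w * (S.exp Q + p.σ • (1 : Op H) + E)
            * S.exp (Q * (h * b) * Q))
          + 2 * p.v * S.rtau ((S.exp Q + p.σ • (1 : Op H) + E) * (a * b * hi) * (w - d)) := by
    rw [add_mul, ktr_add (mul_mem (T_mem_alg hΔM hYM) hV)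
      (mul_mem (T_mem_alg hΔM (S.A_le habα)) hV), Complex.add_re]
    refine add_le_add ?_ (le_of_eq ?_)
    · refine (re_ktr_mul_le (T_mem_alg hΔM hYM) (S.T_nonneg hΔM l.Delta_nonneg hYM hY0) hV
        (mul_mem_alg cv.w_mem) (sub_le_self _ cv.U_nonneg)).trans (le_of_eq ?_)
      rw [re_ktr_T_mul hΔM l.Delta_nonneg.isSelfAdjoint hYM cv.w_mem, l.exp_Delta, hm, mul_smul_comm,
        smul_mul_assoc, exp_smul_real _ (mul_mem (mul_mem l.Q_mem (S.A_le hhbA)) l.Q_mem),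
        mul_smul_comm, rtau_smul]
    · rw [S.T_mem_right hΔM habα, re_ktr_kexp (mul_mem (S.exp_mem _) habα) hV, cv.kexp_V, hΔs,
        l.exp_Delta, hα, mul_smul_comm, mul_smul_comm, smul_mul_assoc, rtau_smul]
  rw [e3] at h0
  linarith

end Cov

end Loc

/-! ## The two drift bounds -/

section Final

variable {h a hi W W' Ds E : Op H}

theorem cν_nonneg (p : Par) : (0 : ℝ) ≤ p.cν := by unfold Par.cν; norm_num

theorem rtau_mul_lin {z d e : Op H} (s t : ℝ) :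
    S.rtau (z * (s • d + t • e)) = s * S.rtau (z * d) + t * S.rtau (z * e) := by
  rw [_root_.mul_add, mul_smul_comm, mul_smul_comm, rtau_add, rtau_smul, rtau_smul]

theorem rtau_mul_le_norm {z e : Op H} (hz : z ∈ S.A) (hz0 : 0 ≤ z) (he : e ∈ S.A) (he0 : 0 ≤ e) :
    S.rtau (z * e) ≤ ‖z‖ * S.rtau e := by
  refine (S.rtau_mono (S.mul_le_mul_A he hz (smul_real_mem_A _ (one_mem _)) he0
    (Walk.le_norm_smul_one hz0.isSelfAdjoint))).trans (le_of_eq ?_)
  rw [smul_mul_assoc, one_mul, rtau_smul]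

variable {w d e : Op H} {U : S.L2A →L[ℂ] S.L2A}

theorem Cov.cold_le (cv : Cov S p h a w d e U) (l : Loc S p h a hi W W' Ds E) (hσ : 0 ≤ p.σ) :
    w * S.exp (Qop p.v 2 W h) ≤ -((p.σ / 2) • d) := by
  set q := S.exp (Qop p.v 2 W h)
  have hq : q ∈ S.A := S.exp_mem _
  have h1 := l.cold
  rw [add_mul, smul_mul_assoc, one_mul, S.A_comm _ hq _ l.a_mem,
    ← le_neg_iff_add_nonpos_right] at h1
  have h2 := S.mul_le_A cv.w_mem (mul_mem l.a_mem hq)
    (neg_mem (smul_real_mem_A _ l.a_mem)) cv.w_nonneg h1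
  rw [← mul_assoc, cv.w_supp, mul_neg, mul_smul_comm, cv.w_supp] at h2
  exact h2.trans (neg_le_neg (smul_le_smul_of_nonneg_left cv.d_le (by linarith)))

theorem Cov.q_part (cv : Cov S p h a w d e U) (l : Loc S p h a hi W W' Ds E) (hσ : 0 ≤ p.σ)
    {Y : Op H} (hY : Y ∈ S.A) (hY0 : 0 ≤ Y) :
    S.rtau (Y * (w * S.exp (Qop p.v 2 W h) + p.v • (hi * (w - d))))
      ≤ (p.v * (4 * p.cν) - p.σ / 2) * S.rtau (Y * d)
        + p.v * (4 * p.cν + p.hmin⁻¹) * S.rtau (Y * e) := by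
  rw [← rtau_mul_lin]
  refine S.rtau_mono (S.mul_le_A hY
    (add_mem (mul_mem cv.w_mem (S.exp_mem _)) (smul_real_mem_A _ (mul_mem l.hi_mem cv.z_mem)))
    (add_mem (smul_real_mem_A _ cv.d_mem) (smul_real_mem_A _ cv.e_mem)) hY0 ?_)
  refine (add_le_add (cv.cold_le l hσ)
    (smul_le_smul_of_nonneg_left (cv.hi_z_le l (cν_nonneg p)) l.v_pos.le)).trans (le_of_eq ?_)
  module

/-- The bound for one sign. -/
theorem Cov.kill_le (cv : Cov S p h a w d e U) (l : Loc S p h a hi W W' Ds E) (hσ : 0 ≤ p.σ)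
    (hthr : 0 ≤ p.thr) {b : Op H} (hb : b ∈ S.A) (hb0 : 0 ≤ b) :
    p.v⁻¹ * (S.ktr (S.mul b * S.T (Qop p.v 2 W h) (Qop p.v 2 W h) * U)).re
      + p.v⁻¹ ^ 2 * (S.ktr (S.T (Qop p.v 2 W h)
          (Qop p.v 2 W h * (b * h) * Qop p.v 2 W h) * U)).re
    ≤ (p.v⁻¹ * ((p.σ + p.thr) ^ 2 * (1 + 8 * p.cν))
          + 3 / 2 * ((p.σ / 2 + p.thr) * (4 * p.cν))) * S.rtau (b * d)
      + (p.v⁻¹ ^ 2 * ((2 + 2 * p.σ / p.v) * (2 * p.cν) * p.v + p.thr * (1 + 8 * p.cν) / 2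
          + (p.σ / 2 + p.thr) * (1 + 8 * p.cν) / 4 + p.v * (4 * p.cν) - p.σ / 2))
          * S.rtau (S.exp (Qop p.v 2 W h * (b * h) * Qop p.v 2 W h) * d)
      + ((p.v⁻¹ * ((p.σ + p.thr) ^ 2 * (1 + 8 * p.cν))
          + 3 / 2 * ((p.σ / 2 + p.thr) * (4 * p.cν + p.hmin⁻¹))) * S.rtau (b * e)
      + (p.v⁻¹ ^ 2 * ((2 + 2 * p.σ / p.v) * ((4 * p.cν + p.hmin⁻¹) / 2) * p.v
          + p.thr * (1 + 8 * p.cν) / 2 + (p.σ / 2 + p.thr) * (1 + 8 * p.cν) / 4
          + p.v * (4 * p.cν + p.hmin⁻¹)))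
          * S.rtau (S.exp (Qop p.v 2 W h * (b * h) * Qop p.v 2 W h) * e)) := by
  have hbh : b * h = h * b := S.A_comm _ hb _ l.h_mem
  rw [hbh]
  set Q := Qop p.v 2 W h with hQ
  set Y := S.exp (Q * (h * b) * Q) with hY
  set q := S.exp Q with hq
  set δ := q + p.σ • (1 : Op H) + E with hδ
  set c1 := 1 + 8 * p.cν with hc1def
  set δ0 := p.σ / 2 + p.thr with hδ0
  set C1 := 4 * p.cν + p.hmin⁻¹
  have hc := cν_nonneg p
  have hc1 : (0 : ℝ) ≤ c1 := by positivity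
  have hhb : h * b ∈ S.A := mul_mem l.h_mem hb
  have hY' : Q * (h * b) * Q ∈ S.M := mul_mem (mul_mem l.Q_mem (S.A_le hhb)) l.Q_mem
  have hY'0 : 0 ≤ Q * (h * b) * Q :=
    l.Q_sa.conjugate_nonneg (S.mul_nonneg_A l.h_mem hb l.h_nonneg hb0)
  have hYA : Y ∈ S.A := S.exp_mem _
  have hY0 : 0 ≤ Y := S.exp_nonneg hY' hY'0
  have hqA : q ∈ S.A := S.exp_mem _
  have hδA : δ ∈ S.A := add_mem (add_mem hqA (smul_real_mem_A _ (one_mem _))) l.E_mem
  have hde : d + e ∈ S.A := add_mem cv.d_mem cv.e_mem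
  have hab : a * b ∈ S.A := mul_mem l.a_mem hb
  have hwA := cv.w_mem
  have hzA := cv.z_mem
  obtain ⟨⟨hUa, haU⟩, -⟩ := cv.supp l.a_mem l.a_proj
  have hTQ := T_mem_alg (S := S) l.Q_mem l.Q_mem
  -- reduce to the active part and split `U`
  have e1 : S.ktr (S.mul b * S.T Q Q * U) = S.ktr (S.mul (a * b) * S.T Q Q * U) := by
    conv_lhs => rw [← hUa, ← mul_assoc]
    rw [ktr_mul_comm (mul_mem (mul_mem (mul_mem_alg hb) hTQ) cv.U_mem) (mul_mem_alg l.a_mem),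
      ← mul_assoc, ← mul_assoc, ← S.mul_mul l.a_mem hb]
  have e2 : (S.ktr (S.mul (a * b) * S.T Q Q * U)).re
      = S.rtau (w * (a * b) * q * q)
        - (S.ktr (S.mul (a * b) * S.T (Bop 2 W) Q * (S.mul w - U))).re
        - (S.ktr (S.mul (a * b) * S.T (Q - Bop 2 W) Q * (S.mul w - U))).re := by
    have hB := mul_mem (mul_mem (mul_mem_alg (S := S) hab) (T_mem_alg l.B_mem l.Q_mem)) cv.V_mem
    have hD := mul_mem (mul_mem (mul_mem_alg (S := S) hab)
      (T_mem_alg (sub_mem l.Q_mem l.B_mem) l.Q_mem)) cv.V_mem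
    have hx := mul_mem (mul_mem_alg (S := S) hab) hTQ
    have h0 : S.T Q Q = S.T (Bop 2 W) Q + S.T (Q - Bop 2 W) Q := by
      rw [← S.T_add_left, add_sub_cancel]
    have h2 : S.ktr (S.mul (a * b) * S.T Q Q * (S.mul w - U))
        = S.ktr (S.mul (a * b) * S.T (Bop 2 W) Q * (S.mul w - U))
          + S.ktr (S.mul (a * b) * S.T (Q - Bop 2 W) Q * (S.mul w - U)) := by
      rw [← ktr_add hB hD, h0, _root_.mul_add, add_mul]
    have h3 : (S.ktr (S.mul (a * b) * S.T Q Q * S.mul w)).re = S.rtau (w * (a * b) * q * q) := by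
      rw [mul_assoc, ktr_mul_comm (mul_mem_alg hab) (mul_mem hTQ (mul_mem_alg hwA)), mul_assoc,
        ← S.mul_mul hwA hab, re_ktr_T_mul l.Q_mem l.Q_sa l.Q_mem (mul_mem hwA hab)]
    rw [_root_.mul_sub, ktr_sub (mul_mem hx (mul_mem_alg hwA)) (mul_mem hx cv.U_mem)] at h2
    have h4 := congrArg Complex.re h2
    rw [Complex.sub_re, Complex.add_re, h3] at h4
    linarith
  have hB := cv.cross_B l hb hb0
  have hD := cv.cross_Delta l hb hb0
  have hq0 := cv.qdrift l hY' hY'0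
  have hq1 := cv.q_part l hσ hYA hY0
  rw [rtau_smul] at hB
  -- pointwise bounds
  have hwle := cv.w_le' l hc
  have hzle := cv.hi_z_le l hc
  have haA := l.a_mem
  have hzz : hi * (w - d) ∈ S.A := mul_mem l.hi_mem hzA
  have hR : c1 • (d + e) ∈ S.A := smul_real_mem_A _ hde
  have hRz : (4 * p.cν) • d + C1 • e ∈ S.A :=
    add_mem (smul_real_mem_A _ cv.d_mem) (smul_real_mem_A _ cv.e_mem)
  have lin : ∀ z : Op H, S.rtau (z * (c1 • (d + e))) = c1 * (S.rtau (z * d) + S.rtau (z * e)) :=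
    fun z => by rw [mul_smul_comm, rtau_smul, _root_.mul_add, rtau_add]
  have wle : ∀ {z : Op H}, z ∈ S.A → 0 ≤ z →
      S.rtau (z * w) ≤ c1 * (S.rtau (z * d) + S.rtau (z * e)) := fun hz hz0 => by
    rw [← lin]
    exact S.rtau_mono (S.mul_le_A hz hwA hR hz0 hwle)
  have wa : ∀ {x : Op H} {t : ℝ}, x ∈ S.A → a * x ≤ t • a → w * x ≤ t • w := fun {x t} hx hxa => by
    have h0 := S.mul_le_A hwA (mul_mem haA hx) (smul_real_mem_A _ haA) cv.w_nonneg hxa
    rwa [← mul_assoc, cv.w_supp, mul_smul_comm, cv.w_supp] at h0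
  have G1 : S.rtau (w * (a * b) * q * q)
      ≤ (p.σ + p.thr) ^ 2 * (c1 * (S.rtau (b * d) + S.rtau (b * e))) := by
    refine le_trans ?_ (mul_le_mul_of_nonneg_left (wle hb hb0) (sq_nonneg _))
    rw [← rtau_smul, ← mul_smul_comm]
    refine S.rtau_mono ?_
    have h0 := S.mul_le_A hb (mul_mem hwA (mul_mem hqA hqA)) (smul_real_mem_A _ hwA) hb0
      (wa (mul_mem hqA hqA) (l.q_sq_le hσ hthr))
    refine le_trans (le_of_eq ?_) h0
    rw [← mul_assoc w a b, cv.w_supp, S.A_comm _ hwA _ hb]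
    simp only [mul_assoc]
  have G2 : S.rtau (δ * (a * b * hi) * (w - d))
      ≤ δ0 * (4 * p.cν * S.rtau (b * d) + C1 * S.rtau (b * e)) := by
    have hz0 : 0 ≤ hi * (w - d) :=
      S.mul_nonneg_A l.hi_mem hzA l.hi_nonneg (sub_nonneg.2 cv.d_le)
    have h0 := S.mul_le_mul_A (mul_mem hb hzz) (mul_mem haA hδA) (smul_real_mem_A _ haA)
      (S.mul_nonneg_A hb hzz hb0 hz0) l.delta_le
    have h1 : (δ0 • a) * (b * (hi * (w - d))) = δ0 • (b * (hi * (w - d))) := by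
      rw [smul_mul_assoc, ← mul_assoc a, S.A_comm _ haA _ hb, mul_assoc b a, ← mul_assoc a hi,
        S.A_comm _ haA _ l.hi_mem, l.hi_supp]
    rw [h1] at h0
    have h2 := S.rtau_mono (S.mul_le_A hb hzz hRz hb0 hzle)
    rw [rtau_mul_lin] at h2
    have hδ0' : 0 ≤ δ0 := add_nonneg (by linarith) hthr
    refine le_trans ?_ (mul_le_mul_of_nonneg_left h2 hδ0')
    rw [← rtau_smul]
    refine S.rtau_mono (le_trans (le_of_eq ?_) h0)
    rw [← mul_assoc δ, ← mul_assoc δ a b, S.A_comm _ hδA _ haA]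
    simp only [mul_assoc]
  have G3 : S.rtau (hi * Y * (w - d))
      ≤ 4 * p.cν * S.rtau (Y * d) + C1 * S.rtau (Y * e) := by
    rw [← rtau_mul_lin]
    refine S.rtau_mono (le_trans (le_of_eq ?_) (S.mul_le_A hYA hzz hRz hY0 hzle))
    rw [S.A_comm _ l.hi_mem _ hYA, mul_assoc]
  have G4 : S.rtau (w * (a * S.exp Ds) * Y)
      ≤ p.thr * (c1 * (S.rtau (Y * d) + S.rtau (Y * e))) := by
    refine le_trans ?_ (mul_le_mul_of_nonneg_left (wle hYA hY0) hthr)
    rw [← rtau_smul, ← mul_smul_comm]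
    refine S.rtau_mono (le_trans (le_of_eq ?_) (S.mul_le_A hYA
      (mul_mem hwA (S.exp_mem Ds)) (smul_real_mem_A _ hwA) hY0 (wa (S.exp_mem Ds) l.Ds_le)))
    rw [← mul_assoc w a, cv.w_supp, S.A_comm _ (mul_mem hwA (S.exp_mem Ds)) _ hYA]
  have G5 : S.rtau (w * δ * Y) ≤ δ0 * (c1 * (S.rtau (Y * d) + S.rtau (Y * e))) := by
    refine le_trans ?_ (mul_le_mul_of_nonneg_left (wle hYA hY0) (add_nonneg (by linarith) hthr))
    rw [← rtau_smul, ← mul_smul_comm]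
    refine S.rtau_mono (le_trans (le_of_eq ?_) (S.mul_le_A hYA
      (mul_mem hwA hδA) (smul_real_mem_A _ hwA) hY0 (wa hδA l.delta_le)))
    rw [S.A_comm _ (mul_mem hwA hδA) _ hYA]
  -- combine
  have hv := l.v_pos
  have hk : (0 : ℝ) ≤ 2 + 2 * p.σ / p.v := by positivity
  have hvi : (0 : ℝ) ≤ p.v⁻¹ := by positivity
  have c2v : (2 * p.v)⁻¹ = p.v⁻¹ / 2 := by rw [mul_inv]; ring
  rw [e1, e2]
  have hq2 := mul_le_mul_of_nonneg_left (hq0.trans hq1) (pow_nonneg hvi 2)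
  have g1 := mul_le_mul_of_nonneg_left G1 hvi
  have gB := mul_le_mul_of_nonneg_left hB hvi
  have gD := mul_le_mul_of_nonneg_left hD hvi
  have g2 := mul_le_mul_of_nonneg_left G2 (show (0 : ℝ) ≤ 3 / 2 by norm_num)
  have g3 := mul_le_mul_of_nonneg_left G3 (mul_nonneg hvi hk)
  have g4 := mul_le_mul_of_nonneg_left G4 (mul_nonneg hvi hvi)
  have g5 := mul_le_mul_of_nonneg_left G5 (mul_nonneg hvi hvi)
  rw [c2v] at gD
  have huv : p.v⁻¹ * p.v = 1 := inv_mul_cancel₀ hv.ne'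
  set D1 := S.rtau (Y * d)
  set E1 := S.rtau (Y * e)
  set P2 := S.rtau (δ * (a * b * hi) * (w - d))
  set k := 2 + 2 * p.σ / p.v
  have c1' : p.v⁻¹ * p.v * P2 = P2 := by rw [huv, one_mul]
  have c2' : p.v⁻¹ * p.v * (p.v⁻¹ * k * p.cν * D1) = p.v⁻¹ * k * p.cν * D1 := by rw [huv, one_mul]
  have c3' : p.v⁻¹ * p.v * (p.v⁻¹ * k * p.cν * E1) = p.v⁻¹ * k * p.cν * E1 := by rw [huv, one_mul]
  have c4' : p.v⁻¹ * p.v * (p.v⁻¹ * k * p.hmin⁻¹ * E1) = p.v⁻¹ * k * p.hmin⁻¹ * E1 := by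
    rw [huv, one_mul]
  simp only [C1, δ0, c1] at *
  linarith

/-- The numerical inequalities behind the choice of the parameters. -/
theorem coef_le (hg : p.Good) :
    p.v⁻¹ * ((p.σ + p.thr) ^ 2 * (1 + 8 * p.cν)) + 3 / 2 * ((p.σ / 2 + p.thr) * (4 * p.cν))
        ≤ p.κ ∧
      p.v⁻¹ ^ 2 * ((2 + 2 * p.σ / p.v) * (2 * p.cν) * p.v + p.thr * (1 + 8 * p.cν) / 2
          + (p.σ / 2 + p.thr) * (1 + 8 * p.cν) / 4 + p.v * (4 * p.cν) - p.σ / 2) ≤ 0 := by
  have hv := Lower.v_pos hg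
  have ht := Lower.thr_le hg
  have ht0 := Lower.thr_pos hg
  have hσ : p.σ = p.v / 400 := rfl
  have hκ : p.κ = p.σ / 40 := rfl
  have hc : p.cν = 1 / 100000 := rfl
  have h2 : 2 * p.σ / p.v = 1 / 200 := by rw [hσ]; field_simp; norm_num
  refine ⟨?_, mul_nonpos_of_nonneg_of_nonpos (sq_nonneg _) ?_⟩
  · have h1 : (p.σ + p.thr) ^ 2 ≤ (p.σ + p.σ / 6) ^ 2 :=
      pow_le_pow_left₀ (by linarith) (by linarith) 2
    have h3 : p.v⁻¹ * ((p.σ + p.thr) ^ 2 * (1 + 8 * p.cν))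
        ≤ p.v⁻¹ * ((p.σ + p.σ / 6) ^ 2 * (1 + 8 * p.cν)) :=
      mul_le_mul_of_nonneg_left (mul_le_mul_of_nonneg_right h1 (by rw [hc]; norm_num))
        (inv_nonneg.2 hv.le)
    have h4 : p.v⁻¹ * ((p.σ + p.σ / 6) ^ 2 * (1 + 8 * p.cν))
        = p.σ * ((7 / 6) ^ 2 * (1 + 8 * (1 / 100000)) / 400) := by
      rw [hσ, hc]; field_simp; ring
    rw [hκ]
    nlinarith
  · rw [h2, hc]
    nlinarith

theorem exists_Loc (hg : p.Good) (hy : Inp S y) {st : St H p.r} (hv : Inv S p y st)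
    (hR : Ready S p η y st) (c : Fin p.r) (i : Fin 2) :
    ∃ hi W' E, Loc S p (st.h c) (st.act c) hi (st.W i) W' (DlSum p y st) E := by
  set a := st.act c with ha
  set h := st.h c
  have haA : a ∈ S.A := mul_mem hv.u_mem (hv.al_mem c)
  have hap : IsStarProjection a :=
    Lower.proj_mul S hv.u_mem (hv.al_mem c) hv.u_proj (hv.al_proj c)
  have hhA := hv.h_mem c
  have hm := Lower.hmin_pos hg
  have hm1 : p.hmin ≤ 1 := by
    have := Lower.h0_le hg
    unfold Par.hmin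
    linarith
  set D := h * a + (1 - a) with hD
  have hDA : D ∈ S.A := add_mem (mul_mem hhA haA) (sub_mem (one_mem _) haA)
  have hDle : p.hmin • (1 : Op H) ≤ D := by
    have e : p.hmin • (1 : Op H) = p.hmin • a + p.hmin • (1 - a) := by
      rw [← smul_add, add_sub_cancel]
    rw [e]
    refine add_le_add (hR.h_low c) ?_
    calc p.hmin • (1 - a) ≤ (1 : ℝ) • (1 - a) :=
          smul_le_smul_of_nonneg_right hm1 hap.one_sub.nonneg
      _ = _ := one_smul _ _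
  have hinA : Ring.inverse D ∈ S.A := S.inverse_mem_A hDA
  have hin0 : 0 ≤ Ring.inverse D := ringInverse_nonneg hm hDle
  set hi := Ring.inverse D * a with hhi
  have hiA : hi ∈ S.A := mul_mem hinA haA
  have hi0 : 0 ≤ hi := S.mul_nonneg_A hinA haA hin0 hap.nonneg
  have haa : a * a = a := hap.isIdempotentElem.eq
  have hh : h * hi = a := by
    have e : D * a = h * a := by
      rw [hD, add_mul, mul_assoc, haa, _root_.sub_mul, one_mul, haa, sub_self, add_zero]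
    have hu := Ring.mul_inverse_cancel D (isUnit_of_smul_one_le hm hDle)
    calc h * hi = (h * a) * Ring.inverse D := by
          rw [hhi, S.A_comm _ hinA _ haA, mul_assoc]
      _ = (D * Ring.inverse D) * a := by
          rw [← e, mul_assoc, S.A_comm _ haA _ hinA, ← mul_assoc]
      _ = a := by rw [hu, one_mul]
  have hDlM := Lower.Dl_mem S hy hv
  have hB : ∀ j, Bop 2 (st.W j) = sgn j • y - p.σ • (1 : Op H) - Dl p y st j := fun j => by
    rw [Bop, Dl, Bar]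
    module
  refine ⟨hi, st.W (1 - i), S.exp (Dl p y st i),
    { v_pos := Lower.v_pos hg
      h_mem := hhA
      h_nonneg := hv.h_nonneg c
      h_le := hv.h_le c
      a_mem := haA
      a_proj := hap
      hi_mem := hiA
      hi_nonneg := hi0
      hi_supp := by rw [hhi, mul_assoc, haa]
      h_hi := hh
      a_le_hi := ?_
      hi_le := ?_
      W_mem := hv.W_mem i
      ok := hv.ok c i
      ok' := hv.ok c (1 - i)
      Ds_mem := Lower.DlSum_mem S hy hv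
      Ds_nonneg := Lower.DlSum_nonneg S hv
      B_sum := ?_
      E_mem := S.exp_mem _
      E_nonneg := S.exp_nonneg (hDlM i) (Lower.Dl_nonneg S hv i)
      exp_B := ?_
      E_le := ?_
      Ds_le := ?_
      cold := hR.cold c i }⟩
  · have h0 := S.mul_nonneg_A (sub_mem (one_mem _) hhA) hiA (sub_nonneg.2 (hv.h_le c)) hi0
    rw [_root_.sub_mul, one_mul, hh] at h0
    exact sub_nonneg.1 h0
  · have h1 : Ring.inverse D ≤ p.hmin⁻¹ • (1 : Op H) := by
      rw [← inv_smul_smul₀ hm.ne' (Ring.inverse D)]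
      exact smul_le_smul_of_nonneg_left (smul_ringInverse_le_one hm hDle) (inv_nonneg.2 hm.le)
    refine le_trans ?_ h1
    exact (S.mul_le_A hinA haA (one_mem _) hin0 hap.le_one).trans (le_of_eq (_root_.mul_one _))
  · rw [hB, hB, DlSum, Fin.sum_univ_two]
    fin_cases i <;> simp [sgn] <;> module
  · rw [hB, S.exp_sub (sub_mem (Lower.smul_M S _ hy.mem) (Lower.smul_M S _ (one_mem _))) (hDlM i),
      S.exp_sub (Lower.smul_M S _ hy.mem) (Lower.smul_M S _ (one_mem _)),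
      exp_smul_real _ hy.mem, hy.exp_eq, smul_zero, exp_smul_real _ (one_mem _), S.exp_one, zero_sub]
  · refine le_trans (S.mul_le_A haA (S.exp_mem _) (S.exp_mem _) hap.nonneg
      (S.exp_mono (hDlM i) (Lower.DlSum_mem S hy hv) (Lower.Dl_le_sum S hv i))) ?_
    have h0 := S.mul_le_A (hv.al_mem c) (mul_mem hv.u_mem (S.exp_mem _))
      (smul_real_mem_A _ hv.u_mem) (hv.al_proj c).nonneg hR.Dl_le
    rwa [← mul_assoc, mul_smul_comm, S.A_comm _ (hv.al_mem c) _ hv.u_mem] at h0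
  · have h0 := S.mul_le_A (hv.al_mem c) (mul_mem hv.u_mem (S.exp_mem _))
      (smul_real_mem_A _ hv.u_mem) (hv.al_proj c).nonneg hR.Dl_le
    rwa [← mul_assoc, mul_smul_comm, S.A_comm _ (hv.al_mem c) _ hv.u_mem] at h0

/-- The drift of the killed quantity of one colour is nonpositive up to the leverage error. -/
theorem kill_drift (hg : p.Good) (hy : Inp S y) {st : St H p.r} (hv : Inv S p y st)
    (hR : Ready S p η y st) (c : Fin p.r) {b : Op H} (hb : b ∈ S.A) (hb0 : 0 ≤ b) :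
    ∃ C : ℝ, 0 ≤ C ∧ ∀ (w d e : Op H) (U : S.L2A →L[ℂ] S.L2A),
      Cov S p (st.h c) (st.act c) w d e U →
      ∑ i, (p.v⁻¹ * (S.ktr (S.mul b * S.T (Qc p st c i) (Qc p st c i) * U)).re
          + p.v⁻¹ ^ 2 * (S.ktr (S.T (Qc p st c i)
              (Qc p st c i * (b * st.h c) * Qc p st c i) * U)).re)
        - 2 * p.κ * S.rtau (b * d) ≤ C * S.rtau e := by
  have hσ := (Lower.σ_pos hg).le
  have hthr := (Lower.thr_pos hg).le
  obtain ⟨hK, hK0⟩ := coef_le hg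
  have hbh : 0 ≤ b * st.h c := S.mul_nonneg_A hb (hv.h_mem c) hb0 (hv.h_nonneg c)
  set Y : Fin 2 → Op H := fun i => S.exp (Qc p st c i * (b * st.h c) * Qc p st c i) with hY
  set K1 := p.v⁻¹ * ((p.σ + p.thr) ^ 2 * (1 + 8 * p.cν))
      + 3 / 2 * ((p.σ / 2 + p.thr) * (4 * p.cν + p.hmin⁻¹))
  set K2 := p.v⁻¹ ^ 2 * ((2 + 2 * p.σ / p.v) * ((4 * p.cν + p.hmin⁻¹) / 2) * p.v
      + p.thr * (1 + 8 * p.cν) / 2 + (p.σ / 2 + p.thr) * (1 + 8 * p.cν) / 4
      + p.v * (4 * p.cν + p.hmin⁻¹))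
  refine ⟨∑ i, (|K1| * ‖b‖ + |K2| * ‖Y i‖), Finset.sum_nonneg fun i _ => by positivity,
    fun w d e U cv => ?_⟩
  rw [Finset.sum_mul, show 2 * p.κ * S.rtau (b * d) = ∑ _i : Fin 2, p.κ * S.rtau (b * d) by
    simp; ring, ← Finset.sum_sub_distrib]
  refine Finset.sum_le_sum fun i _ => ?_
  obtain ⟨hi, W', E, l⟩ := exists_Loc hg hy hv hR c i
  have h1 := cv.kill_le l hσ hthr hb hb0
  have hQM := l.Q_mem
  have hYA : Y i ∈ S.A := S.exp_mem _
  have hY0 : 0 ≤ Y i := S.exp_nonneg (mul_mem (mul_mem hQM (S.A_le (mul_mem hb (hv.h_mem c)))) hQM)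
    (l.Q_sa.conjugate_nonneg hbh)
  have p1 : 0 ≤ S.rtau (b * d) := S.rtau_nonneg (S.mul_nonneg_A hb cv.d_mem hb0 cv.d_nonneg)
  have p2 : 0 ≤ S.rtau (Y i * d) := S.rtau_nonneg (S.mul_nonneg_A hYA cv.d_mem hY0 cv.d_nonneg)
  have p3 : 0 ≤ S.rtau (b * e) := S.rtau_nonneg (S.mul_nonneg_A hb cv.e_mem hb0 cv.e_nonneg)
  have p4 : 0 ≤ S.rtau (Y i * e) := S.rtau_nonneg (S.mul_nonneg_A hYA cv.e_mem hY0 cv.e_nonneg)
  have q1 := mul_le_mul_of_nonneg_right hK p1
  have q2 := mul_le_mul_of_nonneg_right hK0 p2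
  have q3 : K1 * S.rtau (b * e) ≤ |K1| * (‖b‖ * S.rtau e) :=
    (mul_le_mul_of_nonneg_right (le_abs_self K1) p3).trans
      (mul_le_mul_of_nonneg_left (rtau_mul_le_norm hb hb0 cv.e_mem cv.e_nonneg) (abs_nonneg _))
  have q4 : K2 * S.rtau (Y i * e) ≤ |K2| * (‖Y i‖ * S.rtau e) :=
    (mul_le_mul_of_nonneg_right (le_abs_self K2) p4).trans
      (mul_le_mul_of_nonneg_left (rtau_mul_le_norm hYA hY0 cv.e_mem cv.e_nonneg) (abs_nonneg _))
  simp only [Qc, hY, K1, K2] at h1 q2 q3 q4 ⊢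
  linarith

/-- The second order change of the trace of the barrier is nonpositive up to the leverage error. -/
theorem pot_drift (hg : p.Good) (hy : Inp S y) {st : St H p.r} (hv : Inv S p y st)
    (hR : Ready S p η y st) (c : Fin p.r) (i : Fin 2) :
    ∃ C : ℝ, 0 ≤ C ∧ ∀ (w d e : Op H) (U : S.L2A →L[ℂ] S.L2A),
      Cov S p (st.h c) (st.act c) w d e U →
      (S.ktr (S.T (Qc p st c i) (Qc p st c i * Qc p st c i) * U)).re ≤ C * S.rtau e := by
  have hσ := (Lower.σ_pos hg).le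
  obtain ⟨hi, W', E, l⟩ := exists_Loc hg hy hv hR c i
  set Q := Qc p st c i with hQ
  have hQQ : Q * Q ∈ S.M := mul_mem l.Q_mem l.Q_mem
  have hQQ0 : 0 ≤ Q * Q := l.Q_sa.mul_self_nonneg
  set Y := S.exp (Q * Q) with hY
  have hYA : Y ∈ S.A := S.exp_mem _
  have hY0 : 0 ≤ Y := S.exp_nonneg hQQ hQQ0
  set K := p.v * (4 * p.cν + p.hmin⁻¹)
  refine ⟨|K| * ‖Y‖, by positivity, fun w d e U cv => ?_⟩
  have h1 := (cv.qdrift l hQQ hQQ0).trans (cv.q_part l hσ hYA hY0)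
  have p2 : 0 ≤ S.rtau (Y * d) := S.rtau_nonneg (S.mul_nonneg_A hYA cv.d_mem hY0 cv.d_nonneg)
  have p4 : 0 ≤ S.rtau (Y * e) := S.rtau_nonneg (S.mul_nonneg_A hYA cv.e_mem hY0 cv.e_nonneg)
  have hco : p.v * (4 * p.cν) - p.σ / 2 ≤ 0 := by
    have := Lower.v_pos hg
    unfold Par.σ Par.cν
    linarith
  have q2 := mul_nonpos_of_nonpos_of_nonneg hco p2
  have q4 : K * S.rtau (Y * e) ≤ |K| * (‖Y‖ * S.rtau e) :=
    (mul_le_mul_of_nonneg_right (le_abs_self K) p4).trans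
      (mul_le_mul_of_nonneg_left (rtau_mul_le_norm hYA hY0 cv.e_mem cv.e_nonneg) (abs_nonneg _))
  have h1' : (S.ktr (S.T Q (Q * Q) * U)).re ≤ (p.v * (4 * p.cν) - p.σ / 2) * S.rtau (Y * d)
      + p.v * (4 * p.cν + p.hmin⁻¹) * S.rtau (Y * e) := h1
  simp only [K] at q4
  simp only [K]
  linarith

end Final

end Walk

end Vale.Agent.P078
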