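import Vale.Agent.P078.Walk.Lower

/-!
# P078: the two ends of the walk

The initial state, the parts of the potential, and the paving read off from a final state.
-/

noncomputable section

namespace Vale.Agent.P078.Walk

universe u

variable {H : Type u} [NormedAddCommGroup H] [InnerProductSpace ℂ H] [CompleteSpace H]

namespace Finish

variable (S : Std H) {p : Par}

theorem rtau_sum {ι : Type*} (s : Finset ι) (x : ι → Op H) :
    S.rtau (∑ i ∈ s, x i) = ∑ i ∈ s, S.rtau (x i) := by
  simp [Std.rtau, S.tau_sum, Complex.re_sum]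

theorem rtau_one : S.rtau 1 = 1 := by simp [Std.rtau, S.tau_one]

theorem rtau_zero : S.rtau 0 = 0 := by simp [Std.rtau, S.tau_zero]

theorem norm_sgn_smul {y : Op H} (hy : Inp S y) (i : Fin 2) : ‖sgn i • y‖ ≤ 1 := by
  fin_cases i <;> simpa [sgn] using hy.norm_le

theorem sgn_smul_sa {y : Op H} (hy : Inp S y) (i : Fin 2) : IsSelfAdjoint (sgn i • y) :=
  (IsSelfAdjoint.all (sgn i)).smul hy.sa

theorem σ_le (hg : p.Good) : p.σ ≤ 1 / 1600 := by
  have := hg.ε_le
  unfold Par.σ Par.v
  linarith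

theorem Bar_nonneg (hg : p.Good) {y : Op H} (hy : Inp S y) (i : Fin 2) : 0 ≤ Bar p y i := by
  have h1 : -(sgn i • y) ≤ (1 : ℝ) • (1 : Op H) :=
    (le_norm_smul_one (sgn_smul_sa S hy i).neg).trans
      (smul_le_smul_of_nonneg_right (by rw [norm_neg]; exact norm_sgn_smul S hy i) zero_le_one)
  have h2 : (1 : ℝ) • (1 : Op H) ≤ (2 - p.σ) • (1 : Op H) :=
    smul_le_smul_of_nonneg_right (by linarith [σ_le hg]) zero_le_one
  have h := sub_nonneg.2 (h1.trans h2)
  rwa [sub_neg_eq_add, add_comm] at h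

theorem Bar_le_three (hg : p.Good) {y : Op H} (hy : Inp S y) (i : Fin 2) :
    Bar p y i ≤ (3 : ℝ) • (1 : Op H) := by
  have h1 : sgn i • y ≤ (1 : ℝ) • (1 : Op H) :=
    (le_norm_smul_one (sgn_smul_sa S hy i)).trans
      (smul_le_smul_of_nonneg_right (norm_sgn_smul S hy i) zero_le_one)
  refine (add_le_add h1 le_rfl).trans ?_
  rw [← add_smul]
  exact smul_le_smul_of_nonneg_right (by linarith [Lower.σ_pos hg]) zero_le_one

theorem init_W_mul_star (hg : p.Good) {y : Op H} (hy : Inp S y) (i : Fin 2) :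
    (init p y).W i * star ((init p y).W i) = Bar p y i := by
  show CFC.sqrt (Bar p y i) * star (CFC.sqrt (Bar p y i)) = _
  rw [(IsSelfAdjoint.of_nonneg (CFC.sqrt_nonneg _)).star_eq,
    CFC.sqrt_mul_sqrt_self _ (Bar_nonneg S hg hy i)]

theorem init_Bop (hg : p.Good) {y : Op H} (hy : Inp S y) (i : Fin 2) :
    Bop 2 ((init p y).W i) = sgn i • y - p.σ • (1 : Op H) := by
  rw [Bop, init_W_mul_star S hg hy, Bar]
  module

theorem init_ok (hg : p.Good) {y : Op H} (hy : Inp S y) (i : Fin 2) :
    Ok p.v 2 ((init p y).W i) (p.h0 • (1 : Op H)) := by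
  have hh0 := Lower.h0_pos hg
  refine ok_of_small (Lower.v_pos hg) two_pos (smul_nonneg hh0.le zero_le_one) hh0.le le_rfl ?_
  have h1 : ‖(init p y).W i‖ ^ 2 ≤ 3 := by
    rw [sq, ← CStarRing.norm_self_mul_star, init_W_mul_star S hg hy i]
    exact norm_le_of_le_smul_one (by norm_num) (Bar_nonneg S hg hy i) (Bar_le_three S hg hy i)
  have := Lower.v_pos hg
  have := σ_le hg
  have := mul_le_mul_of_nonneg_left h1 hh0.le
  rw [Par.h0] at *
  nlinarith [Lower.σ_pos hg]

/-- The diagonal of the first barrier is close to `-σ`. -/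
theorem init_exp_Q_le (hg : p.Good) {y : Op H} (hy : Inp S y) (i : Fin 2) :
    S.exp (Qop p.v 2 ((init p y).W i) (p.h0 • (1 : Op H)))
      ≤ (p.σ / 40 - p.σ) • (1 : Op H) := by
  have o := init_ok S hg hy i
  have hh0 := Lower.h0_pos hg
  have hv := Lower.v_pos hg
  have hσ := Lower.σ_pos hg
  set B := Bop 2 ((init p y).W i) with hB
  have eB : B = sgn i • y - p.σ • (1 : Op H) := init_Bop S hg hy i
  have hn : ‖B‖ ≤ 1 + p.σ := by
    rw [eB]
    refine (norm_sub_le _ _).trans (add_le_add (norm_sgn_smul S hy i) ?_)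
    rw [norm_smul, Real.norm_of_nonneg hσ.le]
    exact mul_le_of_le_one_right hσ.le (IsStarProjection.norm_le _ (IsStarProjection.one _))
  have hn2 : ‖B * B‖ ≤ 2 := by
    refine (norm_mul_le _ _).trans ?_
    have := σ_le hg
    nlinarith [norm_nonneg B]
  have hBB : (2 * p.h0 / p.v) • (B * B) ≤ (p.σ / 40) • (1 : Op H) := by
    have hsa : IsSelfAdjoint B := Bop_isSelfAdjoint
    refine (smul_le_smul_of_nonneg_left ((le_norm_smul_one (hsa.commute_iff hsa |>.1 (Commute.refl B))).trans
      (smul_le_smul_of_nonneg_right hn2 zero_le_one)) (by positivity)).trans (le_of_eq ?_)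
    rw [smul_smul]
    congr 1
    rw [Par.h0]
    field_simp
    ring
  have hs : p.h0 * ‖B‖ ≤ p.v / 2 := by
    have := σ_le hg
    have := mul_le_mul_of_nonneg_left hn hh0.le
    rw [Par.h0] at *
    nlinarith
  have hQ : Qop p.v 2 ((init p y).W i) (p.h0 • (1 : Op H)) ≤ B + (p.σ / 40) • (1 : Op H) :=
    sub_le_iff_le_add'.1 ((o.Q_sub_B_le hh0.le le_rfl hs).trans hBB)
  have hyM : sgn i • y ∈ S.M := Lower.smul_M S _ hy.mem
  have h1M : ∀ t : ℝ, t • (1 : Op H) ∈ S.M := fun t => Lower.smul_M S t (one_mem _)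
  have hWM : (init p y).W i ∈ S.M := S.sqrt_mem_M (Lower.Bar_mem S hy i)
  have hBM : B ∈ S.M := by rw [eB]; exact sub_mem hyM (h1M _)
  refine (S.exp_mono (Qop_mem S.M S.M_isClosed hWM (h1M _)) (add_mem hBM (h1M _)) hQ).trans
    (le_of_eq ?_)
  rw [S.exp_add hBM (h1M _), eB, S.exp_sub hyM (h1M _), Lower.exp_smul_real S _ hy.mem,
    Lower.exp_smul_real S _ (one_mem _), Lower.exp_smul_real S _ (one_mem _), hy.exp_eq, S.exp_one]
  module

theorem init_kterm_le (hg : p.Good) {y : Op H} (hy : Inp S y) :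
    kterm S p (init p y).W (p.h0 • (1 : Op H)) 1
      ≤ -(7 * p.σ * p.h0 / 30) • (1 : Op H) := by
  have hh0 := (Lower.h0_pos hg).le
  have hκ := (Lower.κ_pos hg).le
  have h1 : ∀ i, p.h0 • (1 : Op H) * (S.exp (Qop p.v 2 ((init p y).W i) (p.h0 • (1 : Op H)))
      + p.σ • (1 : Op H)) + p.κ • (p.h0 • (1 : Op H) * (1 - p.h0 • (1 : Op H)))
      ≤ (p.h0 * (p.σ / 40) + p.κ * p.h0) • (1 : Op H) := fun i => by
    simp only [smul_mul_assoc, one_mul]
    rw [add_smul, ← smul_smul, ← smul_smul]
    refine add_le_add (smul_le_smul_of_nonneg_left ?_ hh0)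
      (smul_le_smul_of_nonneg_left (smul_le_smul_of_nonneg_left
        (sub_le_self _ (smul_nonneg hh0 zero_le_one)) hh0) hκ)
    refine le_trans (add_le_add (init_exp_Q_le S hg hy i) le_rfl) (le_of_eq ?_)
    module
  rw [kterm, sub_self, smul_zero, sub_zero, Fin.sum_univ_two]
  refine (sub_le_sub_right (add_le_add (h1 0) (h1 1)) _).trans (le_of_eq ?_)
  rw [Par.κ]
  module

end Finish

variable (S : Std H) {p : Par}

/-- The initial state satisfies the invariant. -/
theorem init_inv (hg : p.Good) {y : Op H} (hy : Inp S y) : Inv S p y (init p y) := by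
  have hh0 := (Lower.h0_pos hg).le
  have h1 : ∀ t : ℝ, t • (1 : Op H) ∈ S.A := fun t => Lower.smul_A S t (one_mem _)
  refine ⟨fun _ => h1 _, fun _ => smul_nonneg hh0 zero_le_one, fun _ => ?_, fun _ => one_mem _,
    fun _ => IsStarProjection.one _, fun _ => mul_one _,
    fun i => S.sqrt_mem_M (Lower.Bar_mem S hy i), fun i => (Finish.init_W_mul_star S hg hy i).le,
    fun _ i => Finish.init_ok S hg hy i, one_mem _, IsStarProjection.one _, zero_mem _,
    IsStarProjection.zero _, zero_mem _, IsStarProjection.zero _, fun _ => zero_mem _,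
    fun _ => IsStarProjection.zero _, ?_, fun _ => ?_, ?_, zero_mem _, le_rfl, mul_zero _, ?_⟩
  · show p.h0 • (1 : Op H) ≤ 1
    calc p.h0 • (1 : Op H) ≤ (1 : ℝ) • (1 : Op H) :=
          smul_le_smul_of_nonneg_right (by linarith [Lower.h0_le hg]) zero_le_one
      _ = 1 := one_smul _ _
  · simp [init]
  · show (1 / 2 : ℝ) • (0 : Op H) ≤ p.h0 • (1 : Op H)
    rw [smul_zero]
    exact smul_nonneg hh0 zero_le_one
  · show p.thr * S.rtau 0 ≤ S.rtau (0 * _)
    simp [Finish.rtau_zero]
  · show (1 : Op H) * Kop S p (init p y) ≤ 0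
    rw [one_mul, Kop]
    refine (add_le_add le_rfl (Finset.sum_le_sum fun c _ => Finish.init_kterm_le S hg hy)).trans
      (le_of_eq ?_)
    rw [Finset.sum_const, Finset.card_univ, Fintype.card_fin, ← Nat.cast_smul_eq_nsmul ℝ,
      smul_smul, ← add_smul, Par.L]
    convert zero_smul ℝ (1 : Op H) using 2
    ring

/-- The potential at the start is linear in the number of colours. -/
theorem init_Zpot (hg : p.Good) {y : Op H} (hy : Inp S y) {ρ η : ℝ} (_hρ : 0 < ρ) (_hη : 0 < η) :
    Zpot S p ρ η y (init p y) ≤ 6 * p.r := by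
  have hh0 := (Lower.h0_pos hg).le
  have hΨ : Psi S p (init p y) = 0 := by
    simp [Psi, init, Finish.rtau_zero, Std.n2]
  have hD : DlSum p y (init p y) = 0 := Finset.sum_eq_zero fun i _ => by
    rw [Dl, Finish.init_W_mul_star S hg hy, sub_self]
  have hC : Clock S (init p y) ≤ p.r := by
    have : ∀ c, S.rtau ((2 : ℝ) • (init p y).h c - (init p y).h c * (init p y).h c) ≤ 1 := fun c => by
      show S.rtau ((2 : ℝ) • p.h0 • (1 : Op H) - p.h0 • (1 : Op H) * p.h0 • (1 : Op H)) ≤ 1
      rw [smul_mul_smul_comm, mul_one, smul_smul, ← sub_smul, Lower.rtau_smul, Finish.rtau_one]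
      nlinarith [Lower.h0_le hg]
    exact (Finset.sum_le_sum fun c _ => this c).trans (by simp)
  have hP : Pot S p (init p y) ≤ 4 * p.r := by
    have : ∀ c i, S.rtau (Qc p (init p y) c i + (2 : ℝ) • (1 : Op H)) ≤ 2 := fun c i => by
      have hQ : Qc p (init p y) c i ∈ S.M :=
        Lower.Qc_mem S (init_inv S hg hy) c i
      have h : S.rtau (Qc p (init p y) c i) ≤ 0 := by
        rw [show S.rtau (Qc p (init p y) c i) = S.rtau (S.exp (Qc p (init p y) c i)) by
          rw [Std.rtau, Std.rtau, S.tau_exp hQ]]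
        refine (Lower.rtau_mono S (Finish.init_exp_Q_le S hg hy i)).trans ?_
        rw [Lower.rtau_smul, Finish.rtau_one]
        linarith [Lower.σ_pos hg]
      rw [Lower.rtau_add, Lower.rtau_smul, Finish.rtau_one]
      linarith
    calc Pot S p (init p y) ≤ ∑ _c : Fin p.r, ∑ _i : Fin 2, (2 : ℝ) :=
          Finset.sum_le_sum fun c _ => Finset.sum_le_sum fun i _ => this c i
      _ = 4 * p.r := by simp; ring
  rw [Zpot, hΨ, hD, Finish.rtau_zero, mul_zero, zero_div, add_zero, zero_add]
  linarith [Nat.cast_nonneg (α := ℝ) p.r]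

/-- The parts of the potential are non-negative, and they bound the lost points. -/
theorem Zpot_terms (hg : p.Good) {y : Op H} (hy : Inp S y) {ρ η : ℝ} (hρ : 0 < ρ) (hη : 0 < η)
    {r : ℕ} {st : St H r} (hv : Inv S p y st) :
    0 ≤ Psi S p st ∧ 0 ≤ Pot S p st ∧ 0 ≤ Clock S st ∧ 0 ≤ S.rtau (DlSum p y st) ∧
      S.rtau st.g2 ≤ Real.sqrt ρ * Zpot S p ρ η y st / p.thrK ^ 2 ∧
      S.rtau (DlSum p y st) ≤ η * Zpot S p ρ η y st / p.γ ∧
      S.rtau st.g1 ≤ S.rtau (DlSum p y st) / p.thr := by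
  have hg2 : 0 ≤ S.rtau st.g2 := Lower.rtau_nonneg S hv.g2_proj.nonneg
  have hsq : 0 ≤ p.thrK ^ 2 * S.rtau st.g2 := mul_nonneg (sq_nonneg _) hg2
  have hΨ : 0 ≤ Psi S p st := add_nonneg hsq (sq_nonneg _)
  have hP : 0 ≤ Pot S p st := Finset.sum_nonneg fun c _ => Finset.sum_nonneg fun i _ =>
    Lower.rtau_nonneg S (by
      have h := sub_nonneg.2 (hv.ok c i).neg_smul_one_le
      rwa [sub_neg_eq_add] at h)
  have hC : 0 ≤ Clock S st := Finset.sum_nonneg fun c _ => Lower.rtau_nonneg S (by
    have h := Lower.mul_le_A S (hv.h_mem c) (hv.h_nonneg c) (hv.h_mem c) (one_mem _) (hv.h_le c)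
    rw [mul_one] at h
    rw [two_smul, add_sub_assoc]
    exact add_nonneg (hv.h_nonneg c) (sub_nonneg.2 h))
  have hDM := Lower.DlSum_mem S hy hv
  have hD : 0 ≤ S.rtau (DlSum p y st) := Lower.rtau_nonneg S (Lower.DlSum_nonneg S hv)
  have hsr : 0 < Real.sqrt ρ := Real.sqrt_pos.2 hρ
  have hγ : 0 < p.γ := by
    have := Lower.v_pos hg
    unfold Par.γ
    positivity
  have hL : 0 < p.L := by
    have := hg.r_big
    unfold Par.cν at this
    linarith
  have hK : 0 < p.thrK ^ 2 := by
    have := Lower.σ_pos hg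
    unfold Par.thrK
    positivity
  have hA : 0 ≤ Psi S p st / Real.sqrt ρ := div_nonneg hΨ hsr.le
  have hB : 0 ≤ p.γ / η * S.rtau (DlSum p y st) := mul_nonneg (div_pos hγ hη).le hD
  refine ⟨hΨ, hP, hC, hD, ?_, ?_, ?_⟩
  · have h : Psi S p st / Real.sqrt ρ ≤ Zpot S p ρ η y st := by rw [Zpot]; linarith
    rw [div_le_iff₀ hsr] at h
    rw [le_div_iff₀ hK]
    have : p.thrK ^ 2 * S.rtau st.g2 ≤ Psi S p st := le_add_of_nonneg_right (sq_nonneg _)
    linarith
  · have h : p.γ / η * S.rtau (DlSum p y st) ≤ Zpot S p ρ η y st := by rw [Zpot]; linarith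
    rw [div_mul_eq_mul_div, div_le_iff₀ hη] at h
    rw [le_div_iff₀ hγ]
    linarith
  · rw [le_div_iff₀ (Lower.thr_pos hg), mul_comm]
    refine hv.g1_le.trans (sub_nonneg.1 ?_)
    have h := Lower.rtau_proj_mul_nonneg S (sub_mem (one_mem _) (S.A_le hv.g1_mem))
      hv.g1_proj.one_sub hDM (Lower.DlSum_nonneg S hv)
    rwa [sub_mul, one_mul, Lower.rtau_sub] at h

/-- The potential is non-negative. -/
theorem Zpot_nonneg (hg : p.Good) {y : Op H} (hy : Inp S y) {ρ η : ℝ} (hρ : 0 < ρ) (hη : 0 < η)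
    {r : ℕ} {st : St H r} (hv : Inv S p y st) : 0 ≤ Zpot S p ρ η y st := by
  obtain ⟨h1, h2, h3, h4, -⟩ := Zpot_terms S hg hy hρ hη hv
  have hγ : 0 ≤ p.γ := sq_nonneg _
  rw [Zpot]
  positivity

/-- The paving read off from a state: the resolved points are paved, the rest is removed by `q`. -/
theorem finish (hg : p.Good) {y : Op H} (hy : Inp S y) {r : ℕ} {st : St H r}
    (hv : Inv S p y st) :
    ∃ (P : Fin (r + 1) → Op H) (q : Op H), IsPart (S.A : Set (Op H)) 1 P ∧ q ∈ S.M ∧
      IsStarProjection q ∧ ‖q * pinch P y * q‖ ≤ p.ε ∧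
      p.ε / 4 * S.n2 (1 - q) ^ 2 ≤
        S.rtau st.u + S.rtau st.g2 + S.rtau st.g1 + S.rtau (DlSum p y st) := by
  set e := st.u + st.g1 + st.g2 with he
  set D := DlSum p y st with hD
  have hDM : D ∈ S.M := Lower.DlSum_mem S hy hv
  have hD0 : 0 ≤ D := Lower.DlSum_nonneg S hv
  have heA : e ∈ S.A := add_mem (add_mem hv.u_mem hv.g1_mem) hv.g2_mem
  have hr0 : 0 ≤ ∑ c, st.res c := Finset.sum_nonneg fun c _ => (hv.res_proj c).nonneg
  have hes : e + ∑ c, st.res c = 1 := hv.sum_eq
  have huo := Lower.u_orth S hv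
  have h12 : st.g1 * st.g2 = 0 := by
    refine Lower.orth S hv.g1_mem hv.g2_mem hv.g1_proj hv.g2_proj ?_
    rw [← hes, he, add_assoc st.u, add_assoc st.u]
    exact le_add_of_nonneg_of_le hv.u_proj.nonneg (le_add_of_nonneg_right hr0)
  have hep : IsStarProjection e :=
    (hv.u_proj.add hv.g1_proj huo.1).add hv.g2_proj (by rw [add_mul, huo.2.1, h12, add_zero])
  have her : ∀ c, e * st.res c = 0 := fun c =>
    Lower.orth S heA (hv.res_mem c) hep (hv.res_proj c) (by
      rw [← hes]
      exact add_le_add le_rfl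
        (Finset.single_le_sum (fun j _ => (hv.res_proj j).nonneg) (Finset.mem_univ c)))
  have hre : ∀ c, st.res c * e = 0 := fun c => by
    rw [S.A_comm _ (hv.res_mem c) e heA, her]
  have hrr : ∀ c d, c ≠ d → st.res c * st.res d = 0 := fun c d hcd =>
    Lower.orth S (hv.res_mem c) (hv.res_mem d) (hv.res_proj c) (hv.res_proj d) (by
      rw [← hes, ← Finset.sum_pair hcd]
      exact le_add_of_nonneg_of_le hep.nonneg (Finset.sum_le_sum_of_subset_of_nonneg
        (Finset.subset_univ _) fun j _ _ => (hv.res_proj j).nonneg))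
  have hrM : ∀ c, st.res c ∈ S.M := fun c => S.A_le (hv.res_mem c)
  -- the comparison element
  set R := ∑ c, st.res c * D * st.res c with hR
  set X := R + e with hX
  have hR0 : 0 ≤ R :=
    Finset.sum_nonneg fun c _ => (hv.res_proj c).isSelfAdjoint.conjugate_nonneg hD0
  have hRM : R ∈ S.M := sum_mem fun c _ => mul_mem (mul_mem (hrM c) hDM) (hrM c)
  have hXM : X ∈ S.M := add_mem hRM (S.A_le heA)
  have hX0 : 0 ≤ X := add_nonneg hR0 hep.nonneg
  have heR : e * R = 0 := by
    simp [hR, Finset.mul_sum, ← mul_assoc, her]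
  have hRe : R * e = 0 := by
    simp [hR, Finset.sum_mul, mul_assoc, hre]
  have heX : e * X = e := by rw [hX, mul_add, heR, zero_add, hep.isIdempotentElem.eq]
  have hXe : X * e = e := by rw [hX, add_mul, hRe, zero_add, hep.isIdempotentElem.eq]
  set t := p.ε / 4 with ht
  have ht0 : 0 < t := by have := hg.ε_pos; positivity
  have ht1 : t < 1 := by have := hg.ε_le; rw [ht]; linarith
  obtain ⟨f, hfM, hfp, hfc, hf1, hf2⟩ := S.exists_spec_M hXM (IsSelfAdjoint.of_nonneg hX0) t
  rw [Complex.coe_smul] at hf1 hf2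
  have hq := hfp.one_sub
  set q := 1 - f with hqdef
  have hcX : Commute X q := (Commute.one_right X).sub_right (hfc X rfl)
  have hceq : Commute e q := (Commute.one_right e).sub_right (hfc e (heX.trans hXe.symm))
  have heq : e * q = 0 := by
    have hpp : IsStarProjection (e * q) := hep.mul hq hceq
    have h1 := hep.isSelfAdjoint.conjugate_le_conjugate hf2
    have e1 : e * (X * q) * e = e * q := by
      rw [← mul_assoc, heX, mul_assoc, hceq.symm.eq, ← mul_assoc, hep.isIdempotentElem.eq]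
    have e2 : e * (t • q) * e = t • (e * q) := by
      rw [mul_smul_comm, smul_mul_assoc, mul_assoc, hceq.symm.eq, ← mul_assoc,
        hep.isIdempotentElem.eq]
    rw [e1, e2] at h1
    have h2 : (1 - t) • (e * q) ≤ 0 := by rwa [sub_smul, one_smul, sub_nonpos]
    exact (smul_eq_zero_iff_right (by linarith : (1 - t) ≠ 0)).1
      (le_antisymm h2 (smul_nonneg (by linarith) hpp.nonneg))
  -- the partition
  refine ⟨Fin.snoc st.res e, q, ⟨?_, ?_, ?_⟩, sub_mem (one_mem _) hfM, hq, ?_, ?_⟩
  · refine Fin.lastCases ?_ (fun c => ?_)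
    · simpa using ⟨heA, hep⟩
    · simpa using ⟨hv.res_mem c, hv.res_proj c⟩
  · intro i j hij
    induction i using Fin.lastCases with
    | last =>
      induction j using Fin.lastCases with
      | last => exact absurd rfl hij
      | cast d => simpa using her d
    | cast c =>
      induction j using Fin.lastCases with
      | last => simpa using hre c
      | cast d => simpa using hrr c d fun h => hij (by rw [h])
  · simp [Fin.sum_univ_castSucc, add_comm _ e, hes]
  · set T := ∑ c, st.res c * y * st.res c with hT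
    have eP : q * pinch (Fin.snoc st.res e) y * q = q * T * q := by
      have h0 : q * (e * y * e) * q = 0 := by
        rw [mul_assoc e, ← mul_assoc q, ← hceq.eq, heq, zero_mul, zero_mul]
      simp [pinch, Fin.sum_univ_castSucc, mul_add, add_mul, h0, hT]
    rw [eP]
    have hbound : ∀ i : Fin 2, sgn i • (q * T * q) ≤ p.ε • (1 : Op H) := fun i => by
      have hc : ∀ c, sgn i • (st.res c * y * st.res c)
          ≤ (p.σ + p.v / (1 / 2)) • st.res c + st.res c * D * st.res c := fun c => by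
        have hp' := hv.res_proj c
        have hy' : sgn i • y = Bop 2 (st.W i) + p.σ • (1 : Op H) + Dl p y st i := by
          rw [Bop, Dl, Bar]
          module
        rw [← smul_mul_assoc, ← mul_smul_comm, hy']
        simp only [mul_add, add_mul, mul_smul_comm, smul_mul_assoc, mul_one,
          hp'.isIdempotentElem.eq]
        refine add_le_add ?_ (hp'.isSelfAdjoint.conjugate_le_conjugate (Lower.Dl_le_sum S hv i))
        rw [add_smul, add_comm (_ • _)]
        exact add_le_add ((hv.ok c i).pBp_le hp' (S.A_comm _ (hv.res_mem c) _ (hv.h_mem c))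
          (by norm_num) (hv.res_h c)) le_rfl
      have h1 : sgn i • T ≤ (p.σ + p.v / (1 / 2)) • (1 : Op H) + X := by
        rw [hT, Finset.smul_sum]
        refine (Finset.sum_le_sum fun c _ => hc c).trans ?_
        rw [Finset.sum_add_distrib, ← Finset.smul_sum, hX]
        refine add_le_add (smul_le_smul_of_nonneg_left ?_ ?_) (le_add_of_nonneg_right hep.nonneg)
        · rw [← hes]; exact le_add_of_nonneg_left hep.nonneg
        · have := Lower.σ_pos hg; have := Lower.v_pos hg; positivity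
      have h2 := hq.isSelfAdjoint.conjugate_le_conjugate h1
      have hq1 : q ≤ 1 := hq.le_one
      have hXq : q * X * q ≤ t • q := by
        rw [← hcX.eq, mul_assoc, hq.isIdempotentElem.eq]; exact hf2
      rw [mul_smul_comm, smul_mul_assoc] at h2
      refine h2.trans ?_
      rw [mul_add, add_mul, mul_smul_comm, smul_mul_assoc, mul_one, hq.isIdempotentElem.eq]
      refine (add_le_add le_rfl hXq).trans ?_
      rw [← add_smul]
      refine (smul_le_smul_of_nonneg_left hq1 ?_).trans (smul_le_smul_of_nonneg_right ?_ zero_le_one)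
      · have := Lower.σ_pos hg; have := Lower.v_pos hg; positivity
      · rw [ht]; have := hg.ε_pos; unfold Par.σ Par.v; linarith
    have h0 := hbound 0
    have h1 := hbound 1
    simp only [sgn, Matrix.cons_val_zero, Matrix.cons_val_one, one_smul, neg_one_smul] at h0 h1
    refine norm_le_of_sandwich hg.ε_pos.le ?_ ?_
    · rw [Complex.coe_smul]; exact neg_le.1 h1
    · rw [Complex.coe_smul]; exact h0
  · have e1 : 1 - q = f := by rw [hqdef]; abel
    rw [e1, Lower.n2_sq_eq S hfp.isSelfAdjoint, hfp.isIdempotentElem.eq, ← Lower.rtau_smul]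
    refine (Lower.rtau_mono S hf1).trans ?_
    have hcXf : Commute X f := hfc X rfl
    have h1 : X * f ≤ X := by
      rw [← sub_nonneg]
      have h := hcX.mul_nonneg hX0 hq.nonneg
      rwa [hqdef, mul_sub, mul_one] at h
    refine (Lower.rtau_mono S h1).trans ?_
    rw [hX, Lower.rtau_add, he, Lower.rtau_add, Lower.rtau_add]
    have h2 : S.rtau R ≤ S.rtau D := by
      have h3 : S.rtau R = S.rtau ((∑ c, st.res c) * D) := by
        rw [hR, Finset.sum_mul, Finish.rtau_sum, Finish.rtau_sum]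
        refine Finset.sum_congr rfl fun c _ => ?_
        rw [Lower.rtau_comm S (mul_mem (hrM c) hDM) (hrM c), ← mul_assoc,
          (hv.res_proj c).isIdempotentElem.eq]
      rw [h3, eq_sub_of_add_eq' hes, sub_mul, one_mul, Lower.rtau_sub]
      linarith [Lower.rtau_proj_mul_nonneg S (S.A_le heA) hep hDM hD0]
    linarith

end Vale.Agent.P078.Walk
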