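import Vale.Agent.P078.Walk.Assembly
import Vale.Agent.P078.Walk.Finish

/-!
# P078: the end steps of the walk for the assembly
-/

noncomputable section

namespace Vale.Agent.P078.Walk

universe u

variable {H : Type u} [NormedAddCommGroup H] [InnerProductSpace ℂ H] [CompleteSpace H]

/-- The initial and final properties hold for all admissible parameters and inputs. -/
theorem endSteps (S : Std H) {p : Par} (hg : p.Good) {y : Op H} (hy : Inp S y) : EndSteps S p y where
  init_inv := init_inv S hg hy
  init_Zpot _ _ hρ hη := init_Zpot S hg hy hρ hη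
  terms _ hv := by
    obtain ⟨h1, h2, h3, -⟩ := Zpot_terms S hg hy (ρ := 1) (η := 1) one_pos one_pos hv
    exact ⟨h1, h2, h3, Lower.DlSum_nonneg S hv⟩
  finish _ hv := finish S hg hy hv

/-- The tracial core from the move step alone. -/
theorem tracialCore_of_move
    (hmove : ∀ (H : Type u) [NormedAddCommGroup H] [InnerProductSpace ℂ H] [CompleteSpace H]
      (S : Std H) (p : Par) (y : Op H), p.Good → Inp S y → MoveStep S p y) :
    TracialCore.{u} :=
  tracialCore_of_steps hmove fun _ _ _ _ S _ _ hg hy => endSteps S hg hy

end Vale.Agent.P078.Walk
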