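import Vale.Agent.P078.Walk.LowerAux

/-!
# P078: the lowering phases of the walk

Cuts, removal of badly cut points, removal of hot or light colours, resolution of heavy colours and removal of
points with too little total weight.  None of them raises the potential.
-/

noncomputable section

namespace Vale.Agent.P078.Walk

universe u

variable {H : Type u} [NormedAddCommGroup H] [InnerProductSpace ℂ H] [CompleteSpace H]

namespace Lower

/-! ### Generic tools -/

theorem exists_loop {α ι : Type*} [DecidableEq ι] (G : α → Prop) (Z : α → ℝ) (Q : ι → α → Prop)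
    (step : ∀ a i, G a → ∃ b, G b ∧ Z b ≤ Z a ∧ Q i b ∧ ∀ j, Q j a → Q j b)
    (a : α) (ha : G a) (s : Finset ι) : ∃ b, G b ∧ Z b ≤ Z a ∧ ∀ i ∈ s, Q i b := by
  induction s using Finset.induction_on with
  | empty => exact ⟨a, ha, le_rfl, fun i hi => absurd hi (Finset.notMem_empty i)⟩
  | insert i s _ ih =>
    obtain ⟨b, hb, hZ, hQ⟩ := ih
    obtain ⟨c, hc, hZc, hQi, hkeep⟩ := step b i hb
    refine ⟨c, hc, hZc.trans hZ, fun j hj => ?_⟩
    rcases Finset.mem_insert.1 hj with rfl | hj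
    · exact hQi
    · exact hkeep j (hQ j hj)

section Ring

variable {R : Type*} [CommRing R]

theorem kill_id (h al f q0 q1 q0' q1' s k t m : R) (hf : f * f = f) (hfa : f * al = f) :
    h * (1 - f) * (q0' + s) + k * (h * (1 - f) * (1 - h * (1 - f)))
      + (h * (1 - f) * (q1' + s) + k * (h * (1 - f) * (1 - h * (1 - f))))
      - t * (h * (1 - f)) - m * (1 - al * (1 - f))
    = h * (q0 + s) + k * (h * (1 - h)) + (h * (q1 + s) + k * (h * (1 - h))) - t * h - m * (1 - al)
      + (h * (1 - f) * (q0' - q0) + h * (1 - f) * (q1' - q1)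
        + f * (t * h - m - h * (q0 + s) - h * (q1 + s))
        - k * (f * (h * (1 - h))) - k * (f * (h * (1 - h)))) := by
  linear_combination (-2 * k * h * h) * hf - m * hfa

theorem clock_id (h f : R) (hf : f * f = f) :
    h * (1 - f) + h * (1 - f) - h * (1 - f) * (h * (1 - f)) = (1 - f) * (h + h - h * h) := by
  linear_combination (-h * h) * hf

theorem split_id (a e0 e1 e2 : R) :
    a * (1 - e0 * ((1 - e1) * (1 - e2))) =
      a * (1 - e0) + a * e0 * e1 + a * e0 * (1 - e1) * e2 := by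
  ring

theorem act_id (u al w : R) (hu : u * u = u) (ha : al * al = al) :
    u * (al * (1 - u * al * (1 - w))) = u * al * w := by
  linear_combination (al * al * (-(1 - w))) * hu + (u * (-(1 - w))) * ha

theorem low_id (h u al w : R) (hu : u * u = u) (ha : al * al = al) (hw : w * w = w) :
    h * (1 - u * al * (1 - w)) * (u * al * w) = h * (u * al * w) := by
  linear_combination (-h * al * al * (1 - w) * w) * hu + (-h * u * (1 - w) * w) * ha
    + (h * u * al) * hw

end Ring

variable (S : Std H) (p : Par)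

/-- `Y ≤ 1 - η` for colour `c` and sign `i`. -/
def YOk (η : ℝ) {r : ℕ} (st : St H r) (c : Fin r) (i : Fin 2) : Prop :=
  Yop p.v 2 (st.W i) (st.h c) ≤ (1 - η) • (1 : Op H)

/-- The cut part is small on the unresolved points. -/
def DlOk (y : Op H) {r : ℕ} (st : St H r) : Prop :=
  st.u * S.exp (DlSum p y st) ≤ p.thr • st.u

/-- Active weights are not below `hmin`. -/
def Low {r : ℕ} (st : St H r) (c : Fin r) : Prop := p.hmin • st.act c ≤ st.h c * st.act c

/-- Active colours are cold. -/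
def Cold {r : ℕ} (st : St H r) (c : Fin r) : Prop :=
  ∀ i, (qc S p st c i + (p.σ / 2) • (1 : Op H)) * st.act c ≤ 0

/-- Active weights are at most one half. -/
def High {r : ℕ} (st : St H r) (c : Fin r) : Prop :=
  st.h c * st.act c ≤ (1 / 2 : ℝ) • st.act c

variable {p}

theorem spec_real {x : Op H} (hx : x ∈ S.A) (hsa : IsSelfAdjoint x) (t : ℝ) :
    ∃ e ∈ S.A, IsStarProjection e ∧ t • e ≤ x * e ∧ x * (1 - e) ≤ t • (1 - e) := by
  obtain ⟨e, he, hep, h1, h2⟩ := S.exists_spec hx hsa t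
  rw [Complex.coe_smul] at h1 h2
  exact ⟨e, he, hep, h1, h2⟩

/-! ### Phase 1: cuts -/

theorem gfun_ge {v : ℝ} (hv : 0 < v) {h : Op H} (hh : 0 ≤ h) (h1 : h ≤ 1) :
    (v / (v + 2)) • (1 : Op H) ≤ gfun v 2 h := by
  have hu := isUnit_den (s := 2) hv zero_le_two hh
  have e0 : deninv v 2 h * den v 2 h = 1 := Ring.inverse_mul_cancel _ hu
  have hc : Commute (deninv v 2 h) ((v + 2) • (1 : Op H) - den v 2 h) :=
    ((Commute.one_right _).smul_right _).sub_right (commute_ringInverse hu (Commute.refl _)).symm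
  have hle : den v 2 h ≤ (v + 2) • (1 : Op H) := by
    rw [den, add_smul]
    exact add_le_add le_rfl (smul_le_smul_of_nonneg_left h1 zero_le_two)
  have h0 := hc.mul_nonneg (deninv_nonneg hv zero_le_two hh) (sub_nonneg.2 hle)
  rw [mul_sub, e0, mul_smul_comm, mul_one, sub_nonneg] at h0
  have h2 := smul_le_smul_of_nonneg_left h0 (show 0 ≤ v / (v + 2) by positivity)
  rwa [smul_smul, div_mul_cancel₀ v (by positivity)] at h2

theorem gamma_le (hv : 0 < p.v) {h : Op H} (hh : 0 ≤ h) (h1 : h ≤ 1) :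
    p.γ • (1 : Op H) ≤ gfun p.v 2 h * gfun p.v 2 h := by
  set g := gfun p.v 2 h
  set c := p.v / (p.v + 2) with hc'
  have hc : 0 ≤ c := by positivity
  have hge : c • (1 : Op H) ≤ g := gfun_ge hv hh h1
  have hcm : Commute (g - c • (1 : Op H)) (g + c • (1 : Op H)) :=
    ((Commute.refl g).add_right ((Commute.one_right g).smul_right c)).sub_left
      ((Commute.one_left _).smul_left c)
  have h0 := hcm.mul_nonneg (sub_nonneg.2 hge)
    (add_nonneg (gfun_nonneg hv zero_le_two hh) (smul_nonneg hc zero_le_one))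
  rw [← sub_nonneg]
  refine h0.trans (le_of_eq ?_)
  rw [Par.γ, ← hc', sq]
  simp only [sub_mul, mul_add, mul_smul_comm, smul_mul_assoc, mul_one, one_mul, smul_smul]
  module

theorem rtau_conj_ge {W z g : Op H} (hW : W ∈ S.M) (hz : z ∈ S.M) (hzp : IsStarProjection z)
    (hg : g ∈ S.M) {γ : ℝ} (hγ : γ • (1 : Op H) ≤ g * g) :
    γ * S.rtau (W * z * star W) ≤ S.rtau (g * (W * z * star W) * g) := by
  set a := W * z
  have ha : a ∈ S.M := mul_mem hW hz
  have ea : W * z * star W = a * star a := by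
    simp only [a, star_mul, hzp.isSelfAdjoint.star_eq, mul_assoc]
    simp only [← mul_assoc, mul_assoc W z z, hzp.isIdempotentElem.eq]
  rw [ea]
  have h1 := rtau_mono S (star_left_conjugate_le_conjugate hγ a)
  rw [mul_smul_comm, smul_mul_assoc, mul_one, rtau_smul] at h1
  calc γ * S.rtau (a * star a) = γ * S.rtau (star a * a) := by
        rw [rtau_comm S ha (star_mem ha)]
    _ ≤ S.rtau (star a * (g * g) * a) := h1
    _ = S.rtau (g * (a * star a) * g) := by
        rw [show star a * (g * g) * a = (star a * g) * (g * a) by simp only [mul_assoc],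
          rtau_comm S (mul_mem (star_mem ha) hg) (mul_mem hg ha)]
        simp only [mul_assoc]

theorem kterm_mono {W W' : Fin 2 → Op H} {hc alc : Op H} (hh : hc ∈ S.A) (h0 : 0 ≤ hc)
    (hq : ∀ i, S.exp (Qop p.v 2 (W' i) hc) ≤ S.exp (Qop p.v 2 (W i) hc)) :
    kterm S p W' hc alc ≤ kterm S p W hc alc :=
  sub_le_sub_right (sub_le_sub_right (Finset.sum_le_sum fun i _ => add_le_add
    (mul_le_A S hh h0 (add_mem (S.exp_mem _) (smul_A S _ (one_mem _)))
      (add_mem (S.exp_mem _) (smul_A S _ (one_mem _))) (add_le_add (hq i) le_rfl)) le_rfl) _) _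

theorem cut_step (hg : p.Good) {y : Op H} (hy : Inp S y) {ρ η : ℝ} (hη : 0 < η) (hη1 : η < 1)
    {r : ℕ} (st : St H r) (ci : Fin r × Fin 2) (hv : Inv S p y st) :
    ∃ st', Inv S p y st' ∧ Zpot S p ρ η y st' ≤ Zpot S p ρ η y st ∧ YOk p η st' ci.1 ci.2 ∧
      ∀ cj : Fin r × Fin 2, YOk p η st cj.1 cj.2 → YOk p η st' cj.1 cj.2 := by
  obtain ⟨c, i⟩ := ci
  set Y := Yop p.v 2 (st.W i) (st.h c) with hY
  have o := hv.ok c i
  obtain ⟨z, hzM, hzp, hzc, hz1, hz2⟩ :=
    S.exists_spec_M (Yop_mem S hv c i) (IsSelfAdjoint.of_nonneg o.Y_nonneg) (1 - η)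
  rw [Complex.coe_smul] at hz1 hz2
  have hzY : Commute z Y := (hzc Y rfl).symm
  have hz1' := hzp.one_sub
  set W' : Fin 2 → Op H := Function.update st.W i (st.W i * (1 - z)) with hW'
  set st' : St H r := { st with W := W' } with hst'
  have eWi : W' i = st.W i * (1 - z) := Function.update_self ..
  have eWj : ∀ j, j ≠ i → W' j = st.W j := fun j hj => Function.update_of_ne hj ..
  have hWmem : ∀ j, W' j ∈ S.M := fun j => by
    by_cases hj : j = i
    · subst hj; rw [eWi]; exact mul_mem (hv.W_mem j) (sub_mem (one_mem _) hzM)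
    · rw [eWj j hj]; exact hv.W_mem j
  set X := st.W i * z * star (st.W i) with hX
  have hX0 : 0 ≤ X := star_right_conjugate_nonneg hzp.nonneg _
  have hXM : X ∈ S.M := mul_mem (mul_mem (hv.W_mem i) hzM) (star_mem (hv.W_mem i))
  have hWW : st.W i * star (st.W i) - W' i * star (W' i) = X := by
    have e := cut_B_sub (s := (2 : ℝ)) (W := st.W i) hzp
    rw [Bop, Bop, sub_sub_sub_cancel_right] at e
    rw [eWi]; exact e
  have hle : ∀ j, W' j * star (W' j) ≤ st.W j * star (st.W j) := fun j => by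
    by_cases hj : j = i
    · subst hj; exact sub_nonneg.1 (hX0.trans_eq hWW.symm)
    · rw [eWj j hj]
  have hok : ∀ c' j, Ok p.v 2 (W' j) (st.h c') ∧
      Qop p.v 2 (W' j) (st.h c') ≤ Qop p.v 2 (st.W j) (st.h c') := fun c' j => by
    by_cases hj : j = i
    · subst hj; rw [eWi]; exact ⟨(hv.ok c' j).cut hzp, (hv.ok c' j).cut_Q_le hzp⟩
    · rw [eWj j hj]; exact ⟨hv.ok c' j, le_rfl⟩
  have hDl : DlSum p y st' = DlSum p y st + X := by
    rw [← sub_eq_iff_eq_add', DlSum, DlSum, ← Finset.sum_sub_distrib]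
    refine (Finset.sum_eq_single i (fun j _ hj => ?_) (by simp)).trans ?_
    · simp [Dl, hst', eWj j hj]
    · simp only [Dl, hst']
      rw [sub_sub_sub_cancel_left, hWW]
  have hQM : ∀ c' j, Qc p st' c' j ∈ S.M := fun c' j =>
    Qop_mem S.M S.M_isClosed (hWmem j) (S.A_le (hv.h_mem c'))
  refine ⟨st', ⟨hv.h_mem, hv.h_nonneg, hv.h_le, hv.al_mem, hv.al_proj, hv.h_al, hWmem,
    fun j => (hle j).trans (hv.W_le j), fun c' j => (hok c' j).1, hv.u_mem, hv.u_proj, hv.g1_mem,
    hv.g1_proj, hv.g2_mem, hv.g2_proj, hv.res_mem, hv.res_proj, hv.sum_eq, hv.res_h, ?_, hv.bd_mem,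
    hv.bd_nonneg, hv.bd_u, ?_⟩, ?_, ?_, ?_⟩
  · rw [hDl, mul_add, rtau_add]
    have h1 := rtau_proj_mul_nonneg S (S.A_le hv.g1_mem) hv.g1_proj hXM hX0
    have h2 := hv.g1_le
    show p.thr * S.rtau st.g1 ≤ _
    linarith
  · refine le_trans ?_ hv.K_le
    refine mul_le_A S hv.u_mem hv.u_proj.nonneg
      (add_mem (smul_A S _ (one_mem _)) (sum_mem fun c' _ => kterm_mem S (hv.h_mem c') (hv.al_mem c')))
      (Kop_mem S hv) (add_le_add le_rfl (Finset.sum_le_sum fun c' _ => ?_))
    exact kterm_mono S (hv.h_mem c') (hv.h_nonneg c')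
      fun j => S.exp_mono (hQM c' j) (Qc_mem S hv c' j) (hok c' j).2
  · have hv0 := v_pos hg
    set g := gfun p.v 2 (st.h c) with hgdef
    have hgM : g ∈ S.M := smul_M S _ (S.inverse_mem_M (add_mem (smul_M S _ (one_mem _))
      (smul_M S _ (S.A_le (hv.h_mem c)))))
    have hdrop : η⁻¹ • (g * X * g) ≤ Qc p st c i - Qc p st' c i := by
      have h1 := o.cut_small' hzp hzY hη (by rw [hX] at *; exact hz1)
      have h2 := (IsSelfAdjoint.of_nonneg
        (gfun_nonneg o.vpos o.spos.le o.nonneg)).conjugate_le_conjugate h1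
      rw [mul_smul_comm, smul_mul_assoc] at h2
      refine h2.trans (le_of_eq ?_)
      simp only [Qc, hst', eWi, Qop, ← hgdef]
      rw [mul_sub, sub_mul]
      abel
    have hP : Pot S p st' + η⁻¹ * (p.γ * S.rtau X) ≤ Pot S p st := by
      have hdiff : ∀ c' j, 0 ≤ S.rtau (Qc p st c' j - Qc p st' c' j) := fun c' j =>
        rtau_nonneg S (sub_nonneg.2 (hok c' j).2)
      have h1 : η⁻¹ * (p.γ * S.rtau X) ≤ S.rtau (Qc p st c i - Qc p st' c i) := by
        refine le_trans ?_ (rtau_mono S hdrop)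
        rw [rtau_smul]
        exact mul_le_mul_of_nonneg_left (rtau_conj_ge S (hv.W_mem i) hzM hzp hgM
          (gamma_le hv0 (hv.h_nonneg c) (hv.h_le c))) (inv_nonneg.2 hη.le)
      have h2 : S.rtau (Qc p st c i - Qc p st' c i) ≤
          ∑ c', ∑ j, S.rtau (Qc p st c' j - Qc p st' c' j) :=
        (Finset.single_le_sum (fun j _ => hdiff c j) (Finset.mem_univ i)).trans
          (Finset.single_le_sum (f := fun c' => ∑ j, S.rtau (Qc p st c' j - Qc p st' c' j))
            (fun c' _ => Finset.sum_nonneg fun j _ => hdiff c' j) (Finset.mem_univ c))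
      have h3 : ∑ c', ∑ j, S.rtau (Qc p st c' j - Qc p st' c' j) = Pot S p st - Pot S p st' := by
        simp only [Pot, rtau_sub, rtau_add, ← Finset.sum_sub_distrib]
        exact Finset.sum_congr rfl fun c' _ => Finset.sum_congr rfl fun j _ => by ring
      linarith
    have e1 : Psi S p st' = Psi S p st := rfl
    have e2 : Clock S st' = Clock S st := rfl
    rw [Zpot, Zpot, hDl, rtau_add, e1, e2, mul_add]
    have e3 : p.γ / η * S.rtau X = η⁻¹ * (p.γ * S.rtau X) := by ring
    linarith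
  · show Yop p.v 2 (W' i) (st.h c) ≤ _
    rw [eWi, o.cut_Y hzp, ← hY, mul_assoc, ((Commute.one_left Y).sub_left hzY).symm.eq,
      ← mul_assoc, hz1'.isIdempotentElem.eq,
      ((Commute.one_left Y).sub_left hzY).eq]
    exact hz2.trans (smul_le_smul_of_nonneg_left hz1'.le_one (by linarith))
  · rintro ⟨c', j⟩ hc'
    show Yop p.v 2 (W' j) (st.h c') ≤ _
    by_cases hj : j = i
    · subst hj; rw [eWi]; exact (hv.ok c' j).cut_Y_le hzp hη1.le hc'
    · rw [eWj j hj]; exact hc'

/-! ### Removing a projection from the unresolved points -/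

/-- The state after `e` is removed from the unresolved points. -/
def shrinkSt {r : ℕ} (st : St H r) (e : Op H) (g1 g2 : Op H) (res : Fin r → Op H) : St H r :=
  { st with u := (1 - e) * st.u, bd := (1 - e) * st.bd, g1 := g1, g2 := g2, res := res }

variable {y : Op H} {r : ℕ} {st : St H r} {e : Op H}

theorem shrink_inv (hv : Inv S p y st) (he : e ∈ S.A) (hep : IsStarProjection e) {g1 g2 : Op H}
    {res : Fin r → Op H} (a1 : g1 ∈ S.A) (b1 : IsStarProjection g1) (a2 : g2 ∈ S.A)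
    (b2 : IsStarProjection g2) (a3 : ∀ c, res c ∈ S.A) (b3 : ∀ c, IsStarProjection (res c))
    (hsum : g1 + g2 + ∑ c, res c = st.g1 + st.g2 + ∑ c, st.res c + st.u * e)
    (hres : ∀ c, (1 / 2 : ℝ) • res c ≤ st.h c)
    (hg1 : p.thr * S.rtau g1 ≤ S.rtau (g1 * DlSum p y st)) :
    Inv S p y (shrinkSt st e g1 g2 res) := by
  have he' : 1 - e ∈ S.A := sub_mem (one_mem _) he
  refine ⟨hv.h_mem, hv.h_nonneg, hv.h_le, hv.al_mem, hv.al_proj, hv.h_al, hv.W_mem, hv.W_le, hv.ok,
    mul_mem he' hv.u_mem, proj_mul S he' hv.u_mem hep.one_sub hv.u_proj, a1, b1, a2, b2, a3, b3,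
    ?_, hres, hg1, mul_mem he' hv.bd_mem,
    mul_nonneg_A S he' hv.bd_mem hep.one_sub.nonneg hv.bd_nonneg, ?_, ?_⟩
  · show (1 - e) * st.u + g1 + g2 + ∑ c, res c = 1
    calc (1 - e) * st.u + g1 + g2 + ∑ c, res c
        = (1 - e) * st.u + (g1 + g2 + ∑ c, res c) := by abel
      _ = st.u + st.g1 + st.g2 + ∑ c, st.res c := by
          rw [hsum, S.A_comm _ hv.u_mem e he, sub_mul, one_mul]; abel
      _ = 1 := hv.sum_eq
  · show (1 - e) * st.u * ((1 - e) * st.bd) = (1 - e) * st.bd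
    rw [mul_assoc, ← mul_assoc st.u, S.A_comm _ hv.u_mem _ he', mul_assoc, hv.bd_u, ← mul_assoc,
      hep.one_sub.isIdempotentElem.eq]
  · show (1 - e) * st.u * Kop S p st ≤ (1 - e) * st.bd
    rw [mul_assoc]
    exact mul_le_A S he' hep.one_sub.nonneg (mul_mem hv.u_mem (Kop_mem S hv)) hv.bd_mem hv.K_le

theorem shrink_n2 (hep : IsStarProjection e) :
    S.n2 ((1 - e) * st.bd) ≤ S.n2 st.bd :=
  (S.n2_mul_le _ _).trans ((mul_le_mul_of_nonneg_right (IsStarProjection.norm_le _ hep.one_sub)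
    (S.n2_nonneg _)).trans_eq (one_mul _))

theorem shrink_DlOk (hv : Inv S p y st) (he : e ∈ S.A) (hep : IsStarProjection e) {g1 g2 : Op H}
    {res : Fin r → Op H} (h : DlOk S p y st) : DlOk S p y (shrinkSt st e g1 g2 res) := by
  have he' : 1 - e ∈ S.A := sub_mem (one_mem _) he
  have h1 := mul_le_A S he' hep.one_sub.nonneg (mul_mem hv.u_mem (S.exp_mem _))
    (smul_A S _ hv.u_mem) h
  rwa [← mul_assoc, mul_smul_comm] at h1

theorem shrink_act {g1 g2 : Op H} {res : Fin r → Op H} (c : Fin r) :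
    (shrinkSt st e g1 g2 res).act c = (1 - e) * st.act c := mul_assoc ..

theorem shrink_low (hv : Inv S p y st) (he : e ∈ S.A) (hep : IsStarProjection e) {g1 g2 : Op H}
    {res : Fin r → Op H} {c : Fin r} (h : Low p st c) : Low p (shrinkSt st e g1 g2 res) c := by
  have he' : 1 - e ∈ S.A := sub_mem (one_mem _) he
  have h1 := mul_le_A S he' hep.one_sub.nonneg (smul_A S _ (act_mem S hv c))
    (mul_mem (hv.h_mem c) (act_mem S hv c)) h
  rw [mul_smul_comm, ← mul_assoc, S.A_comm _ he' _ (hv.h_mem c), mul_assoc] at h1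
  rw [Low, shrink_act]
  exact h1

theorem shrink_high (hv : Inv S p y st) (he : e ∈ S.A) (hep : IsStarProjection e) {g1 g2 : Op H}
    {res : Fin r → Op H} {c : Fin r} (h : High st c) : High (shrinkSt st e g1 g2 res) c := by
  have he' : 1 - e ∈ S.A := sub_mem (one_mem _) he
  have h1 := mul_le_A S he' hep.one_sub.nonneg (mul_mem (hv.h_mem c) (act_mem S hv c))
    (smul_A S _ (act_mem S hv c)) h
  rw [mul_smul_comm, ← mul_assoc, S.A_comm _ he' _ (hv.h_mem c), mul_assoc] at h1
  rw [High, shrink_act]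
  exact h1

theorem shrink_cold (hv : Inv S p y st) (he : e ∈ S.A) (hep : IsStarProjection e) {g1 g2 : Op H}
    {res : Fin r → Op H} {c : Fin r} (h : Cold S p st c) :
    Cold S p (shrinkSt st e g1 g2 res) c := fun i => by
  have he' : 1 - e ∈ S.A := sub_mem (one_mem _) he
  have hm : qc S p st c i + (p.σ / 2) • (1 : Op H) ∈ S.A :=
    add_mem (qc_mem S c i) (smul_A S _ (one_mem _))
  have h1 := mul_nonpos_A S he' (mul_mem hm (act_mem S hv c)) hep.one_sub.nonneg (h i)
  rw [← mul_assoc, S.A_comm _ he' _ hm, mul_assoc] at h1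
  rw [shrink_act]
  exact h1

/-! ### Phase 2: points where too much was cut -/

theorem cutoff (hg : p.Good) (hy : Inp S y) {ρ η : ℝ} (hv : Inv S p y st)
    (hY : ∀ c i, YOk p η st c i) :
    ∃ st' : St H r, (Inv S p y st' ∧ (∀ c i, YOk p η st' c i) ∧ DlOk S p y st') ∧
      Zpot S p ρ η y st' ≤ Zpot S p ρ η y st := by
  have hDM := DlSum_mem S hy hv
  obtain ⟨e, he, hep, h1, h2⟩ := spec_real S (S.exp_mem (DlSum p y st))
    (S.exp_isSelfAdjoint hDM (IsSelfAdjoint.of_nonneg (DlSum_nonneg S hv))) p.thr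
  have huo := u_orth S hv
  have hue := proj_mul S hv.u_mem he hv.u_proj hep
  have hueA := mul_mem hv.u_mem he
  have horth : st.g1 * (st.u * e) = 0 := by
    rw [← mul_assoc, S.A_comm _ hv.g1_mem _ hv.u_mem, huo.1, zero_mul]
  refine ⟨shrinkSt st e (st.g1 + st.u * e) st.g2 st.res, ⟨?_, hY, ?_⟩, ?_⟩
  · refine shrink_inv S hv he hep (add_mem hv.g1_mem hueA) (hv.g1_proj.add hue horth) hv.g2_mem
      hv.g2_proj hv.res_mem hv.res_proj (by abel) hv.res_h ?_
    have h3 : p.thr * S.rtau (st.u * e) ≤ S.rtau (st.u * e * DlSum p y st) := by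
      rw [← rtau_mul_exp S hueA hDM, ← rtau_smul, mul_assoc, S.A_comm e he _ (S.exp_mem _),
        ← mul_smul_comm]
      exact rtau_mono S (mul_le_A S hv.u_mem hv.u_proj.nonneg (smul_A S _ he)
        (mul_mem (S.exp_mem _) he) h1)
    rw [rtau_add, add_mul, rtau_add, mul_add]
    exact add_le_add hv.g1_le h3
  · show (1 - e) * st.u * S.exp (DlSum p y st) ≤ p.thr • ((1 - e) * st.u)
    have he' : 1 - e ∈ S.A := sub_mem (one_mem _) he
    have h3 := mul_le_A S hv.u_mem hv.u_proj.nonneg (mul_mem (S.exp_mem _) he') (smul_A S _ he') h2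
    rw [mul_smul_comm, ← S.A_comm (1 - e) he' _ hv.u_mem, S.A_comm _ (S.exp_mem _) _ he',
      ← mul_assoc, ← S.A_comm (1 - e) he' _ hv.u_mem] at h3
    exact h3
  · have hP : Psi S p (shrinkSt st e (st.g1 + st.u * e) st.g2 st.res) ≤ Psi S p st :=
      add_le_add le_rfl (pow_le_pow_left₀ (S.n2_nonneg _) (shrink_n2 S hep) 2)
    exact add_le_add (add_le_add (add_le_add
      (div_le_div_of_nonneg_right hP (Real.sqrt_nonneg _)) le_rfl) le_rfl) le_rfl

/-! ### Phase 3: hot and light colours -/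

theorem kterm_eq (W : Fin 2 → Op H) (hc alc : Op H) :
    kterm S p W hc alc =
      hc * (S.exp (Qop p.v 2 (W 0) hc) + p.σ • (1 : Op H)) + (p.κ • (1 : Op H)) * (hc * (1 - hc))
      + (hc * (S.exp (Qop p.v 2 (W 1) hc) + p.σ • (1 : Op H))
          + (p.κ • (1 : Op H)) * (hc * (1 - hc)))
      - ((p.σ / 3) • (1 : Op H)) * hc - ((p.σ * p.hmin) • (1 : Op H)) * (1 - alc) := by
  simp only [kterm, Fin.sum_univ_two, smul_mul_assoc, one_mul]

theorem lower_bound_mul {g u q : Op H} {a : ℝ} (hg : g ∈ S.A) (g0 : 0 ≤ g) (hu : u ∈ S.A)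
    (hq : q ∈ S.A) (hgu : g * u = g) (h : a • u ≤ u * q) : a • g ≤ g * q := by
  have h1 := mul_le_A S hg g0 (smul_A S _ hu) (mul_mem hu hq) h
  rwa [mul_smul_comm, hgu, ← mul_assoc, hgu] at h1

theorem region_le {g h a b : Op H} {t m α β : ℝ} (hg : g ∈ S.A) (hgp : IsStarProjection g)
    (hh : h ∈ S.A) (h0 : 0 ≤ h) (ha : a ∈ S.A) (hb : b ∈ S.A) (hA : α • g ≤ g * a)
    (hB : β • g ≤ g * b) (hc : (t - α - β) • (g * h) ≤ m • g) :
    g * ((t • (1 : Op H)) * h - m • (1 : Op H) - h * a - h * b) ≤ 0 := by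
  have k1 := mul_le_A S hh h0 (smul_A S _ hg) (mul_mem hg ha) hA
  have k2 := mul_le_A S hh h0 (smul_A S _ hg) (mul_mem hg hb) hB
  have e : g * ((t • (1 : Op H)) * h - m • (1 : Op H) - h * a - h * b) =
      ((t - α - β) • (g * h) - m • g) - (h * (g * a) - h * (α • g))
        - (h * (g * b) - h * (β • g)) := by
    rw [mul_smul_comm, mul_smul_comm, S.A_comm h hh g hg, ← mul_assoc h g a, ← mul_assoc h g b,
      S.A_comm h hh g hg]
    simp only [mul_sub, mul_smul_comm, smul_mul_assoc, one_mul, mul_one, mul_assoc]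
    module
  rw [e]
  have e' : ∀ x y z : Op H, x ≤ 0 → 0 ≤ y → 0 ≤ z → x - y - z ≤ 0 := fun x y z hx hy hz =>
    sub_nonpos.2 (((sub_le_self _ hy).trans hx).trans hz)
  exact e' _ _ _ (sub_nonpos.2 hc) (sub_nonneg.2 k1) (sub_nonneg.2 k2)

theorem light_le {σ hmin c : ℝ} {g h : Op H} (hgp : IsStarProjection g) (hc : c ≤ σ) (hc0 : 0 ≤ c)
    (hm : 0 ≤ hmin) (hgh : g * h ≤ hmin • g) : c • (g * h) ≤ (σ * hmin) • g := by
  refine (smul_le_smul_of_nonneg_left hgh hc0).trans ?_
  rw [smul_smul]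
  exact smul_le_smul_of_nonneg_right (mul_le_mul_of_nonneg_right hc hm) hgp.nonneg

theorem kill_step (hg : p.Good) (hy : Inp S y) {ρ η : ℝ} (st : St H r) (c : Fin r)
    (hG : Inv S p y st ∧ (∀ c i, YOk p η st c i) ∧ DlOk S p y st) :
    ∃ st' : St H r, (Inv S p y st' ∧ (∀ c i, YOk p η st' c i) ∧ DlOk S p y st') ∧
      Zpot S p ρ η y st' ≤ Zpot S p ρ η y st ∧ (Low p st' c ∧ Cold S p st' c) ∧
      ∀ c', Low p st c' ∧ Cold S p st c' → Low p st' c' ∧ Cold S p st' c' := by
  obtain ⟨hv, hY, hD⟩ := hG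
  have hσ := σ_pos hg
  have hthr := thr_le hg
  have hthr0 := thr_pos hg
  have hmin0 := hmin_pos hg
  set h := st.h c with hh'
  set al := st.al c with hal
  have hh : h ∈ S.A := hv.h_mem c
  have hh0 : 0 ≤ h := hv.h_nonneg c
  have hqsa : ∀ i, IsSelfAdjoint (qc S p st c i) := fun i =>
    S.exp_isSelfAdjoint (Qc_mem S hv c i) (hv.ok c i).isSelfAdjoint_Q
  obtain ⟨e0, he0, he0p, a1, a2⟩ := spec_real S hh (IsSelfAdjoint.of_nonneg hh0) p.hmin
  obtain ⟨e1, he1, he1p, b1, b2⟩ := spec_real S (qc_mem S c 0) (hqsa 0) (-(p.σ / 2))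
  obtain ⟨e2, he2, he2p, c1, c2⟩ := spec_real S (qc_mem S c 1) (hqsa 1) (-(p.σ / 2))
  have he1' : 1 - e1 ∈ S.A := sub_mem (one_mem _) he1
  have he2' : 1 - e2 ∈ S.A := sub_mem (one_mem _) he2
  set w := e0 * ((1 - e1) * (1 - e2)) with hw
  have hwA : w ∈ S.A := mul_mem he0 (mul_mem he1' he2')
  have hwp : IsStarProjection w := proj_mul S he0 (mul_mem he1' he2') he0p
    (proj_mul S he1' he2' he1p.one_sub he2p.one_sub)
  have haA := act_mem S hv c
  have hap := act_proj S hv c
  set f := st.act c * (1 - w) with hf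
  have hfA : f ∈ S.A := mul_mem haA (sub_mem (one_mem _) hwA)
  have hfp : IsStarProjection f := proj_mul S haA (sub_mem (one_mem _) hwA) hap hwp.one_sub
  have hfA' : 1 - f ∈ S.A := sub_mem (one_mem _) hfA
  have hua : st.act c * st.u = st.act c := by
    rw [S.A_comm _ haA _ hv.u_mem, St.act, ← mul_assoc, hv.u_proj.isIdempotentElem.eq]
  have hfu : f * st.u = f := by
    rw [hf, mul_assoc, S.A_comm _ (sub_mem (one_mem _) hwA) _ hv.u_mem, ← mul_assoc, hua]
  have hfal : f * al = f := by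
    rw [hf, mul_assoc, S.A_comm _ (sub_mem (one_mem _) hwA) _ (hv.al_mem c), ← mul_assoc, St.act,
      mul_assoc st.u, (hv.al_proj c).isIdempotentElem.eq]
  set h' := h * (1 - f) with hh''
  have hh'A : h' ∈ S.A := mul_mem hh hfA'
  have hh'0 : 0 ≤ h' := mul_nonneg_A S hh hfA' hh0 hfp.one_sub.nonneg
  have hle : h' ≤ h := by
    rw [hh'', mul_sub, mul_one]
    exact sub_le_self _ (mul_nonneg_A S hh hfA hh0 hfp.nonneg)
  have hcomm : Commute h h' := S.A_comm h hh h' hh'A
  set st' : St H r :=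
    { st with h := Function.update st.h c h', al := Function.update st.al c (al * (1 - f)) }
    with hst'
  have ehc : st'.h c = h' := Function.update_self ..
  have eac : st'.al c = al * (1 - f) := Function.update_self ..
  have ehne : ∀ c', c' ≠ c → st'.h c' = st.h c' := fun c' hc' => Function.update_of_ne hc' ..
  have eane : ∀ c', c' ≠ c → st'.al c' = st.al c' := fun c' hc' => Function.update_of_ne hc' ..
  have eact : ∀ c', c' ≠ c → st'.act c' = st.act c' := fun c' hc' => by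
    show st.u * st'.al c' = _
    rw [eane c' hc']; rfl
  have hQ : ∀ i, qc S p st' c i ≤ qc S p st c i := fun i => by
    have ho := (hv.ok c i).Q_lower hh'0 hle hcomm
    simp only [qc, Qc, hst', Function.update_self]
    exact S.exp_mono (Qop_mem S.M S.M_isClosed (hv.W_mem i) (S.A_le hh'A)) (Qc_mem S hv c i) ho
  have hres0 : ∀ d, st.res d * f = 0 := fun d => by
    rw [← hfu, ← mul_assoc, mul_assoc, S.A_comm _ hfA _ hv.u_mem, ← mul_assoc,
      S.A_comm _ (hv.res_mem d) _ hv.u_mem, (u_orth S hv).2.2 d, zero_mul]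
  -- the change of the killed quantity on the points of `c`
  have hK : st.u * kterm S p st.W h' (al * (1 - f)) ≤ st.u * kterm S p st.W h al := by
    letI := commRingA S
    set q0 := qc S p st c 0
    set q1 := qc S p st c 1
    set q0' := S.exp (Qop p.v 2 (st.W 0) h') with hq0'
    set q1' := S.exp (Qop p.v 2 (st.W 1) h') with hq1'
    have hid : kterm S p st.W h' (al * (1 - f)) = kterm S p st.W h al +
        (h * (1 - f) * (q0' - q0) + h * (1 - f) * (q1' - q1)
          + f * ((p.σ / 3) • (1 : Op H) * h - (p.σ * p.hmin) • (1 : Op H)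
              - h * (q0 + p.σ • (1 : Op H)) - h * (q1 + p.σ • (1 : Op H)))
          - p.κ • (1 : Op H) * (f * (h * (1 - h))) - p.κ • (1 : Op H) * (f * (h * (1 - h)))) := by
      rw [kterm_eq, kterm_eq]
      exact congrArg Subtype.val (kill_id (⟨h, hh⟩ : S.A) ⟨al, hv.al_mem c⟩ ⟨f, hfA⟩
        ⟨q0, qc_mem S c 0⟩ ⟨q1, qc_mem S c 1⟩ ⟨q0', S.exp_mem _⟩ ⟨q1', S.exp_mem _⟩
        ⟨p.σ • 1, smul_A S _ (one_mem _)⟩ ⟨p.κ • 1, smul_A S _ (one_mem _)⟩
        ⟨(p.σ / 3) • 1, smul_A S _ (one_mem _)⟩ ⟨(p.σ * p.hmin) • 1, smul_A S _ (one_mem _)⟩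
        (Subtype.ext hfp.isIdempotentElem.eq) (Subtype.ext hfal))
    set B := (p.σ / 3) • (1 : Op H) * h - (p.σ * p.hmin) • (1 : Op H)
      - h * (q0 + p.σ • (1 : Op H)) - h * (q1 + p.σ • (1 : Op H)) with hB
    have hs : ∀ {x : Op H}, x ∈ S.A → x + p.σ • (1 : Op H) ∈ S.A := fun hx =>
      add_mem hx (smul_A S _ (one_mem _))
    have hBA : B ∈ S.A := sub_mem (sub_mem (sub_mem (mul_mem (smul_A S _ (one_mem _)) hh)
      (smul_A S _ (one_mem _))) (mul_mem hh (hs (qc_mem S c 0)))) (mul_mem hh (hs (qc_mem S c 1)))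
    -- bounds for the shifted diagonal on the three regions
    have hsplit : f = st.act c * (1 - e0) + st.act c * e0 * e1 + st.act c * e0 * (1 - e1) * e2 :=
      congrArg Subtype.val (split_id (⟨st.act c, haA⟩ : S.A) ⟨e0, he0⟩ ⟨e1, he1⟩ ⟨e2, he2⟩)
    have hu' : ∀ g ∈ S.A, st.act c * g * st.u = st.act c * g := fun g hgA => by
      rw [mul_assoc, S.A_comm g hgA _ hv.u_mem, ← mul_assoc, hua]
    have hthrb : ∀ g ∈ S.A, IsStarProjection g → g * st.u = g → ∀ i,
        (-p.thr) • g ≤ g * (qc S p st c i + p.σ • (1 : Op H)) := fun g hgA hgp hgu i =>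
      lower_bound_mul S hgA hgp.nonneg hv.u_mem (hs (qc_mem S c i)) hgu (neg_thr_le S hy hv hD c i)
    have hot : ∀ i e, e ∈ S.A → IsStarProjection e → -(p.σ / 2) • e ≤ qc S p st c i * e →
        ∀ g ∈ S.A, IsStarProjection g → g * e = g →
        (p.σ / 2) • g ≤ g * (qc S p st c i + p.σ • (1 : Op H)) := fun i e he hep hb g hgA hgp hge =>
      lower_bound_mul S hgA hgp.nonneg he (hs (qc_mem S c i)) hge (by
        rw [mul_add, mul_smul_comm, mul_one, S.A_comm e he _ (qc_mem S c i)]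
        calc (p.σ / 2) • e = -(p.σ / 2) • e + p.σ • e := by rw [← add_smul]; congr 1; ring
          _ ≤ _ := add_le_add hb le_rfl)
    have hfB : f * B ≤ 0 := by
      have hg0A : 1 - e0 ∈ S.A := sub_mem (one_mem _) he0
      have m0 := mul_mem haA hg0A
      have p0 := proj_mul S haA hg0A hap he0p.one_sub
      have m1' := mul_mem haA he0
      have p1' := proj_mul S haA he0 hap he0p
      have m1 := mul_mem m1' he1
      have p1 := proj_mul S m1' he1 p1' he1p
      have m2' := mul_mem m1' he1'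
      have p2' := proj_mul S m1' he1' p1' he1p.one_sub
      have m2 := mul_mem m2' he2
      have p2 := proj_mul S m2' he2 p2' he2p
      have u0 := hu' _ hg0A
      have u1 : st.act c * e0 * e1 * st.u = st.act c * e0 * e1 := by
        rw [mul_assoc (st.act c) e0 e1]; exact hu' _ (mul_mem he0 he1)
      have u2 : st.act c * e0 * (1 - e1) * e2 * st.u = st.act c * e0 * (1 - e1) * e2 := by
        rw [mul_assoc (st.act c) e0, mul_assoc (st.act c)]
        exact hu' _ (mul_mem (mul_mem he0 he1') he2)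
      rw [hsplit, add_mul, add_mul]
      refine add_nonpos (add_nonpos ?_ ?_) ?_
      · refine region_le S m0 p0 hh hh0 (hs (qc_mem S c 0)) (hs (qc_mem S c 1))
          (hthrb _ m0 p0 u0 0) (hthrb _ m0 p0 u0 1) ?_
        refine light_le p0 (by linarith) (by linarith) hmin0.le ?_
        have := mul_le_A S haA hap.nonneg (mul_mem hh hg0A) (smul_A S _ hg0A) a2
        rwa [mul_smul_comm, ← S.A_comm _ hg0A h hh, ← mul_assoc] at this
      · refine region_le S m1 p1 hh hh0 (hs (qc_mem S c 0)) (hs (qc_mem S c 1))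
          (hot 0 e1 he1 he1p b1 _ m1 p1 (by rw [mul_assoc, he1p.isIdempotentElem.eq]))
          (hthrb _ m1 p1 u1 1) ?_
        exact (smul_nonpos_of_nonpos_of_nonneg (by linarith)
          (mul_nonneg_A S m1 hh p1.nonneg hh0)).trans (smul_nonneg (by positivity) p1.nonneg)
      · refine region_le S m2 p2 hh hh0 (hs (qc_mem S c 0)) (hs (qc_mem S c 1))
          (hthrb _ m2 p2 u2 0)
          (hot 1 e2 he2 he2p c1 _ m2 p2 (by rw [mul_assoc, he2p.isIdempotentElem.eq])) ?_
        exact (smul_nonpos_of_nonpos_of_nonneg (by linarith)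
          (mul_nonneg_A S m2 hh p2.nonneg hh0)).trans (smul_nonneg (by positivity) p2.nonneg)
    have hkk : 0 ≤ p.κ • (1 : Op H) * (f * (h * (1 - h))) := by
      rw [smul_mul_assoc, one_mul]
      exact smul_nonneg (κ_pos hg).le (mul_nonneg_A S hfA (mul_mem hh (sub_mem (one_mem _) hh))
        hfp.nonneg (mul_nonneg_A S hh (sub_mem (one_mem _) hh) hh0 (sub_nonneg.2 (hv.h_le c))))
    have hq : ∀ i, h * (1 - f) * (S.exp (Qop p.v 2 (st.W i) h') - qc S p st c i) ≤ 0 := fun i =>
      mul_nonpos_A S hh'A (sub_mem (S.exp_mem _) (qc_mem S c i)) hh'0 (sub_nonpos.2 (by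
        simpa [qc, Qc, hst'] using hQ i))
    have hR : h * (1 - f) * (q0' - q0) + h * (1 - f) * (q1' - q1) + f * B
        - p.κ • (1 : Op H) * (f * (h * (1 - h))) - p.κ • (1 : Op H) * (f * (h * (1 - h))) ≤ 0 :=
      sub_nonpos.2 (((sub_le_self _ hkk).trans
        (add_nonpos (add_nonpos (hq 0) (hq 1)) hfB)).trans hkk)
    rw [hid]
    exact mul_le_A S hv.u_mem hv.u_proj.nonneg (hid ▸ kterm_mem S hh'A (mul_mem (hv.al_mem c) hfA'))
      (kterm_mem S hh (hv.al_mem c)) (add_le_of_nonpos_right hR)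
  have hmem' : ∀ c', st'.h c' ∈ S.A ∧ st'.al c' ∈ S.A := fun c' => by
    by_cases hc' : c' = c
    · subst hc'; rw [ehc, eac]; exact ⟨hh'A, mul_mem (hv.al_mem _) hfA'⟩
    · rw [ehne c' hc', eane c' hc']; exact ⟨hv.h_mem c', hv.al_mem c'⟩
  have hok : ∀ c' i, Ok p.v 2 (st.W i) (st'.h c') ∧ Qop p.v 2 (st.W i) (st'.h c') ≤
      Qop p.v 2 (st.W i) (st.h c') ∧ YOk p η st' c' i := fun c' i => by
    rw [YOk]
    show _ ∧ _ ∧ Yop p.v 2 (st.W i) (st'.h c') ≤ _
    by_cases hc' : c' = c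
    · subst hc'; rw [ehc]
      exact ⟨(hv.ok _ i).lower hh'0 hle hcomm, (hv.ok _ i).Q_lower hh'0 hle hcomm,
        ((hv.ok _ i).lower_Y_le hh'0 hle hcomm).trans (hY _ i)⟩
    · rw [ehne c' hc']; exact ⟨hv.ok c' i, le_rfl, hY c' i⟩
  have hau := hv.u_proj.isIdempotentElem.eq
  have haa := (hv.al_proj c).isIdempotentElem.eq
  have eactc : st'.act c = st.act c * w := by
    letI := commRingA S
    show st.u * st'.al c = _
    rw [eac]
    exact congrArg Subtype.val (act_id (⟨st.u, hv.u_mem⟩ : S.A) ⟨al, hv.al_mem c⟩ ⟨w, hwA⟩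
      (Subtype.ext hau) (Subtype.ext haa))
  have hlow : Low p st' c := by
    rw [Low, eactc, ehc]
    have e : h' * (st.act c * w) = h * (st.act c * w) := by
      letI := commRingA S
      exact congrArg Subtype.val (low_id (⟨h, hh⟩ : S.A) ⟨st.u, hv.u_mem⟩ ⟨al, hv.al_mem c⟩
        ⟨w, hwA⟩ (Subtype.ext hau) (Subtype.ext haa) (Subtype.ext hwp.isIdempotentElem.eq))
    have hA := mul_mem haA (mul_mem he1' he2')
    have h1 := mul_le_A S hA (proj_mul S haA (mul_mem he1' he2') hap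
      (proj_mul S he1' he2' he1p.one_sub he2p.one_sub)).nonneg (smul_A S _ he0) (mul_mem hh he0) a1
    rw [mul_smul_comm, mul_assoc, S.A_comm _ (mul_mem he1' he2') e0 he0, ← mul_assoc _ h e0,
      S.A_comm _ hA h hh, mul_assoc h, mul_assoc (st.act c),
      S.A_comm _ (mul_mem he1' he2') e0 he0] at h1
    rw [e]
    exact h1
  have hcold : Cold S p st' c := by
    intro i
    rw [eactc]
    have hwa : st.act c * w ∈ S.A := mul_mem haA hwA
    have hm : ∀ {x : Op H}, x ∈ S.A → x + (p.σ / 2) • (1 : Op H) ∈ S.A := fun hx =>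
      add_mem hx (smul_A S _ (one_mem _))
    rw [S.A_comm _ (hm (qc_mem S c i)) _ hwa]
    refine (mul_le_A S hwa (proj_mul S haA hwA hap hwp).nonneg (hm (qc_mem S c i))
      (hm (qc_mem S c i)) (add_le_add (hQ i) le_rfl)).trans ?_
    have key : ∀ i e, e ∈ S.A → qc S p st c i * (1 - e) ≤ -(p.σ / 2) • (1 - e) →
        ∀ g ∈ S.A, IsStarProjection g → g * (1 - e) = g →
        g * (qc S p st c i + (p.σ / 2) • (1 : Op H)) ≤ 0 := fun i e he hb g hgA hgp hge => by
      have h1 : (1 - e) * (qc S p st c i + (p.σ / 2) • (1 : Op H)) ≤ 0 := by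
        rw [mul_add, mul_smul_comm, mul_one, S.A_comm _ (sub_mem (one_mem _) he) _ (qc_mem S c i)]
        calc _ ≤ -(p.σ / 2) • (1 - e) + (p.σ / 2) • (1 - e) := add_le_add hb le_rfl
          _ = 0 := by rw [← add_smul]; simp
      have h2 := mul_nonpos_A S hgA (mul_mem (sub_mem (one_mem _) he) (hm (qc_mem S c i)))
        hgp.nonneg h1
      rwa [← mul_assoc, hge] at h2
    have hwp' := proj_mul S haA hwA hap hwp
    fin_cases i
    · refine key 0 e1 he1 b2 _ hwa hwp' ?_
      rw [hw, mul_assoc, mul_assoc e0, mul_assoc (1 - e1), S.A_comm _ he2' _ he1', ← mul_assoc (1 - e1) (1 - e1),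
        he1p.one_sub.isIdempotentElem.eq]
    · refine key 1 e2 he2 c2 _ hwa hwp' ?_
      rw [hw, mul_assoc, mul_assoc e0, mul_assoc (1 - e1), he2p.one_sub.isIdempotentElem.eq]
  refine ⟨st', ⟨⟨fun c' => (hmem' c').1, fun c' => ?_, fun c' => ?_, fun c' => (hmem' c').2,
    fun c' => ?_, fun c' => ?_, hv.W_mem, hv.W_le, fun c' i => (hok c' i).1, hv.u_mem, hv.u_proj,
    hv.g1_mem, hv.g1_proj, hv.g2_mem, hv.g2_proj, hv.res_mem, hv.res_proj, hv.sum_eq,
    fun c' => ?_, hv.g1_le, hv.bd_mem, hv.bd_nonneg, hv.bd_u, ?_⟩, fun c' i => (hok c' i).2.2, hD⟩,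
    ?_, ⟨?_, ?_⟩, fun c' hc => ?_⟩
  · by_cases hc' : c' = c
    · subst hc'; rw [ehc]; exact hh'0
    · rw [ehne c' hc']; exact hv.h_nonneg c'
  · by_cases hc' : c' = c
    · subst hc'; rw [ehc]; exact hle.trans (hv.h_le _)
    · rw [ehne c' hc']; exact hv.h_le c'
  · by_cases hc' : c' = c
    · subst hc'; rw [eac]; exact proj_mul S (hv.al_mem _) hfA' (hv.al_proj _) hfp.one_sub
    · rw [eane c' hc']; exact hv.al_proj c'
  · by_cases hc' : c' = c
    · subst hc'; rw [ehc, eac, hh'', mul_assoc, ← mul_assoc (1 - f),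
        S.A_comm _ hfA' _ (hv.al_mem _), mul_assoc, hfp.one_sub.isIdempotentElem.eq, ← mul_assoc,
        hv.h_al]
    · rw [ehne c' hc', eane c' hc']; exact hv.h_al c'
  · by_cases hc' : c' = c
    · subst hc'; rw [ehc]
      have h1 := mul_le_A S hfA' hfp.one_sub.nonneg (smul_A S _ (hv.res_mem _)) hh (hv.res_h _)
      rw [mul_smul_comm, sub_mul, one_mul, S.A_comm f hfA _ (hv.res_mem _), hres0, sub_zero,
        S.A_comm _ hfA' h hh] at h1
      exact h1
    · rw [ehne c' hc']; exact hv.res_h c'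
  · refine le_trans ?_ hv.K_le
    show st.u * Kop S p st' ≤ _
    rw [Kop, Kop, mul_add, mul_add, Finset.mul_sum, Finset.mul_sum]
    refine add_le_add le_rfl (Finset.sum_le_sum fun c' _ => ?_)
    show st.u * kterm S p st.W (st'.h c') (st'.al c') ≤ _
    by_cases hc' : c' = c
    · subst hc'; rw [ehc, eac]; exact hK
    · rw [ehne c' hc', eane c' hc']
  · have hP : Pot S p st' ≤ Pot S p st := Finset.sum_le_sum fun c' _ => Finset.sum_le_sum fun i _ =>
      rtau_mono S (add_le_add (hok c' i).2.1 le_rfl)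
    have hC : Clock S st' ≤ Clock S st := Finset.sum_le_sum fun c' _ => by
      by_cases hc' : c' = c
      · subst hc'; rw [ehc]
        refine rtau_mono S ?_
        have e : (2 : ℝ) • h' - h' * h' = (1 - f) * ((2 : ℝ) • h - h * h) := by
          letI := commRingA S
          rw [two_smul, two_smul]
          exact congrArg Subtype.val (clock_id (⟨h, hh⟩ : S.A) ⟨f, hfA⟩
            (Subtype.ext hfp.isIdempotentElem.eq))
        rw [e]
        have hx : (2 : ℝ) • h - h * h ∈ S.A := sub_mem (smul_A S _ hh) (mul_mem hh hh)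
        have hx0 : 0 ≤ (2 : ℝ) • h - h * h := by
          rw [two_smul, add_sub_assoc]
          refine add_nonneg hh0 ?_
          rw [← mul_one_sub]
          exact mul_nonneg_A S hh (sub_mem (one_mem _) hh) hh0 (sub_nonneg.2 (hv.h_le _))
        rw [sub_mul, one_mul]
        exact sub_le_self _ (mul_nonneg_A S hfA hx hfp.nonneg hx0)
      · rw [ehne c' hc']
    exact add_le_add (add_le_add (add_le_add le_rfl hP) hC) le_rfl
  · exact hlow
  · exact hcold
  · by_cases hc' : c' = c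
    · subst hc'
      exact ⟨hlow, hcold⟩
    · refine ⟨?_, fun i => ?_⟩
      · rw [Low, eact c' hc', ehne c' hc']; exact hc.1
      · have := hc.2 i
        rw [eact c' hc']
        simp only [qc, Qc] at this ⊢
        show (S.exp (Qop p.v 2 (st.W i) (st'.h c')) + _) * _ ≤ 0
        rw [ehne c' hc']; exact this

/-! ### Phase 4: resolution -/

theorem resolve_step (hg : p.Good) {ρ η : ℝ} (st : St H r) (c : Fin r)
    (hG : Inv S p y st ∧ (∀ c i, YOk p η st c i) ∧ DlOk S p y st ∧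
      ∀ c, Low p st c ∧ Cold S p st c) :
    ∃ st' : St H r, (Inv S p y st' ∧ (∀ c i, YOk p η st' c i) ∧ DlOk S p y st' ∧
        ∀ c, Low p st' c ∧ Cold S p st' c) ∧
      Zpot S p ρ η y st' ≤ Zpot S p ρ η y st ∧ High st' c ∧ ∀ c', High st c' → High st' c' := by
  obtain ⟨hv, hY, hD, hLC⟩ := hG
  obtain ⟨e, he, hep, h1, h2⟩ :=
    spec_real S (hv.h_mem c) (IsSelfAdjoint.of_nonneg (hv.h_nonneg c)) (1 / 2)
  have hueA := mul_mem hv.u_mem he
  have hue := proj_mul S hv.u_mem he hv.u_proj hep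
  have huo := (u_orth S hv).2.2
  set res' : Fin r → Op H := fun c' => st.res c' + if c' = c then st.u * e else 0 with hres'
  have horth : ∀ c', st.res c' * (st.u * e) = 0 := fun c' => by
    rw [← mul_assoc, S.A_comm _ (hv.res_mem c') _ hv.u_mem, huo c', zero_mul]
  refine ⟨shrinkSt st e st.g1 st.g2 res',
    ⟨shrink_inv S hv he hep hv.g1_mem hv.g1_proj hv.g2_mem hv.g2_proj (fun c' => ?_) (fun c' => ?_)
      ?_ (fun c' => ?_) hv.g1_le, hY, shrink_DlOk S hv he hep hD,
      fun c' => ⟨shrink_low S hv he hep (hLC c').1, shrink_cold S hv he hep (hLC c').2⟩⟩,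
    ?_, ?_, fun c' h => shrink_high S hv he hep h⟩
  · simp only [hres']
    split_ifs
    · exact add_mem (hv.res_mem c') hueA
    · simpa using hv.res_mem c'
  · simp only [hres']
    split_ifs
    · exact (hv.res_proj c').add hue (horth c')
    · simpa using hv.res_proj c'
  · simp only [hres', Finset.sum_add_distrib, Finset.sum_ite_eq', Finset.mem_univ, if_true]
    abel
  · simp only [hres']
    split_ifs with hc'
    · subst hc'
      have k1 : (1 / 2 : ℝ) • (st.u * e) ≤ st.h c' * (st.u * e) := by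
        have := mul_le_A S hv.u_mem hv.u_proj.nonneg (smul_A S _ he) (mul_mem (hv.h_mem c') he) h1
        rwa [mul_smul_comm, ← mul_assoc, S.A_comm _ hv.u_mem _ (hv.h_mem c'), mul_assoc] at this
      have k2 : (1 / 2 : ℝ) • st.res c' ≤ st.h c' - st.h c' * (st.u * e) := by
        have := mul_le_A S (sub_mem (one_mem _) hueA) hue.one_sub.nonneg
          (smul_A S _ (hv.res_mem c')) (hv.h_mem c') (hv.res_h c')
        rw [mul_smul_comm, sub_mul, one_mul, S.A_comm _ hueA _ (hv.res_mem c'), horth, sub_zero,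
          sub_mul, one_mul, S.A_comm _ hueA _ (hv.h_mem c')] at this
        exact this
      rw [smul_add]
      exact (add_le_add k2 k1).trans (le_of_eq (sub_add_cancel _ _))
    · simpa using hv.res_h c'
  · exact add_le_add (add_le_add (add_le_add (div_le_div_of_nonneg_right
      (add_le_add le_rfl (pow_le_pow_left₀ (S.n2_nonneg _) (shrink_n2 S hep) 2))
      (Real.sqrt_nonneg _)) le_rfl) le_rfl) le_rfl
  · have he' : 1 - e ∈ S.A := sub_mem (one_mem _) he
    have haA := act_mem S hv c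
    have h3 := mul_le_A S haA (act_proj S hv c).nonneg (mul_mem (hv.h_mem c) he')
      (smul_A S _ he') h2
    rw [mul_smul_comm, ← mul_assoc, S.A_comm _ haA _ (hv.h_mem c), mul_assoc,
      S.A_comm _ haA _ he'] at h3
    rw [High, shrink_act]
    exact h3

/-! ### Phase 5: points with too little weight -/

theorem kterm_ge (hg : p.Good) (hy : Inp S y) (hv : Inv S p y st) (hD : DlOk S p y st)
    (c : Fin r) :
    (-(2 * p.thr + p.σ / 3)) • (st.u * st.h c) - (p.σ * p.hmin) • st.u ≤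
      st.u * kterm S p st.W (st.h c) (st.al c) := by
  have hh := hv.h_mem c
  have hu := hv.u_mem
  have hs : ∀ i, qc S p st c i + p.σ • (1 : Op H) ∈ S.A := fun i =>
    add_mem (qc_mem S c i) (smul_A S _ (one_mem _))
  have h1 : ∀ i, (-p.thr) • (st.u * st.h c) ≤
      st.u * (st.h c * (qc S p st c i + p.σ • (1 : Op H))) := fun i => by
    have := mul_le_A S hh (hv.h_nonneg c) (smul_A S _ hu) (mul_mem hu (hs i))
      (neg_thr_le S hy hv hD c i)
    rwa [mul_smul_comm, S.A_comm _ hh _ hu, ← mul_assoc, S.A_comm _ hh _ hu, mul_assoc] at this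
  have hk : 0 ≤ st.u * (p.κ • (st.h c * (1 - st.h c))) :=
    mul_nonneg_A S hu (smul_A S _ (mul_mem hh (sub_mem (one_mem _) hh))) hv.u_proj.nonneg
      (smul_nonneg (κ_pos hg).le (mul_nonneg_A S hh (sub_mem (one_mem _) hh) (hv.h_nonneg c)
        (sub_nonneg.2 (hv.h_le c))))
  have h3 : st.u * (p.σ * p.hmin) • (1 - st.al c) ≤ (p.σ * p.hmin) • st.u := by
    rw [mul_smul_comm, mul_sub, mul_one]
    exact smul_le_smul_of_nonneg_left
      (sub_le_self _ (mul_nonneg_A S hu (hv.al_mem c) hv.u_proj.nonneg (hv.al_proj c).nonneg))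
      (mul_nonneg (σ_pos hg).le (hmin_pos hg).le)
  rw [kterm, mul_sub, mul_sub, Fin.sum_univ_two, mul_add, mul_add, mul_add, mul_smul_comm (p.σ / 3)]
  refine sub_le_sub ?_ h3
  calc (-(2 * p.thr + p.σ / 3)) • (st.u * st.h c)
      = (-p.thr) • (st.u * st.h c) + 0 + ((-p.thr) • (st.u * st.h c) + 0)
        - (p.σ / 3) • (st.u * st.h c) := by module
    _ ≤ _ := sub_le_sub_right (add_le_add (add_le_add (h1 0) hk) (add_le_add (h1 1) hk)) _
    _ = _ := by simp only [qc, Qc, mul_add]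

theorem failing (hg : p.Good) (hy : Inp S y) {ρ η : ℝ} {st : St H p.r} (hv : Inv S p y st)
    (hY : ∀ c i, YOk p η st c i) (hD : DlOk S p y st) (hLC : ∀ c, Low p st c ∧ Cold S p st c)
    (hH : ∀ c, High st c) :
    ∃ st' : St H p.r, Inv S p y st' ∧ Ready S p η y st' ∧ Zpot S p ρ η y st' ≤ Zpot S p ρ η y st := by
  have hsA : ∑ c, st.h c ∈ S.A := sum_mem fun c _ => hv.h_mem c
  obtain ⟨k, hk, hkp, h1, h2⟩ := spec_real S hsA
    (IsSelfAdjoint.of_nonneg (Finset.sum_nonneg fun c _ => hv.h_nonneg c)) (p.L / 2)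
  set e := 1 - k with he'
  have he : e ∈ S.A := sub_mem (one_mem _) hk
  have hep : IsStarProjection e := hkp.one_sub
  have e1k : 1 - e = k := by rw [he']; abel
  have hu := hv.u_mem
  have hueA := mul_mem hu he
  have hue := proj_mul S hu he hv.u_proj hep
  have horth : st.g2 * (st.u * e) = 0 := by
    rw [← mul_assoc, S.A_comm _ hv.g2_mem _ hu, (u_orth S hv).2.1, zero_mul]
  refine ⟨shrinkSt st e st.g1 (st.g2 + st.u * e) st.res,
    shrink_inv S hv he hep hv.g1_mem hv.g1_proj (add_mem hv.g2_mem hueA)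
      (hv.g2_proj.add hue horth) hv.res_mem hv.res_proj (by abel) hv.res_h hv.g1_le,
    ⟨fun c i => hY c i, shrink_DlOk S hv he hep hD, fun c => shrink_low S hv he hep (hLC c).1,
      fun c => shrink_high S hv he hep (hH c),
      fun c i => shrink_cold S hv he hep (hLC c).2 i, ?_⟩, ?_⟩
  · show (p.L / 2) • ((1 - e) * st.u) ≤ (1 - e) * st.u * ∑ c, st.h c
    rw [e1k]
    have := mul_le_A S hu hv.u_proj.nonneg (smul_A S _ hk) (mul_mem hsA hk) h1
    rw [mul_smul_comm, ← mul_assoc, S.A_comm _ hu k hk,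
      S.A_comm _ (mul_mem hu hsA) k hk, ← mul_assoc] at this
    exact this
  · have hfK : p.thrK • (st.u * e) ≤ e * st.bd := by
      have hbound : p.thrK • (st.u * e) ≤ e * (st.u * Kop S p st) := by
        have hsum : (-(2 * p.thr + p.σ / 3)) • (st.u * ∑ c, st.h c) - (p.r : ℝ) • ((p.σ * p.hmin) • st.u)
            ≤ st.u * ∑ c, kterm S p st.W (st.h c) (st.al c) := by
          rw [Finset.mul_sum, Finset.mul_sum]
          refine le_trans (le_of_eq ?_) (Finset.sum_le_sum fun c _ => kterm_ge S hg hy hv hD c)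
          rw [Finset.sum_sub_distrib, ← Finset.smul_sum, Finset.sum_const, Finset.card_univ,
            Fintype.card_fin, Nat.cast_smul_eq_nsmul]
        have hK : (p.σ * p.L / 3 - p.σ * p.L / 10) • st.u
            + ((-(2 * p.thr + p.σ / 3)) • (st.u * ∑ c, st.h c)
              - (p.r : ℝ) • ((p.σ * p.hmin) • st.u)) ≤ st.u * Kop S p st := by
          rw [Kop, mul_add, mul_smul_comm, mul_one]
          exact add_le_add le_rfl hsum
        have hsu : e * (st.u * ∑ c, st.h c) ≤ (p.L / 2) • (st.u * e) := by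
          have := mul_le_A S hu hv.u_proj.nonneg (mul_mem hsA he) (smul_A S _ he) h2
          rwa [mul_smul_comm, ← mul_assoc, S.A_comm _ (mul_mem hu hsA) e he] at this
        refine le_trans ?_ (mul_le_A S he hep.nonneg (add_mem (smul_A S _ hu)
          (sub_mem (smul_A S _ (mul_mem hu hsA)) (smul_A S _ (smul_A S _ hu))))
          (mul_mem hu (Kop_mem S hv)) hK)
        simp only [mul_add, mul_sub, mul_smul_comm, S.A_comm e he _ hu, smul_smul]
        have hneg : -(2 * p.thr + p.σ / 3) ≤ 0 := by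
          have := thr_pos hg; have := σ_pos hg; linarith
        refine le_trans ?_ (add_le_add le_rfl (sub_le_sub_right
          (smul_le_smul_of_nonpos_left hsu hneg) _))
        rw [smul_smul, ← sub_smul, ← add_smul]
        refine smul_le_smul_of_nonneg_right ?_ hue.nonneg
        have hσ := σ_pos hg
        have hL := L_nonneg hg
        have e1 : (p.r : ℝ) * (p.σ * p.hmin) = p.σ * p.L / 100 := by
          rw [Par.hmin, Par.L]; ring
        have e2 : 2 * p.thr * (p.L / 2) ≤ p.σ * p.L / 2000 := by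
          have := mul_le_mul_of_nonneg_left (h0_le hg) (mul_nonneg hσ.le hL)
          rw [Par.thr]
          nlinarith [mul_nonneg hσ.le hL]
        rw [Par.thrK, e1]
        nlinarith [mul_nonneg hσ.le hL]
      exact hbound.trans (mul_le_A S he hep.nonneg (mul_mem hu (Kop_mem S hv)) hv.bd_mem hv.K_le)
    have hthrK : 0 ≤ p.thrK := by
      have := σ_pos hg; have := L_nonneg hg; unfold Par.thrK; positivity
    have hb := hv.bd_mem
    have hebA : e * st.bd ∈ S.A := mul_mem he hb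
    have hkbA : k * st.bd ∈ S.A := mul_mem hk hb
    have hfeq : p.thrK • (st.u * e) * (p.thrK • (st.u * e)) = (p.thrK ^ 2) • (st.u * e) := by
      rw [smul_mul_smul_comm, hue.isIdempotentElem.eq, ← sq]
    have hsq : (p.thrK ^ 2) • (st.u * e) ≤ e * st.bd * (e * st.bd) := by
      rw [← hfeq]
      have hf0 : 0 ≤ p.thrK • (st.u * e) := smul_nonneg hthrK hue.nonneg
      refine (mul_le_A S (smul_A S _ hueA) hf0 (smul_A S _ hueA) hebA hfK).trans ?_
      rw [S.A_comm _ (smul_A S _ hueA) _ hebA]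
      exact mul_le_A S hebA (hf0.trans hfK) (smul_A S _ hueA) hebA hfK
    have hsplit : S.n2 st.bd ^ 2 = S.rtau (e * st.bd * (e * st.bd)) + S.n2 (k * st.bd) ^ 2 := by
      rw [n2_sq_eq S (IsSelfAdjoint.of_nonneg hv.bd_nonneg),
        n2_sq_eq S (IsSelfAdjoint.of_nonneg (mul_nonneg_A S hk hb hkp.nonneg hv.bd_nonneg)),
        ← rtau_add]
      congr 1
      have sq_eq : ∀ g ∈ S.A, IsStarProjection g → g * st.bd * (g * st.bd) = g * (st.bd * st.bd) :=
        fun g hgA hgp => by
          rw [mul_assoc, ← mul_assoc st.bd g, S.A_comm _ hb g hgA, mul_assoc g, ← mul_assoc g g,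
            hgp.isIdempotentElem.eq]
      rw [sq_eq e he hep, sq_eq k hk hkp, he', sub_mul, one_mul, sub_add_cancel]
    have hmono := rtau_mono S hsq
    rw [rtau_smul] at hmono
    have hP : Psi S p (shrinkSt st e st.g1 (st.g2 + st.u * e) st.res) ≤ Psi S p st := by
      show p.thrK ^ 2 * S.rtau (st.g2 + st.u * e) + S.n2 ((1 - e) * st.bd) ^ 2 ≤ _
      rw [Psi, e1k, rtau_add, hsplit]
      linarith
    exact add_le_add (add_le_add (add_le_add
      (div_le_div_of_nonneg_right hP (Real.sqrt_nonneg _)) le_rfl) le_rfl) le_rfl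

end Lower

variable (S : Std H) {p : Par}

/-- Every state can be lowered to a ready one without raising the potential. -/
theorem exists_ready (hg : p.Good) {y : Op H} (hy : Inp S y) (ρ η : ℝ) (_hρ : 0 < ρ) (hη : 0 < η)
    (hη1 : η < 1) (st : St H p.r) (hv : Inv S p y st) :
    ∃ st' : St H p.r, Inv S p y st' ∧ Ready S p η y st' ∧ Zpot S p ρ η y st' ≤ Zpot S p ρ η y st := by
  classical
  let Q : Fin p.r × Fin 2 → St H p.r → Prop := fun ci s => Lower.YOk p η s ci.1 ci.2
  have step : ∀ (s : St H p.r) (ci : Fin p.r × Fin 2), Inv S p y s →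
      ∃ b : St H p.r, Inv S p y b ∧ Zpot S p ρ η y b ≤ Zpot S p ρ η y s ∧ Q ci b ∧
        ∀ cj, Q cj s → Q cj b := fun s ci h => Lower.cut_step S hg hy (ρ := ρ) hη hη1 s ci h
  obtain ⟨s1, hv1, hZ1, hQ1⟩ :=
    Lower.exists_loop (Inv S p y) (Zpot S p ρ η y) Q step st hv Finset.univ
  obtain ⟨s2, hG2, hZ2⟩ := Lower.cutoff S hg hy (ρ := ρ) hv1
    (fun c i => hQ1 (c, i) (Finset.mem_univ _))
  obtain ⟨s3, ⟨hv3, hY3, hD3⟩, hZ3, hQ3⟩ := Lower.exists_loop
    (fun s : St H p.r => Inv S p y s ∧ (∀ c i, Lower.YOk p η s c i) ∧ Lower.DlOk S p y s)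
    (Zpot S p ρ η y) (fun c s => Lower.Low p s c ∧ Lower.Cold S p s c)
    (fun s c h => Lower.kill_step S hg hy (ρ := ρ) (η := η) s c h) s2 hG2 Finset.univ
  obtain ⟨s4, ⟨hv4, hY4, hD4, hLC4⟩, hZ4, hQ4⟩ := Lower.exists_loop
    (fun s : St H p.r => Inv S p y s ∧ (∀ c i, Lower.YOk p η s c i) ∧ Lower.DlOk S p y s ∧
      ∀ c, Lower.Low p s c ∧ Lower.Cold S p s c) (Zpot S p ρ η y)
    (fun c s => Lower.High s c) (fun s c h => Lower.resolve_step S hg (ρ := ρ) (η := η) s c h) s3
    ⟨hv3, hY3, hD3, fun c => hQ3 c (Finset.mem_univ c)⟩ Finset.univ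
  obtain ⟨s5, hv5, hR5, hZ5⟩ :=
    Lower.failing S hg hy (ρ := ρ) hv4 hY4 hD4 hLC4 fun c => hQ4 c (Finset.mem_univ c)
  exact ⟨s5, hv5, hR5, hZ5.trans (hZ4.trans (hZ3.trans (hZ2.trans hZ1)))⟩

end Vale.Agent.P078.Walk
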