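import Vale.Agent.P078.Walk.State

/-!
# P078: elementary facts on states of the walk, for the lowering phases
-/

noncomputable section

namespace Vale.Agent.P078.Walk.Lower

universe u

variable {H : Type u} [NormedAddCommGroup H] [InnerProductSpace ℂ H] [CompleteSpace H]
variable (S : Std H) {p : Par}

/-! ### The MASA as an ordered commutative algebra -/

/-- The MASA is a commutative ring. -/
@[reducible] def commRingA : CommRing S.A :=
  { (inferInstance : Ring S.A) with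
    mul_comm := fun a b => Subtype.ext (S.A_comm _ a.2 _ b.2) }

theorem smul_A (c : ℝ) {a : Op H} (ha : a ∈ S.A) : c • a ∈ S.A := smul_mem_real S.A c ha

theorem smul_M (c : ℝ) {a : Op H} (ha : a ∈ S.M) : c • a ∈ S.M := smul_mem_real S.M c ha

theorem mul_nonneg_A {a b : Op H} (ha : a ∈ S.A) (hb : b ∈ S.A) (ha0 : 0 ≤ a) (hb0 : 0 ≤ b) :
    0 ≤ a * b :=
  (show Commute a b from S.A_comm a ha b hb).mul_nonneg ha0 hb0

theorem mul_le_A {g x y : Op H} (hg : g ∈ S.A) (g0 : 0 ≤ g) (hx : x ∈ S.A) (hy : y ∈ S.A)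
    (h : x ≤ y) : g * x ≤ g * y := by
  rw [← sub_nonneg, ← mul_sub]
  exact mul_nonneg_A S hg (sub_mem hy hx) g0 (sub_nonneg.2 h)

theorem mul_nonpos_A {a b : Op H} (ha : a ∈ S.A) (hb : b ∈ S.A) (ha0 : 0 ≤ a) (hb0 : b ≤ 0) :
    a * b ≤ 0 := by
  simpa using mul_le_A S ha ha0 hb (zero_mem _) hb0

theorem orth {e f : Op H} (he : e ∈ S.A) (hf : f ∈ S.A) (hep : IsStarProjection e)
    (hfp : IsStarProjection f) (h : e + f ≤ 1) : e * f = 0 := by
  have h1 := mul_le_A S he hep.nonneg (add_mem he hf) (one_mem _) h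
  rw [mul_add, hep.isIdempotentElem.eq, mul_one, add_le_iff_nonpos_right] at h1
  exact le_antisymm h1 (mul_nonneg_A S he hf hep.nonneg hfp.nonneg)

theorem proj_mul {e f : Op H} (he : e ∈ S.A) (hf : f ∈ S.A) (hep : IsStarProjection e)
    (hfp : IsStarProjection f) : IsStarProjection (e * f) :=
  hep.mul hfp (S.A_comm e he f hf)

/-! ### The real trace and the expectation with real scalars -/

theorem rtau_add (x y : Op H) : S.rtau (x + y) = S.rtau x + S.rtau y := by
  simp [Std.rtau, S.tau_add]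

theorem rtau_sub (x y : Op H) : S.rtau (x - y) = S.rtau x - S.rtau y := by
  simp [Std.rtau, S.tau_sub]

theorem rtau_smul (c : ℝ) (x : Op H) : S.rtau (c • x) = c * S.rtau x := by
  rw [Std.rtau, Std.rtau, ← Complex.coe_smul, S.tau_smul, Complex.re_ofReal_mul]

theorem rtau_mono {x y : Op H} (h : x ≤ y) : S.rtau x ≤ S.rtau y := S.re_tau_mono h

theorem rtau_nonneg {x : Op H} (h : 0 ≤ x) : 0 ≤ S.rtau x := S.re_tau_nonneg h

theorem rtau_comm {x y : Op H} (hx : x ∈ S.M) (hy : y ∈ S.M) : S.rtau (x * y) = S.rtau (y * x) := by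
  rw [Std.rtau, Std.rtau, S.tau_comm hx hy]

theorem rtau_mul_exp {a x : Op H} (ha : a ∈ S.A) (hx : x ∈ S.M) :
    S.rtau (a * S.exp x) = S.rtau (a * x) := by
  rw [Std.rtau, Std.rtau, S.tau_mul_exp ha hx]

theorem rtau_proj_mul_nonneg {e x : Op H} (he : e ∈ S.M) (hep : IsStarProjection e) (hx : x ∈ S.M)
    (hx0 : 0 ≤ x) : 0 ≤ S.rtau (e * x) := by
  have h1 := rtau_nonneg S (hep.isSelfAdjoint.conjugate_nonneg hx0)
  rwa [rtau_comm S (mul_mem he hx) he, ← mul_assoc, hep.isIdempotentElem.eq] at h1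

theorem n2_sq_eq {x : Op H} (hx : IsSelfAdjoint x) : S.n2 x ^ 2 = S.rtau (x * x) := by
  rw [S.n2_sq, hx.star_eq, Std.rtau]

theorem exp_smul_real (c : ℝ) {x : Op H} (hx : x ∈ S.M) : S.exp (c • x) = c • S.exp x := by
  rw [← Complex.coe_smul, ← Complex.coe_smul, S.exp_smul _ hx]

/-! ### Parameters -/

theorem v_pos (hg : p.Good) : 0 < p.v := by
  have := hg.ε_pos; unfold Par.v; positivity

theorem σ_pos (hg : p.Good) : 0 < p.σ := by
  have := v_pos hg; unfold Par.σ; positivity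

theorem κ_pos (hg : p.Good) : 0 < p.κ := by
  have := σ_pos hg; unfold Par.κ; positivity

theorem h0_pos (hg : p.Good) : 0 < p.h0 := by
  have := v_pos hg; have := σ_pos hg
  unfold Par.h0
  positivity

theorem h0_le (hg : p.Good) : p.h0 ≤ 1 / 32 := by
  have := hg.ε_le
  have := hg.ε_pos
  unfold Par.h0 Par.σ Par.v
  nlinarith

theorem hmin_pos (hg : p.Good) : 0 < p.hmin := by
  have := h0_pos hg; unfold Par.hmin; positivity

theorem thr_pos (hg : p.Good) : 0 < p.thr := by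
  have := h0_pos hg; have := σ_pos hg; unfold Par.thr; positivity

theorem thr_le (hg : p.Good) : p.thr ≤ p.σ / 6 := by
  have := mul_le_mul_of_nonneg_left (h0_le hg) (σ_pos hg).le
  have := σ_pos hg
  unfold Par.thr
  linarith

theorem L_nonneg (hg : p.Good) : 0 ≤ p.L := by
  have := h0_pos hg; unfold Par.L; positivity

/-! ### Elements of a state -/

variable {y : Op H} {r : ℕ} {st : St H r}

theorem Bar_mem (hy : Inp S y) (i : Fin 2) : Bar p y i ∈ S.M :=
  add_mem (smul_M S _ hy.mem) (smul_M S _ (one_mem _))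

theorem Qc_mem (hv : Inv S p y st) (c : Fin r) (i : Fin 2) : Qc p st c i ∈ S.M :=
  Qop_mem S.M S.M_isClosed (hv.W_mem i) (S.A_le (hv.h_mem c))

theorem Yop_mem (hv : Inv S p y st) (c : Fin r) (i : Fin 2) :
    Yop p.v 2 (st.W i) (st.h c) ∈ S.M :=
  mul_mem (mul_mem (star_mem (hv.W_mem i)) (mul_mem (S.A_le (hv.h_mem c))
    (S.inverse_mem_M (add_mem (smul_M S _ (one_mem _)) (smul_M S _ (S.A_le (hv.h_mem c)))))))
    (hv.W_mem i)

theorem Dl_mem (hy : Inp S y) (hv : Inv S p y st) (i : Fin 2) : Dl p y st i ∈ S.M :=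
  sub_mem (Bar_mem S hy i) (mul_mem (hv.W_mem i) (star_mem (hv.W_mem i)))

theorem Dl_nonneg (hv : Inv S p y st) (i : Fin 2) : 0 ≤ Dl p y st i := sub_nonneg.2 (hv.W_le i)

theorem DlSum_mem (hy : Inp S y) (hv : Inv S p y st) : DlSum p y st ∈ S.M :=
  sum_mem fun i _ => Dl_mem S hy hv i

theorem DlSum_nonneg (hv : Inv S p y st) : 0 ≤ DlSum p y st :=
  Finset.sum_nonneg fun i _ => Dl_nonneg S hv i

theorem Dl_le_sum (hv : Inv S p y st) (i : Fin 2) : Dl p y st i ≤ DlSum p y st :=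
  Finset.single_le_sum (fun j _ => Dl_nonneg S hv j) (Finset.mem_univ i)

theorem qc_mem (c : Fin r) (i : Fin 2) : qc S p st c i ∈ S.A := S.exp_mem _

theorem kterm_mem {W : Fin 2 → Op H} {hc alc : Op H} (hh : hc ∈ S.A) (ha : alc ∈ S.A) :
    kterm S p W hc alc ∈ S.A :=
  sub_mem (sub_mem (sum_mem fun _ _ => add_mem (mul_mem hh (add_mem (S.exp_mem _)
    (smul_A S _ (one_mem _)))) (smul_A S _ (mul_mem hh (sub_mem (one_mem _) hh))))
    (smul_A S _ hh)) (smul_A S _ (sub_mem (one_mem _) ha))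

theorem Kop_mem (hv : Inv S p y st) : Kop S p st ∈ S.A :=
  add_mem (smul_A S _ (one_mem _))
    (sum_mem fun c _ => kterm_mem S (hv.h_mem c) (hv.al_mem c))

theorem act_mem (hv : Inv S p y st) (c : Fin r) : st.act c ∈ S.A :=
  mul_mem hv.u_mem (hv.al_mem c)

theorem act_proj (hv : Inv S p y st) (c : Fin r) : IsStarProjection (st.act c) :=
  proj_mul S hv.u_mem (hv.al_mem c) hv.u_proj (hv.al_proj c)

theorem u_orth (hv : Inv S p y st) :
    st.u * st.g1 = 0 ∧ st.u * st.g2 = 0 ∧ ∀ c, st.u * st.res c = 0 := by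
  have hr : 0 ≤ ∑ c, st.res c := Finset.sum_nonneg fun c _ => (hv.res_proj c).nonneg
  refine ⟨orth S hv.u_mem hv.g1_mem hv.u_proj hv.g1_proj ?_,
    orth S hv.u_mem hv.g2_mem hv.u_proj hv.g2_proj ?_,
    fun c => orth S hv.u_mem (hv.res_mem c) hv.u_proj (hv.res_proj c) ?_⟩
  · rw [← hv.sum_eq, add_assoc (st.u + st.g1)]
    exact le_add_of_nonneg_right (add_nonneg hv.g2_proj.nonneg hr)
  · rw [← hv.sum_eq, add_right_comm st.u st.g1, add_assoc (st.u + st.g2)]
    exact le_add_of_nonneg_right (add_nonneg hv.g1_proj.nonneg hr)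
  · rw [← hv.sum_eq]
    exact add_le_add ((le_add_of_nonneg_right hv.g1_proj.nonneg).trans
      (le_add_of_nonneg_right hv.g2_proj.nonneg))
      (Finset.single_le_sum (fun j _ => (hv.res_proj j).nonneg) (Finset.mem_univ c))

/-- The barrier of a colour is not below `-exp (Dl i)` after the shift by `σ`. -/
theorem neg_exp_Dl_le (hy : Inp S y) (hv : Inv S p y st) (c : Fin r) (i : Fin 2) :
    -S.exp (Dl p y st i) ≤ qc S p st c i + p.σ • (1 : Op H) := by
  have hB : Bop 2 (st.W i) = sgn i • y - p.σ • (1 : Op H) - Dl p y st i := by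
    rw [Bop, Dl, Bar]
    module
  have hBm : Bop 2 (st.W i) ∈ S.M :=
    sub_mem (mul_mem (hv.W_mem i) (star_mem (hv.W_mem i))) (smul_M S _ (one_mem _))
  have h := S.exp_mono hBm (Qc_mem S hv c i) (hv.ok c i).B_le_Q
  rw [hB, S.exp_sub (sub_mem (smul_M S _ hy.mem) (smul_M S _ (one_mem _))) (Dl_mem S hy hv i),
    S.exp_sub (smul_M S _ hy.mem) (smul_M S _ (one_mem _)), exp_smul_real S _ hy.mem,
    exp_smul_real S _ (one_mem _), hy.exp_eq, S.exp_one, smul_zero, zero_sub] at h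
  rw [← sub_le_iff_le_add]
  refine le_trans (le_of_eq ?_) h
  abel

/-- The lower bound for the diagonal of the barrier where the cut part is small. -/
theorem neg_thr_le (hy : Inp S y) (hv : Inv S p y st)
    (hD : st.u * S.exp (DlSum p y st) ≤ p.thr • st.u) (c : Fin r) (i : Fin 2) :
    (-p.thr) • st.u ≤ st.u * (qc S p st c i + p.σ • (1 : Op H)) := by
  have h1 := mul_le_A S hv.u_mem hv.u_proj.nonneg (neg_mem (S.exp_mem _))
    (add_mem (qc_mem S c i) (smul_A S _ (one_mem _))) (neg_exp_Dl_le S hy hv c i)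
  have h2 := mul_le_A S hv.u_mem hv.u_proj.nonneg (S.exp_mem _) (S.exp_mem _)
    (S.exp_mono (Dl_mem S hy hv i) (DlSum_mem S hy hv) (Dl_le_sum S hv i))
  rw [mul_neg] at h1
  rw [neg_smul]
  exact (neg_le_neg (h2.trans hD)).trans h1

end Vale.Agent.P078.Walk.Lower
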