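import Mathlib

/-!
# P078: the operator `Q` of the walk

For `h ≥ 0` the operator `Q` is the solution of `Q = B + v⁻¹ Q h B`, `B = W W* - s`, written through the positive
resolvent `R = (1 - W* K W)⁻¹`, `K = h (v + s h)⁻¹`, so that every bound is an operator inequality in a C*-algebra.
-/

noncomputable section

set_option linter.unusedSectionVars false

namespace Vale.Agent.P078.Walk

universe u

variable {A : Type u} [CStarAlgebra A] [PartialOrder A] [StarOrderedRing A]

/-! ## Definitions -/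

/-- `v + s h`. -/
def den (v s : ℝ) (h : A) : A := v • (1 : A) + s • h

/-- The inverse of `v + s h`. -/
def deninv (v s : ℝ) (h : A) : A := Ring.inverse (den v s h)

/-- `h (v + s h)⁻¹`. -/
def kfun (v s : ℝ) (h : A) : A := h * deninv v s h

/-- `v (v + s h)⁻¹`. -/
def gfun (v s : ℝ) (h : A) : A := v • deninv v s h

/-- The operator whose norm is kept below one. -/
def Yop (v s : ℝ) (W h : A) : A := star W * kfun v s h * W

/-- The resolvent of `Yop`. -/
def Rop (v s : ℝ) (W h : A) : A := Ring.inverse (1 - Yop v s W h)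

/-- `W R W*`. -/
def Pop (v s : ℝ) (W h : A) : A := W * Rop v s W h * star W

/-- The quantity `Q`. -/
def Qop (v s : ℝ) (W h : A) : A :=
  gfun v s h * Pop v s W h * gfun v s h - s • gfun v s h

/-- The shifted operator `W W* - s`. -/
def Bop (s : ℝ) (W : A) : A := W * star W - s • (1 : A)

/-- The admissible states of one colour. -/
structure Ok (v s : ℝ) (W h : A) : Prop where
  vpos : 0 < v
  spos : 0 < s
  nonneg : 0 ≤ h
  norm_lt : ‖Yop v s W h‖ < 1

/-! ## Inverses of positive elements bounded below -/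

theorem commute_ringInverse {x a : A} (ha : IsUnit a) (hx : Commute x a) :
    Commute x (Ring.inverse a) := by
  obtain ⟨w, rfl⟩ := ha
  rw [Ring.inverse_unit]
  exact hx.units_inv_right

theorem isUnit_of_smul_one_le {a : A} {c : ℝ} (hc : 0 < c) (hca : c • (1 : A) ≤ a) : IsUnit a := by
  have hpos : IsStrictlyPositive (algebraMap ℝ A c) := isStrictlyPositive_algebraMap hc
  rw [Algebra.algebraMap_eq_smul_one] at hpos
  exact CStarAlgebra.isUnit_of_le _ hca hpos

theorem ringInverse_nonneg {a : A} {c : ℝ} (hc : 0 < c) (hca : c • (1 : A) ≤ a) :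
    0 ≤ Ring.inverse a := by
  have hu := isUnit_of_smul_one_le hc hca
  have ha0 : 0 ≤ a := le_trans (smul_nonneg hc.le zero_le_one) hca
  have hsa : IsSelfAdjoint a := .of_nonneg ha0
  have hstar : star (Ring.inverse a) = Ring.inverse a := by
    obtain ⟨w, rfl⟩ := hu
    rw [Ring.inverse_unit]
    have hw : star w = w := Units.ext hsa.star_eq
    rw [← Units.coe_star, star_inv, hw]
  have key : star (Ring.inverse a) * a * Ring.inverse a = Ring.inverse a := by
    rw [hstar, Ring.inverse_mul_cancel a hu, one_mul]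
  rw [← key]
  exact star_left_conjugate_nonneg ha0 _

theorem smul_ringInverse_le_one {a : A} {c : ℝ} (hc : 0 < c) (hca : c • (1 : A) ≤ a) :
    c • Ring.inverse a ≤ 1 := by
  have hu := isUnit_of_smul_one_le hc hca
  have hcomm : Commute (a - c • (1 : A)) (Ring.inverse a) :=
    commute_ringInverse hu ((Commute.refl a).sub_left ((Commute.one_left a).smul_left c))
  have h0 := hcomm.mul_nonneg (sub_nonneg.2 hca) (ringInverse_nonneg hc hca)
  rw [sub_mul, Ring.mul_inverse_cancel a hu, smul_mul_assoc, one_mul] at h0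
  exact sub_nonneg.1 h0

theorem norm_ringInverse_le {a : A} {c : ℝ} (hc : 0 < c) (hca : c • (1 : A) ≤ a) :
    ‖Ring.inverse a‖ ≤ c⁻¹ := by
  have h := smul_le_smul_of_nonneg_left (smul_ringInverse_le_one hc hca) (inv_nonneg.2 hc.le)
  rw [inv_smul_smul₀ hc.ne', ← Algebra.algebraMap_eq_smul_one] at h
  exact (CStarAlgebra.norm_le_iff_le_algebraMap _ (inv_nonneg.2 hc.le)
    (ringInverse_nonneg hc hca)).2 h

theorem le_norm_smul_one {a : A} (ha : IsSelfAdjoint a) : a ≤ ‖a‖ • (1 : A) := by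
  rw [← Algebra.algebraMap_eq_smul_one]
  exact ha.le_algebraMap_norm_self

theorem norm_le_of_le_smul_one {a : A} {c : ℝ} (hc : 0 ≤ c) (ha : 0 ≤ a) (hac : a ≤ c • (1 : A)) :
    ‖a‖ ≤ c := by
  rw [← Algebra.algebraMap_eq_smul_one] at hac
  exact (CStarAlgebra.norm_le_iff_le_algebraMap a hc ha).2 hac

/-! ## The functions of `h` -/

section Fun

variable {v s : ℝ} {h h' : A}

theorem smul_one_le_den (hs : 0 ≤ s) (hh : 0 ≤ h) : v • (1 : A) ≤ den v s h :=
  le_add_of_nonneg_right (smul_nonneg hs hh)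

theorem isUnit_den (hv : 0 < v) (hs : 0 ≤ s) (hh : 0 ≤ h) : IsUnit (den v s h) :=
  isUnit_of_smul_one_le hv (smul_one_le_den hs hh)

theorem deninv_nonneg (hv : 0 < v) (hs : 0 ≤ s) (hh : 0 ≤ h) : 0 ≤ deninv v s h :=
  ringInverse_nonneg hv (smul_one_le_den hs hh)

theorem norm_deninv_le (hv : 0 < v) (hs : 0 ≤ s) (hh : 0 ≤ h) : ‖deninv v s h‖ ≤ v⁻¹ :=
  norm_ringInverse_le hv (smul_one_le_den hs hh)

theorem commute_deninv (hv : 0 < v) (hs : 0 ≤ s) (hh : 0 ≤ h) {x : A} (hx : Commute x h) :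
    Commute x (deninv v s h) :=
  commute_ringInverse (isUnit_den hv hs hh)
    (((Commute.one_right x).smul_right v).add_right (hx.smul_right s))

theorem commute_kfun (hv : 0 < v) (hs : 0 ≤ s) (hh : 0 ≤ h) {x : A} (hx : Commute x h) :
    Commute x (kfun v s h) :=
  hx.mul_right (commute_deninv hv hs hh hx)

theorem commute_gfun (hv : 0 < v) (hs : 0 ≤ s) (hh : 0 ≤ h) {x : A} (hx : Commute x h) :
    Commute x (gfun v s h) :=
  (commute_deninv hv hs hh hx).smul_right v

theorem kfun_nonneg (hv : 0 < v) (hs : 0 ≤ s) (hh : 0 ≤ h) : 0 ≤ kfun v s h :=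
  (commute_deninv hv hs hh (Commute.refl h)).mul_nonneg hh (deninv_nonneg hv hs hh)

theorem gfun_nonneg (hv : 0 < v) (hs : 0 ≤ s) (hh : 0 ≤ h) : 0 ≤ gfun v s h :=
  smul_nonneg hv.le (deninv_nonneg hv hs hh)

theorem gfun_eq (hv : 0 < v) (hs : 0 ≤ s) (hh : 0 ≤ h) :
    gfun v s h = 1 - s • kfun v s h := by
  have e := Ring.mul_inverse_cancel (den v s h) (isUnit_den hv hs hh)
  rw [den, add_mul, smul_mul_assoc, smul_mul_assoc, one_mul] at e
  exact eq_sub_of_add_eq e

theorem gfun_le_one (hv : 0 < v) (hs : 0 ≤ s) (hh : 0 ≤ h) : gfun v s h ≤ 1 := by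
  rw [gfun_eq hv hs hh]
  exact sub_le_self _ (smul_nonneg hs (kfun_nonneg hv hs hh))

theorem norm_gfun_le_one (hv : 0 < v) (hs : 0 ≤ s) (hh : 0 ≤ h) : ‖gfun v s h‖ ≤ 1 :=
  norm_le_of_le_smul_one zero_le_one (gfun_nonneg hv hs hh)
    (by rw [one_smul]; exact gfun_le_one hv hs hh)

theorem kfun_eq_mul_gfun (hv : 0 < v) : kfun v s h = v⁻¹ • (h * gfun v s h) := by
  rw [gfun, mul_smul_comm, inv_smul_smul₀ hv.ne']
  rfl

theorem gfun_mul_self (hv : 0 < v) (hs : 0 ≤ s) (hh : 0 ≤ h) :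
    gfun v s h * h = h * gfun v s h :=
  (commute_gfun hv hs hh (Commute.refl h)).symm.eq

theorem kfun_le (hv : 0 < v) (hs : 0 ≤ s) (hh : 0 ≤ h) : kfun v s h ≤ v⁻¹ • h := by
  rw [kfun_eq_mul_gfun hv]
  refine smul_le_smul_of_nonneg_left ?_ (inv_nonneg.2 hv.le)
  have hc : Commute h (1 - gfun v s h) :=
    (Commute.one_right h).sub_right (commute_gfun hv hs hh (Commute.refl h))
  have h0 := hc.mul_nonneg hh (sub_nonneg.2 (gfun_le_one hv hs hh))
  rw [mul_sub, mul_one] at h0
  exact sub_nonneg.1 h0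

theorem kfun_sub (hv : 0 < v) (hs : 0 ≤ s) (hh : 0 ≤ h) (hh' : 0 ≤ h') (hc : Commute h h') :
    kfun v s h' - kfun v s h = v • ((h' - h) * (deninv v s h * deninv v s h')) := by
  have hu := Ring.mul_inverse_cancel (den v s h) (isUnit_den hv hs hh)
  have hu' := Ring.mul_inverse_cancel (den v s h') (isUnit_den hv hs hh')
  change den v s h * deninv v s h = 1 at hu
  change den v s h' * deninv v s h' = 1 at hu'
  have h1 : Commute (deninv v s h') (deninv v s h) :=
    commute_deninv hv hs hh (commute_deninv hv hs hh' hc).symm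
  have e1 : kfun v s h' = h' * den v s h * (deninv v s h * deninv v s h') := by
    rw [mul_assoc, ← mul_assoc (den v s h), hu, one_mul]
    rfl
  have e2 : kfun v s h = h * den v s h' * (deninv v s h * deninv v s h') := by
    rw [mul_assoc, ← h1.eq, ← mul_assoc (den v s h'), hu', one_mul]
    rfl
  rw [e1, e2, ← sub_mul, ← smul_mul_assoc]
  congr 1
  rw [den, den, mul_add, mul_add, mul_smul_comm, mul_smul_comm, mul_smul_comm, mul_smul_comm,
    mul_one, mul_one, hc.eq]
  module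

theorem kfun_eq_cfc (hv : 0 < v) (hs : 0 ≤ s) (hh : 0 ≤ h) :
    kfun v s h = cfc (fun t : ℝ => t / (v + s * t)) h := by
  have hsa : IsSelfAdjoint h := .of_nonneg hh
  have hne : ∀ t ∈ spectrum ℝ h, v + s * t ≠ 0 := fun t ht =>
    (add_pos_of_pos_of_nonneg hv (mul_nonneg hs (spectrum_nonneg_of_nonneg hh ht))).ne'
  have hden : cfc (fun t : ℝ => v + s * t) h = den v s h := by
    rw [cfc_const_add v (fun t : ℝ => s * t) h, cfc_const_mul_id s h,
      Algebra.algebraMap_eq_smul_one]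
    rfl
  have hinv : cfc (fun t : ℝ => (v + s * t)⁻¹) h = deninv v s h := by
    rw [cfc_inv (fun t : ℝ => v + s * t) h hne, hden]
    rfl
  have e : cfc (fun t : ℝ => id t * (v + s * t)⁻¹) h = h * deninv v s h := by
    rw [cfc_mul id (fun t : ℝ => (v + s * t)⁻¹) h continuousOn_id
      ((continuous_const.add (continuous_const.mul continuous_id)).continuousOn.inv₀ hne),
      cfc_id ℝ h hsa, hinv]
  simpa [kfun, div_eq_mul_inv] using e.symm

theorem norm_kfun_sub_le (hv : 0 < v) (hs : 0 ≤ s) (hh : 0 ≤ h) (hh' : 0 ≤ h')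
    (hc : Commute h h') : ‖kfun v s h' - kfun v s h‖ ≤ v⁻¹ * ‖h' - h‖ := by
  rw [kfun_sub hv hs hh hh' hc, norm_smul, Real.norm_of_nonneg hv.le]
  refine (mul_le_mul_of_nonneg_left (norm_mul_le _ _) hv.le).trans ?_
  refine (mul_le_mul_of_nonneg_left (mul_le_mul_of_nonneg_left ((norm_mul_le _ _).trans
    (mul_le_mul (norm_deninv_le hv hs hh) (norm_deninv_le hv hs hh') (norm_nonneg _)
      (inv_nonneg.2 hv.le))) (norm_nonneg _)) hv.le).trans (le_of_eq ?_)
  field_simp

theorem kfun_mono (hv : 0 < v) (hs : 0 ≤ s) (hh' : 0 ≤ h') (hle : h' ≤ h) (hc : Commute h h') :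
    kfun v s h' ≤ kfun v s h := by
  have hh : 0 ≤ h := hh'.trans hle
  have h1 : Commute (deninv v s h') (deninv v s h) :=
    commute_deninv hv hs hh (commute_deninv hv hs hh' hc).symm
  have hh1 : Commute (h - h') h := (Commute.refl h).sub_left hc.symm
  have hh2 : Commute (h - h') h' := hc.sub_left (Commute.refl h')
  have h2 : Commute (h - h') (deninv v s h' * deninv v s h) :=
    (commute_deninv hv hs hh' hh2).mul_right (commute_deninv hv hs hh hh1)
  have h0 := h2.mul_nonneg (sub_nonneg.2 hle)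
    (h1.mul_nonneg (deninv_nonneg hv hs hh') (deninv_nonneg hv hs hh))
  rw [← sub_nonneg, kfun_sub hv hs hh' hh hc.symm]
  exact smul_nonneg hv.le h0

end Fun

/-! ## The basic facts on `Q` -/

section Basic

variable {v s : ℝ} {W h : A}

theorem Yop_nonneg (hv : 0 < v) (hs : 0 ≤ s) (hh : 0 ≤ h) : 0 ≤ Yop v s W h :=
  star_left_conjugate_nonneg (kfun_nonneg hv hs hh) W

theorem Bop_isSelfAdjoint : IsSelfAdjoint (Bop s W) :=
  (IsSelfAdjoint.mul_star_self W).sub ((IsSelfAdjoint.all s).smul (IsSelfAdjoint.one A))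

/-- A state with `Y ≤ 1 - η` is admissible. -/
theorem ok_of_le (hv : 0 < v) (hs : 0 < s) (hh : 0 ≤ h) {η : ℝ} (hη : 0 < η)
    (hY : Yop v s W h ≤ (1 - η) • (1 : A)) : Ok v s W h := by
  refine ⟨hv, hs, hh, ?_⟩
  refine (norm_le_of_le_smul_one (c := max (1 - η) 0) (le_max_right _ _) (Yop_nonneg hv hs.le hh)
    (hY.trans (smul_le_smul_of_nonneg_right (le_max_left _ _) zero_le_one))).trans_lt ?_
  exact max_lt (by linarith) one_pos

namespace Ok

variable (o : Ok v s W h)
include o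

theorem Y_nonneg : 0 ≤ Yop v s W h := Yop_nonneg o.vpos o.spos.le o.nonneg

theorem smul_one_le : (1 - ‖Yop v s W h‖) • (1 : A) ≤ 1 - Yop v s W h := by
  rw [sub_smul, one_smul]
  exact sub_le_sub_left (le_norm_smul_one (.of_nonneg o.Y_nonneg)) 1

theorem isUnit_one_sub : IsUnit (1 - Yop v s W h) :=
  isUnit_of_smul_one_le (sub_pos.2 o.norm_lt) o.smul_one_le

theorem R_nonneg : 0 ≤ Rop v s W h :=
  ringInverse_nonneg (sub_pos.2 o.norm_lt) o.smul_one_le

theorem norm_R_le : ‖Rop v s W h‖ ≤ (1 - ‖Yop v s W h‖)⁻¹ :=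
  norm_ringInverse_le (sub_pos.2 o.norm_lt) o.smul_one_le

theorem P_nonneg : 0 ≤ Pop v s W h := star_right_conjugate_nonneg o.R_nonneg W

theorem gPg_nonneg : 0 ≤ gfun v s h * Pop v s W h * gfun v s h :=
  (IsSelfAdjoint.of_nonneg (gfun_nonneg o.vpos o.spos.le o.nonneg)).conjugate_nonneg o.P_nonneg

theorem isSelfAdjoint_Q : IsSelfAdjoint (Qop v s W h) :=
  (IsSelfAdjoint.of_nonneg o.gPg_nonneg).sub
    ((IsSelfAdjoint.all s).smul (IsSelfAdjoint.of_nonneg (gfun_nonneg o.vpos o.spos.le o.nonneg)))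

theorem neg_smul_g_le : -(s • gfun v s h) ≤ Qop v s W h :=
  le_sub_iff_add_le.2 (by simpa using o.gPg_nonneg)

theorem neg_smul_one_le : -(s • (1 : A)) ≤ Qop v s W h :=
  (neg_le_neg (smul_le_smul_of_nonneg_left (gfun_le_one o.vpos o.spos.le o.nonneg)
    o.spos.le)).trans o.neg_smul_g_le

/-- Step one of the sharp exponent: `Q + s` dominates `s² h (v + s h)⁻¹`. -/
theorem sq_smul_k_le : (s * s) • kfun v s h ≤ Qop v s W h + s • (1 : A) := by
  have e : Qop v s W h + s • (1 : A)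
      = gfun v s h * Pop v s W h * gfun v s h + (s * s) • kfun v s h := by
    rw [Qop, gfun_eq o.vpos o.spos.le o.nonneg]
    module
  rw [e]
  exact le_add_of_nonneg_left o.gPg_nonneg

theorem norm_R_le_of_le {η : ℝ} (hη : 0 < η) (hY : Yop v s W h ≤ (1 - η) • (1 : A)) :
    ‖Rop v s W h‖ ≤ η⁻¹ := by
  refine norm_ringInverse_le hη ?_
  rw [sub_smul, one_smul] at hY
  exact le_sub_comm.1 hY

theorem norm_P_le : ‖Pop v s W h‖ ≤ ‖W‖ ^ 2 / (1 - ‖Yop v s W h‖) := by
  refine (norm_mul_le _ _).trans ?_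
  rw [norm_star, div_eq_mul_inv, sq, mul_right_comm]
  refine mul_le_mul_of_nonneg_right ((norm_mul_le _ _).trans ?_) (norm_nonneg _)
  exact mul_le_mul_of_nonneg_left o.norm_R_le (norm_nonneg _)

theorem norm_Q_le : ‖Qop v s W h‖ ≤ ‖W‖ ^ 2 / (1 - ‖Yop v s W h‖) + s := by
  have hg := norm_gfun_le_one o.vpos o.spos.le o.nonneg
  refine (norm_sub_le _ _).trans (add_le_add ?_ ?_)
  · refine ((norm_mul_le _ _).trans (mul_le_of_le_one_right (norm_nonneg _) hg)).trans ?_
    exact ((norm_mul_le _ _).trans (mul_le_of_le_one_left (norm_nonneg _) hg)).trans o.norm_P_le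
  · rw [norm_smul, Real.norm_of_nonneg o.spos.le]
    exact mul_le_of_le_one_right o.spos.le hg

theorem P_eq : Pop v s W h = W * star W + Pop v s W h * kfun v s h * (W * star W) := by
  have e := Ring.inverse_mul_cancel _ o.isUnit_one_sub
  change Rop v s W h * (1 - Yop v s W h) = 1 at e
  rw [mul_sub, mul_one, sub_eq_iff_eq_add] at e
  calc Pop v s W h = W * (1 + Rop v s W h * Yop v s W h) * star W := by
        rw [← e]; rfl
    _ = _ := by
        rw [Pop, Yop]
        noncomm_ring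

/-- The fixed point equation. -/
theorem Q_eq : Qop v s W h = Bop s W + v⁻¹ • (Qop v s W h * h * Bop s W) := by
  obtain ⟨hv, hs, hh⟩ := And.intro o.vpos (And.intro o.spos.le o.nonneg)
  have hgk : v⁻¹ • (gfun v s h * h) = kfun v s h := by
    rw [gfun_mul_self hv hs hh, kfun_eq_mul_gfun hv]
  have e0 : v⁻¹ • (Qop v s W h * h)
      = (gfun v s h * Pop v s W h - s • (1 : A)) * kfun v s h := by
    rw [← hgk, mul_smul_comm]
    congr 1
    rw [Qop]
    simp only [sub_mul, smul_mul_assoc, one_mul, mul_assoc]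
  have hP : Pop v s W h * (kfun v s h * (W * star W)) = Pop v s W h - W * star W := by
    rw [← mul_assoc]
    exact eq_sub_of_add_eq' o.P_eq.symm
  rw [← smul_mul_assoc, e0, Qop, Bop, gfun_eq hv hs hh]
  simp only [mul_sub, sub_mul, smul_mul_assoc, mul_smul_comm, smul_sub, smul_smul, mul_one,
    one_mul, mul_assoc]
  rw [hP]
  simp only [mul_sub, smul_sub]
  module

theorem Q_eq' : Qop v s W h = Bop s W + v⁻¹ • (Bop s W * h * Qop v s W h) := by
  have e := congrArg star o.Q_eq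
  rw [star_add, star_smul, star_trivial (v⁻¹ : ℝ), star_mul, star_mul, o.isSelfAdjoint_Q.star_eq,
    (Bop_isSelfAdjoint (s := s) (W := W)).star_eq, (IsSelfAdjoint.of_nonneg o.nonneg).star_eq,
    ← mul_assoc] at e
  exact e

theorem h_add_hQh_ge : h * gfun v s h ≤ h + v⁻¹ • (h * Qop v s W h * h) := by
  obtain ⟨hv, hs, hh⟩ := And.intro o.vpos (And.intro o.spos.le o.nonneg)
  have h1 := smul_le_smul_of_nonneg_left
    ((IsSelfAdjoint.of_nonneg hh).conjugate_le_conjugate o.neg_smul_g_le)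
    (inv_nonneg.2 hv.le)
  have e : v⁻¹ • (h * -(s • gfun v s h) * h) = -(s • (h * kfun v s h)) := by
    rw [kfun_eq_mul_gfun hv, ← gfun_mul_self hv hs hh]
    simp only [mul_neg, neg_mul, mul_smul_comm, smul_mul_assoc, smul_neg, smul_smul, mul_assoc]
    rw [mul_comm]
  rw [e] at h1
  calc h * gfun v s h = h + -(s • (h * kfun v s h)) := by
        rw [gfun_eq hv hs hh, mul_sub, mul_one, mul_smul_comm, sub_eq_add_neg]
    _ ≤ _ := by gcongr

theorem h_add_hQh_nonneg : 0 ≤ h + v⁻¹ • (h * Qop v s W h * h) :=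
  ((commute_gfun o.vpos o.spos.le o.nonneg (Commute.refl h)).mul_nonneg o.nonneg
    (gfun_nonneg o.vpos o.spos.le o.nonneg)).trans o.h_add_hQh_ge

theorem Q_sub_B : Qop v s W h - Bop s W
    = v⁻¹ • (Bop s W * (h + v⁻¹ • (h * Qop v s W h * h)) * Bop s W) := by
  have e : Qop v s W h - Bop s W = v⁻¹ • (Qop v s W h * h * Bop s W) :=
    sub_eq_of_eq_add' o.Q_eq
  rw [e]
  congr 1
  nth_rw 1 [o.Q_eq']
  simp only [add_mul, mul_add, mul_smul_comm, smul_mul_assoc, mul_assoc]

theorem B_le_Q : Bop s W ≤ Qop v s W h := by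
  rw [← sub_nonneg, o.Q_sub_B]
  exact smul_nonneg (inv_nonneg.2 o.vpos.le)
    (Bop_isSelfAdjoint.conjugate_nonneg o.h_add_hQh_nonneg)

end Ok

end Basic

/-! ## Change of `h` -/

theorem fixed_sub {Q Q' B h h' : A} {c : ℝ} (e1 : Q = B + c • (Q * h * B))
    (e2 : Q' = B + c • (B * h' * Q')) : Q' = Q + c • (Q * (h' - h) * Q') := by
  have e3 : c • (Q * h * B) = Q - B := eq_sub_of_add_eq' e1.symm
  have e4 : c • (B * h' * Q') = Q' - B := eq_sub_of_add_eq' e2.symm
  have e5 : c • (Q * h * Q') = c • (Q * h * B) + c • (c • (Q * h * B) * h' * Q') := by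
    nth_rw 1 [e2]
    simp only [mul_add, mul_smul_comm, smul_mul_assoc, smul_add, smul_smul, mul_assoc]
  rw [e3, sub_mul, sub_mul, smul_sub, e4] at e5
  rw [mul_sub, sub_mul, smul_sub, e5]
  abel

theorem fixed_expand {Q Q' d : A} {c : ℝ} (e : Q' = Q + c • (Q * d * Q')) :
    Q' = Q + c • (Q * d * Q) + c ^ 2 • (Q * d * Q * d * Q)
      + c ^ 3 • (Q * d * Q * d * Q * d * Q') := by
  conv_lhs => rw [e, e, e]
  simp only [mul_add, mul_smul_comm, smul_add, smul_smul, mul_assoc, pow_succ, pow_zero, one_mul]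
  abel

section Change

variable {v s : ℝ} {W h h' : A}

theorem norm_Yop_sub_le (hv : 0 < v) (hs : 0 ≤ s) (hh : 0 ≤ h) (hh' : 0 ≤ h')
    (hc : Commute h h') : ‖Yop v s W h' - Yop v s W h‖ ≤ ‖W‖ ^ 2 * (v⁻¹ * ‖h' - h‖) := by
  rw [Yop, Yop, ← sub_mul, ← mul_sub]
  refine (norm_mul_le _ _).trans ?_
  rw [sq, mul_right_comm]
  refine mul_le_mul_of_nonneg_right ((norm_mul_le _ _).trans ?_) (norm_nonneg _)
  rw [norm_star]
  exact mul_le_mul_of_nonneg_left (norm_kfun_sub_le hv hs hh hh' hc) (norm_nonneg _)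

namespace Ok

variable (o : Ok v s W h)
include o

theorem of_near (hh' : 0 ≤ h') (hc : Commute h h')
    (hsmall : ‖Yop v s W h‖ + ‖W‖ ^ 2 * (v⁻¹ * ‖h' - h‖) < 1) : Ok v s W h' :=
  ⟨o.vpos, o.spos, hh', lt_of_le_of_lt
    ((norm_le_norm_add_norm_sub' _ (Yop v s W h)).trans
      (add_le_add le_rfl (norm_Yop_sub_le o.vpos o.spos.le o.nonneg hh' hc))) hsmall⟩

theorem Q_change (o' : Ok v s W h') :
    Qop v s W h' = Qop v s W h + v⁻¹ • (Qop v s W h * (h' - h) * Qop v s W h') :=
  fixed_sub o.Q_eq o'.Q_eq'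

theorem Q_expand (o' : Ok v s W h') :
    Qop v s W h' = Qop v s W h + v⁻¹ • (Qop v s W h * (h' - h) * Qop v s W h)
      + v⁻¹ ^ 2 • (Qop v s W h * (h' - h) * Qop v s W h * (h' - h) * Qop v s W h)
      + v⁻¹ ^ 3 • (Qop v s W h * (h' - h) * Qop v s W h * (h' - h) * Qop v s W h * (h' - h)
          * Qop v s W h') :=
  fixed_expand (o.Q_change o')

theorem norm_Q_change (o' : Ok v s W h') (hsmall : v⁻¹ * ‖Qop v s W h‖ * ‖h' - h‖ < 1) :
    ‖Qop v s W h'‖ ≤ ‖Qop v s W h‖ / (1 - v⁻¹ * ‖Qop v s W h‖ * ‖h' - h‖) := by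
  rw [le_div_iff₀ (sub_pos.2 hsmall)]
  have h1 : ‖Qop v s W h'‖
      ≤ ‖Qop v s W h‖ + ‖v⁻¹ • (Qop v s W h * (h' - h) * Qop v s W h')‖ :=
    (congrArg norm (o.Q_change o')).trans_le (norm_add_le _ _)
  rw [norm_smul, Real.norm_of_nonneg (inv_nonneg.2 o.vpos.le)] at h1
  have h2 : ‖Qop v s W h * (h' - h) * Qop v s W h'‖
      ≤ ‖Qop v s W h‖ * ‖h' - h‖ * ‖Qop v s W h'‖ :=
    (norm_mul_le _ _).trans (mul_le_mul_of_nonneg_right (norm_mul_le _ _) (norm_nonneg _))
  nlinarith [mul_le_mul_of_nonneg_left h2 (inv_nonneg.2 o.vpos.le)]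

theorem norm_rem_le (o' : Ok v s W h') :
    ‖Qop v s W h' - (Qop v s W h + v⁻¹ • (Qop v s W h * (h' - h) * Qop v s W h)
      + v⁻¹ ^ 2 • (Qop v s W h * (h' - h) * Qop v s W h * (h' - h) * Qop v s W h))‖
    ≤ v⁻¹ ^ 3 * ‖Qop v s W h‖ ^ 3 * ‖h' - h‖ ^ 3 * ‖Qop v s W h'‖ := by
  rw [sub_eq_of_eq_add' (o.Q_expand o'), norm_smul,
    Real.norm_of_nonneg (pow_nonneg (inv_nonneg.2 o.vpos.le) 3)]
  refine (mul_le_mul_of_nonneg_left (b := ‖Qop v s W h * (h' - h) * Qop v s W h * (h' - h)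
      * Qop v s W h * (h' - h) * Qop v s W h'‖)
    (c := ‖Qop v s W h‖ ^ 3 * ‖h' - h‖ ^ 3 * ‖Qop v s W h'‖) ?_
    (pow_nonneg (inv_nonneg.2 o.vpos.le) 3)).trans_eq (by ring)
  calc ‖Qop v s W h * (h' - h) * Qop v s W h * (h' - h) * Qop v s W h * (h' - h)
        * Qop v s W h'‖
      ≤ ‖Qop v s W h‖ * ‖h' - h‖ * ‖Qop v s W h‖ * ‖h' - h‖ * ‖Qop v s W h‖ * ‖h' - h‖
        * ‖Qop v s W h'‖ := by
        iterate 6 refine (norm_mul_le _ _).trans (mul_le_mul_of_nonneg_right ?_ (norm_nonneg _))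
        exact le_rfl
    _ = _ := by ring

/-- Lowering keeps the state admissible. -/
theorem lower (hh' : 0 ≤ h') (hle : h' ≤ h) (hc : Commute h h') : Ok v s W h' := by
  refine ⟨o.vpos, o.spos, hh', lt_of_le_of_lt ?_ o.norm_lt⟩
  exact CStarAlgebra.norm_le_norm_of_nonneg_of_le (Yop_nonneg o.vpos o.spos.le hh')
    (star_left_conjugate_le_conjugate (kfun_mono o.vpos o.spos.le hh' hle hc) W)

theorem lower_Y_le (hh' : 0 ≤ h') (hle : h' ≤ h) (hc : Commute h h') :
    Yop v s W h' ≤ Yop v s W h :=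
  star_left_conjugate_le_conjugate (kfun_mono o.vpos o.spos.le hh' hle hc) W

theorem Q_lower_eq (o' : Ok v s W h') :
    Qop v s W h - Qop v s W h' = v⁻¹ • (Qop v s W h' *
      ((h - h') + v⁻¹ • ((h - h') * Qop v s W h * (h - h'))) * Qop v s W h') := by
  have e1 := o'.Q_change o
  have e2 := o.Q_change o'
  have e3 : Qop v s W h = Qop v s W h' + v⁻¹ • (Qop v s W h * (h - h') * Qop v s W h') := by
    nth_rw 1 [e2]
    rw [← neg_sub h h', mul_neg, neg_mul, smul_neg, neg_add_cancel_right]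
  rw [sub_eq_of_eq_add' e1]
  congr 1
  nth_rw 1 [e3]
  simp only [add_mul, mul_add, mul_smul_comm, smul_mul_assoc, mul_assoc]

/-- Lowering `h` lowers `Q`. -/
theorem Q_lower (hh' : 0 ≤ h') (hle : h' ≤ h) (hc : Commute h h') :
    Qop v s W h' ≤ Qop v s W h := by
  obtain ⟨hv, hs, hh⟩ := And.intro o.vpos (And.intro o.spos.le o.nonneg)
  have o' := o.lower hh' hle hc
  rw [← sub_nonneg, o.Q_lower_eq o']
  refine smul_nonneg (inv_nonneg.2 hv.le) (o'.isSelfAdjoint_Q.conjugate_nonneg ?_)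
  set d := h - h' with hd
  have hd0 : 0 ≤ d := sub_nonneg.2 hle
  have hdh : Commute d h := (Commute.refl h).sub_left hc.symm
  have hgd : Commute d (gfun v s h) := commute_gfun hv hs hh hdh
  have h1 := smul_le_smul_of_nonneg_left
    ((IsSelfAdjoint.of_nonneg hd0).conjugate_le_conjugate o.neg_smul_g_le)
    (inv_nonneg.2 hv.le)
  have hgh' : Commute (gfun v s h) h' :=
    (commute_gfun hv hs hh hc.symm).symm
  have h2 : 0 ≤ d * gfun v s h + (v⁻¹ * s) • (d * (gfun v s h * h')) := by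
    refine add_nonneg (hgd.mul_nonneg hd0 (gfun_nonneg hv hs hh)) (smul_nonneg (by positivity) ?_)
    exact (hgd.mul_right (hc.sub_left (Commute.refl h'))).mul_nonneg hd0
      (hgh'.mul_nonneg (gfun_nonneg hv hs hh) hh')
  refine h2.trans (le_trans (le_of_eq ?_) (add_le_add le_rfl h1))
  have e : s • kfun v s h = (v⁻¹ * s) • (h * gfun v s h) := by
    rw [kfun_eq_mul_gfun hv, smul_smul, mul_comm]
  have e' : d * gfun v s h = d - (v⁻¹ * s) • (d * (gfun v s h * h)) := by
    nth_rw 1 [gfun_eq hv hs hh]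
    rw [mul_sub, mul_one, e, mul_smul_comm, gfun_mul_self hv hs hh]
  rw [e']
  simp only [mul_neg, neg_mul, mul_smul_comm, smul_mul_assoc, smul_neg, smul_smul, mul_assoc]
  rw [hd, mul_sub (gfun v s h), mul_sub (h - h'), smul_sub]
  abel

end Ok

end Change

/-! ## Cutting `W` by a projection commuting with `Y` -/

section Cut

variable {v s : ℝ} {W h z : A}

namespace Ok

variable (o : Ok v s W h)
include o

theorem cut_Y (hz : IsStarProjection z) :
    Yop v s (W * (1 - z)) h = (1 - z) * Yop v s W h * (1 - z) := by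
  rw [Yop, Yop, star_mul, hz.one_sub.isSelfAdjoint.star_eq]
  simp only [mul_assoc]

/-- A cut by any projection keeps the state admissible. -/
theorem cut (hz : IsStarProjection z) : Ok v s (W * (1 - z)) h := by
  refine ⟨o.vpos, o.spos, o.nonneg, lt_of_le_of_lt ?_ o.norm_lt⟩
  have he : ‖1 - z‖ ≤ 1 :=
    (CStarAlgebra.norm_le_one_iff_of_nonneg _ hz.one_sub.nonneg).2 hz.one_sub.le_one
  rw [o.cut_Y hz]
  refine (norm_mul_le _ _).trans ((mul_le_of_le_one_right (norm_nonneg _) he).trans ?_)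
  exact (norm_mul_le _ _).trans (mul_le_of_le_one_left (norm_nonneg _) he)

theorem cut_Y_le (hz : IsStarProjection z) {η : ℝ} (hη : η ≤ 1)
    (hY : Yop v s W h ≤ (1 - η) • (1 : A)) :
    Yop v s (W * (1 - z)) h ≤ (1 - η) • (1 : A) := by
  rw [o.cut_Y hz]
  refine (hz.one_sub.isSelfAdjoint.conjugate_le_conjugate hY).trans ?_
  rw [mul_smul_comm, smul_mul_assoc, mul_one, hz.one_sub.isIdempotentElem.eq]
  exact smul_le_smul_of_nonneg_left hz.one_sub.le_one (by linarith)

/-- A cut by any projection lowers `P`. -/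
theorem cut_P_le (hz : IsStarProjection z) :
    Pop v s (W * (1 - z)) h ≤ Pop v s W h := by
  have o' := o.cut hz
  have he := hz.one_sub
  have eY := o.cut_Y hz
  set e := 1 - z
  clear_value e
  set R := Rop v s W h with hR
  set R' := Rop v s (W * e) h with hR'
  set a := 1 - Yop v s W h with ha
  set X := e * R' * e with hX
  have hRa : R * a = 1 := Ring.inverse_mul_cancel _ o.isUnit_one_sub
  have haR : a * R = 1 := Ring.mul_inverse_cancel _ o.isUnit_one_sub
  have hR'a : R' * (1 - Yop v s (W * e) h) = 1 := Ring.inverse_mul_cancel _ o'.isUnit_one_sub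
  have heae : e * a * e = (1 - Yop v s (W * e) h) * e := by
    rw [ha, eY, mul_sub, mul_one, sub_mul, sub_mul, one_mul, mul_assoc _ e e,
      he.isIdempotentElem.eq]
  have hXaX : X * a * X = X := by
    calc X * a * X = e * R' * (e * a * e) * R' * e := by
          rw [hX]
          simp only [mul_assoc]
      _ = e * (R' * (1 - Yop v s (W * e) h)) * e * R' * e := by
          rw [heae]
          simp only [mul_assoc]
      _ = X := by rw [hR'a, mul_one, he.isIdempotentElem.eq, hX]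
  have e1 : R - X = (R - X) * a * (R - X) := by
    have h1 : R * a * R = R := by rw [hRa, one_mul]
    have h2 : R * a * X = X := by rw [hRa, one_mul]
    have h3 : X * a * R = X := by rw [mul_assoc, haR, mul_one]
    calc R - X = R * a * R - R * a * X - X * a * R + X * a * X := by
          rw [h1, h2, h3, hXaX]; abel
      _ = _ := by noncomm_ring
  have hsa : IsSelfAdjoint (R - X) :=
    (IsSelfAdjoint.of_nonneg o.R_nonneg).sub
      (IsSelfAdjoint.of_nonneg (he.isSelfAdjoint.conjugate_nonneg o'.R_nonneg))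
  have ha0 : 0 ≤ a :=
    le_trans (smul_nonneg (sub_pos.2 o.norm_lt).le zero_le_one) o.smul_one_le
  have h0 : 0 ≤ R - X := by rw [e1]; exact hsa.conjugate_nonneg ha0
  calc Pop v s (W * e) h = W * X * star W := by
        rw [Pop, star_mul, he.isSelfAdjoint.star_eq, hX]
        simp only [hR', mul_assoc]
    _ ≤ Pop v s W h := star_right_conjugate_le_conjugate (sub_nonneg.1 h0) W

theorem cut_Q_le (hz : IsStarProjection z) :
    Qop v s (W * (1 - z)) h ≤ Qop v s W h :=
  sub_le_sub_right ((IsSelfAdjoint.of_nonneg (gfun_nonneg o.vpos o.spos.le o.nonneg)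
    ).conjugate_le_conjugate (o.cut_P_le hz)) _

theorem cut_P (hz : IsStarProjection z) (hc : Commute z (Yop v s W h)) :
    Pop v s W h - Pop v s (W * (1 - z)) h = W * (Rop v s W h * z) * star W := by
  have hz' := hz.one_sub
  have hzY : Commute (1 - z) (Yop v s W h) := (Commute.one_left _).sub_left hc
  have hzR : Commute (1 - z) (Rop v s W h) :=
    commute_ringInverse o.isUnit_one_sub ((Commute.one_right _).sub_right hzY)
  have o' := o.cut hz
  have hYe : Yop v s (W * (1 - z)) h = Yop v s W h * (1 - z) := by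
    rw [o.cut_Y hz, hzY.eq, mul_assoc, hz'.isIdempotentElem.eq]
  have e0 := Ring.mul_inverse_cancel _ o.isUnit_one_sub
  change (1 - Yop v s W h) * Rop v s W h = 1 at e0
  have e1 : (1 - Yop v s (W * (1 - z)) h) * (Rop v s W h * (1 - z)) = 1 - z := by
    have hswap : (1 - z) * (Rop v s W h * (1 - z)) = Rop v s W h * (1 - z) := by
      rw [← mul_assoc, hzR.eq, mul_assoc, hz'.isIdempotentElem.eq]
    calc (1 - Yop v s (W * (1 - z)) h) * (Rop v s W h * (1 - z))
        = Rop v s W h * (1 - z) - Yop v s W h * ((1 - z) * (Rop v s W h * (1 - z))) := by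
          rw [hYe, sub_mul, one_mul, mul_assoc]
      _ = ((1 - Yop v s W h) * Rop v s W h) * (1 - z) := by
          rw [hswap, sub_mul 1, sub_mul, one_mul, mul_assoc]
      _ = 1 - z := by rw [e0, one_mul]
  have e2 : Rop v s (W * (1 - z)) h * (1 - z) = Rop v s W h * (1 - z) := by
    have := congrArg (fun x => Rop v s (W * (1 - z)) h * x) e1
    simp only [← mul_assoc] at this
    rw [show Rop v s (W * (1 - z)) h * (1 - Yop v s (W * (1 - z)) h) = 1 from
      Ring.inverse_mul_cancel _ o'.isUnit_one_sub, one_mul] at this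
    exact this.symm
  have e3 : Pop v s (W * (1 - z)) h = W * (Rop v s W h * (1 - z)) * star W := by
    calc Pop v s (W * (1 - z)) h
        = W * ((1 - z) * (Rop v s (W * (1 - z)) h * (1 - z))) * star W := by
          rw [Pop, star_mul, hz'.isSelfAdjoint.star_eq]
          simp only [mul_assoc]
      _ = _ := by rw [e2, ← mul_assoc (1 - z), hzR.eq, mul_assoc (Rop v s W h),
            hz'.isIdempotentElem.eq]
  rw [e3, Pop]
  noncomm_ring

/-- The part cut off is small compared with the drop of `P` where `Y` is close to one. -/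
theorem cut_small (hz : IsStarProjection z) (hc : Commute z (Yop v s W h)) {η : ℝ}
    (hzY : (1 - η) • z ≤ Yop v s W h * z) :
    W * z * star W ≤ η • (Pop v s W h - Pop v s (W * (1 - z)) h) := by
  rw [o.cut_P hz hc, ← smul_mul_assoc, ← mul_smul_comm]
  refine star_right_conjugate_le_conjugate ?_ W
  have hRY : Commute (Rop v s W h) (Yop v s W h) :=
    (commute_ringInverse o.isUnit_one_sub ((Commute.one_right _).sub_right (Commute.refl _))).symm
  have hRz : Commute (Rop v s W h) z :=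
    (commute_ringInverse o.isUnit_one_sub ((Commute.one_right _).sub_right hc)).symm
  have h0 := ((hRY.mul_right hRz).sub_right (hRz.smul_right (1 - η))).mul_nonneg o.R_nonneg
    (sub_nonneg.2 hzY)
  rw [← sub_nonneg]
  refine h0.trans (le_of_eq ?_)
  have e : Rop v s W h * (Yop v s W h * z) = Rop v s W h * z - z := by
    rw [← mul_assoc, show Rop v s W h * Yop v s W h = Rop v s W h - 1 from ?_, sub_mul, one_mul]
    have e0 := Ring.inverse_mul_cancel _ o.isUnit_one_sub
    change Rop v s W h * (1 - Yop v s W h) = 1 at e0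
    rw [mul_sub, mul_one] at e0
    rw [← e0]
    abel
  rw [mul_sub, e, mul_smul_comm]
  module

theorem cut_small' (hz : IsStarProjection z) (hc : Commute z (Yop v s W h)) {η : ℝ}
    (hη : 0 < η) (hzY : (1 - η) • z ≤ Yop v s W h * z) :
    η⁻¹ • (W * z * star W) ≤ Pop v s W h - Pop v s (W * (1 - z)) h := by
  have h1 := smul_le_smul_of_nonneg_left (o.cut_small hz hc hzY) (inv_nonneg.2 hη.le)
  rwa [inv_smul_smul₀ hη.ne'] at h1

/-- The form `W z R W*` of the drop. -/
theorem cut_P' (hz : IsStarProjection z) (hc : Commute z (Yop v s W h)) :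
    Pop v s W h - Pop v s (W * (1 - z)) h = W * z * Rop v s W h * star W := by
  have h1 : Commute z (Rop v s W h) :=
    commute_ringInverse o.isUnit_one_sub ((Commute.one_right _).sub_right hc)
  rw [o.cut_P hz hc, mul_assoc W z, h1.eq]

end Ok

theorem cut_B_sub (hz : IsStarProjection z) :
    Bop s W - Bop s (W * (1 - z)) = W * z * star W := by
  have hz' := hz.one_sub
  rw [Bop, Bop, star_mul, hz'.isSelfAdjoint.star_eq, mul_assoc, ← mul_assoc (1 - z),
    hz'.isIdempotentElem.eq]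
  noncomm_ring

theorem cut_B_le (hz : IsStarProjection z) : Bop s (W * (1 - z)) ≤ Bop s W := by
  rw [← sub_nonneg, cut_B_sub hz]
  exact star_right_conjugate_nonneg hz.nonneg W

end Cut

/-! ## The ends of the walk -/

section Ends

variable {v s : ℝ} {W h : A}

theorem norm_Yop_le (hv : 0 < v) (hs : 0 ≤ s) (hh : 0 ≤ h) {h0 : ℝ} (h00 : 0 ≤ h0)
    (hle : h ≤ h0 • (1 : A)) : ‖Yop v s W h‖ ≤ v⁻¹ * h0 * ‖W‖ ^ 2 := by
  have h1 : Yop v s W h ≤ star W * ((v⁻¹ * h0) • (1 : A)) * W := by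
    refine star_left_conjugate_le_conjugate ((kfun_le hv hs hh).trans ?_) W
    rw [← smul_smul]
    exact smul_le_smul_of_nonneg_left hle (inv_nonneg.2 hv.le)
  rw [mul_smul_comm, smul_mul_assoc, mul_one] at h1
  refine (CStarAlgebra.norm_le_norm_of_nonneg_of_le (Yop_nonneg hv hs hh) h1).trans ?_
  rw [norm_smul, Real.norm_of_nonneg (by positivity), CStarRing.norm_star_mul_self, sq]

theorem ok_of_small (hv : 0 < v) (hs : 0 < s) (hh : 0 ≤ h) {h0 : ℝ} (h00 : 0 ≤ h0)
    (hle : h ≤ h0 • (1 : A)) (hW : h0 * ‖W‖ ^ 2 < v) : Ok v s W h :=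
  ⟨hv, hs, hh, (norm_Yop_le hv hs.le hh h00 hle).trans_lt
    (by rw [mul_assoc, inv_mul_lt_iff₀ hv, mul_one]; exact hW)⟩

namespace Ok

variable (o : Ok v s W h)
include o

theorem norm_Q_le_of_small {h0 : ℝ} (h00 : 0 ≤ h0) (hle : h ≤ h0 • (1 : A))
    (hB : h0 * ‖Bop s W‖ ≤ v / 2) : ‖Qop v s W h‖ ≤ 2 * ‖Bop s W‖ := by
  have hn : ‖h‖ ≤ h0 := norm_le_of_le_smul_one h00 o.nonneg hle
  have h1 : ‖Qop v s W h‖ ≤ ‖Bop s W‖ + ‖v⁻¹ • (Qop v s W h * h * Bop s W)‖ :=
    (congrArg norm o.Q_eq).trans_le (norm_add_le _ _)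
  rw [norm_smul, Real.norm_of_nonneg (inv_nonneg.2 o.vpos.le)] at h1
  have h2 : ‖Qop v s W h * h * Bop s W‖ ≤ ‖Qop v s W h‖ * (v / 2) := by
    refine ((norm_mul_le _ _).trans (mul_le_mul_of_nonneg_right (norm_mul_le _ _)
      (norm_nonneg _))).trans ?_
    rw [mul_assoc]
    refine mul_le_mul_of_nonneg_left (le_trans ?_ hB) (norm_nonneg _)
    exact mul_le_mul_of_nonneg_right hn (norm_nonneg _)
  have h3 := mul_le_mul_of_nonneg_left h2 (inv_nonneg.2 o.vpos.le)
  have h4 : v⁻¹ * (‖Qop v s W h‖ * (v / 2)) = ‖Qop v s W h‖ / 2 := by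
    field_simp [o.vpos.ne']
  linarith

theorem Q_sub_B_le {h0 : ℝ} (h00 : 0 ≤ h0) (hle : h ≤ h0 • (1 : A))
    (hB : h0 * ‖Bop s W‖ ≤ v / 2) :
    Qop v s W h - Bop s W ≤ (2 * h0 / v) • (Bop s W * Bop s W) := by
  have hn : ‖h‖ ≤ h0 := norm_le_of_le_smul_one h00 o.nonneg hle
  have hQ := o.norm_Q_le_of_small h00 hle hB
  have hc : ‖v⁻¹ • (h * Qop v s W h * h)‖ ≤ h0 := by
    rw [norm_smul, Real.norm_of_nonneg (inv_nonneg.2 o.vpos.le), inv_mul_le_iff₀ o.vpos]
    refine ((norm_mul_le _ _).trans (mul_le_mul_of_nonneg_right (norm_mul_le _ _)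
      (norm_nonneg _))).trans ?_
    calc ‖h‖ * ‖Qop v s W h‖ * ‖h‖ ≤ h0 * (2 * ‖Bop s W‖) * h0 := by gcongr
      _ ≤ v * h0 := by nlinarith
  have hm : h + v⁻¹ • (h * Qop v s W h * h) ≤ (2 * h0) • (1 : A) := by
    refine (le_norm_smul_one (.of_nonneg o.h_add_hQh_nonneg)).trans
      (smul_le_smul_of_nonneg_right ?_ zero_le_one)
    linarith [norm_add_le h (v⁻¹ • (h * Qop v s W h * h))]
  rw [o.Q_sub_B]
  refine (smul_le_smul_of_nonneg_left (Bop_isSelfAdjoint.conjugate_le_conjugate hm)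
    (inv_nonneg.2 o.vpos.le)).trans (le_of_eq ?_)
  rw [mul_smul_comm, mul_one, smul_mul_assoc, smul_smul]
  congr 1
  field_simp [o.vpos.ne']

/-- The bound at the end of the walk on a colour with `h` bounded below on `p`. -/
theorem pBp_le {p : A} (hp : IsStarProjection p) (hph : Commute p h) {c : ℝ} (hc : 0 < c)
    (hcp : c • p ≤ h) : p * Bop s W * p ≤ (v / c) • p := by
  obtain ⟨hv, hs, hh⟩ := And.intro o.vpos (And.intro o.spos.le o.nonneg)
  set κ := c / (v + s * c) with hκ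
  have hden : 0 < v + s * c := by positivity
  have hκ0 : 0 < κ := by positivity
  have hpk : Commute p (kfun v s h) := commute_kfun hv hs hh hph
  have hkp : κ • p ≤ kfun v s h := by
    have h1 : 0 ≤ (h - c • p) * p :=
      (hph.symm.sub_left ((Commute.refl p).smul_left c)).mul_nonneg (sub_nonneg.2 hcp) hp.nonneg
    have h2 : Commute ((h - c • p) * p) (deninv v s h) :=
      (commute_deninv hv hs hh (((Commute.refl h).sub_left (hph.smul_left c)).mul_left hph))
    have h3 := h2.mul_nonneg h1 (deninv_nonneg hv hs hh)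
    have e : (v + s * c) • (kfun v s h * p) - c • p = v • ((h - c • p) * p * deninv v s h) := by
      have hpd : Commute p (deninv v s h) := commute_deninv hv hs hh hph
      have e1 : p = v • (p * deninv v s h) + s • (p * kfun v s h) := by
        conv_lhs => rw [← mul_one p, ← sub_add_cancel (1 : A) (s • kfun v s h),
          ← gfun_eq hv hs hh, mul_add, gfun, mul_smul_comm, mul_smul_comm]
      nth_rw 2 [e1]
      simp only [sub_mul, smul_mul_assoc, hp.isIdempotentElem.eq, hpk.eq, smul_sub, smul_add,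
        smul_smul, add_smul]
      rw [kfun, mul_assoc h, mul_assoc h, hpd.eq, mul_comm c v, mul_comm c s]
      module
    have h4 : κ • p ≤ kfun v s h * p := by
      have h5 := sub_nonneg.1 ((smul_nonneg hv.le h3).trans_eq e.symm)
      have h6 := smul_le_smul_of_nonneg_left h5 (inv_nonneg.2 hden.le)
      rwa [inv_smul_smul₀ hden.ne', smul_smul, inv_mul_eq_div] at h6
    refine h4.trans (sub_nonneg.1 ?_)
    have h7 := (((Commute.one_right _).sub_right hpk.symm) :
      Commute (kfun v s h) (1 - p)).mul_nonneg (kfun_nonneg hv hs hh) hp.one_sub.nonneg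
    rwa [mul_sub, mul_one] at h7
  have hY : ‖star (p * W) * (p * W)‖ ≤ κ⁻¹ := by
    have h1 : κ • (star (p * W) * (p * W)) ≤ Yop v s W h := by
      have e : κ • (star (p * W) * (p * W)) = star W * (κ • p) * W := by
        rw [star_mul, hp.isSelfAdjoint.star_eq, mul_assoc, ← mul_assoc p, hp.isIdempotentElem.eq,
          mul_smul_comm, smul_mul_assoc, mul_assoc]
      rw [e]
      exact star_left_conjugate_le_conjugate hkp W
    have h2 := (CStarAlgebra.norm_le_norm_of_nonneg_of_le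
      (smul_nonneg hκ0.le (star_mul_self_nonneg _)) h1).trans o.norm_lt.le
    rw [norm_smul, Real.norm_of_nonneg hκ0.le, ← le_div_iff₀' hκ0, one_div] at h2
    exact h2
  have hpp : p * (W * star W) * p ≤ κ⁻¹ • p := by
    have e : p * (W * star W) * p = p * ((p * W) * star (p * W)) * p := by
      rw [star_mul, hp.isSelfAdjoint.star_eq]
      simp only [mul_assoc, hp.isIdempotentElem.eq]
      simp only [← mul_assoc, hp.isIdempotentElem.eq]
    rw [e]
    refine (hp.isSelfAdjoint.conjugate_le_conjugate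
      (le_norm_smul_one (IsSelfAdjoint.mul_star_self (p * W)))).trans ?_
    rw [mul_smul_comm, mul_one, smul_mul_assoc, hp.isIdempotentElem.eq]
    refine smul_le_smul_of_nonneg_right ?_ hp.nonneg
    rwa [CStarRing.norm_self_mul_star, ← CStarRing.norm_star_mul_self]
  calc p * Bop s W * p = p * (W * star W) * p - s • p := by
        rw [Bop, mul_sub, sub_mul, mul_smul_comm, mul_one, smul_mul_assoc, hp.isIdempotentElem.eq]
    _ ≤ κ⁻¹ • p - s • p := sub_le_sub_right hpp _
    _ = (v / c) • p := by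
        rw [← sub_smul]
        congr 1
        rw [hκ]
        field_simp
        ring

/-- `h^(1/2) B h^(1/2) ≤ v`, the invariant of the walk. -/
theorem sqrt_B_sqrt_le :
    CFC.sqrt h * Bop s W * CFC.sqrt h ≤ v • (1 : A) := by
  obtain ⟨hv, hs, hh⟩ := And.intro o.vpos (And.intro o.spos.le o.nonneg)
  set q := CFC.sqrt h
  set r := CFC.sqrt (deninv v s h)
  set w := CFC.sqrt (den v s h)
  have hu0 : 0 ≤ den v s h := add_nonneg (smul_nonneg hv.le zero_le_one) (smul_nonneg hs hh)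
  have hqd : Commute q (deninv v s h) :=
    commute_deninv hv hs hh ((Commute.refl h).cfcₙ_nnreal _)
  have hqr : Commute q r := (hqd.symm.cfcₙ_nnreal _).symm
  have hud : Commute (den v s h) (deninv v s h) :=
    commute_ringInverse (isUnit_den hv hs hh) (Commute.refl _)
  have hwd : Commute w (deninv v s h) := hud.cfcₙ_nnreal _
  have hwr : Commute w r := (hwd.symm.cfcₙ_nnreal _).symm
  have hq0 : (0 : A) ≤ q := CFC.sqrt_nonneg _
  have hr0 : (0 : A) ≤ r := CFC.sqrt_nonneg _
  have hw0 : (0 : A) ≤ w := CFC.sqrt_nonneg _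
  have hq2 : q * q = h := CFC.sqrt_mul_sqrt_self h hh
  have hr2 : r * r = deninv v s h := CFC.sqrt_mul_sqrt_self _ (deninv_nonneg hv hs hh)
  have hw2 : w * w = den v s h := CFC.sqrt_mul_sqrt_self _ hu0
  have hwr1 : w * r = 1 := by
    have e : (w * r) * (w * r) = 1 := by
      rw [mul_assoc, ← mul_assoc r, ← hwr.eq, mul_assoc, ← mul_assoc w, hr2, hw2]
      exact Ring.mul_inverse_cancel _ (isUnit_den hv hs hh)
    rw [← CFC.sqrt_mul_self (w * r) (hwr.mul_nonneg hw0 hr0), e, CFC.sqrt_one]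
  have hk : (q * r) * (q * r) = kfun v s h := by
    rw [mul_assoc, ← mul_assoc r, ← hqr.eq, mul_assoc, hr2, ← mul_assoc, hq2]
    rfl
  have hqr0 : 0 ≤ q * r := hqr.mul_nonneg hq0 hr0
  have hqrs := (IsSelfAdjoint.of_nonneg hqr0).star_eq
  have hn : ‖(q * r * W) * star (q * r * W)‖ ≤ 1 := by
    have e : star (q * r * W) * (q * r * W) = Yop v s W h := by
      rw [star_mul, hqrs, Yop, ← hk]
      simp only [mul_assoc]
    rw [CStarRing.norm_self_mul_star, ← CStarRing.norm_star_mul_self, e]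
    exact o.norm_lt.le
  have h1 := (CStarAlgebra.norm_le_one_iff_of_nonneg _ (mul_star_self_nonneg _)).1 hn
  have h2 := (IsSelfAdjoint.of_nonneg hw0).conjugate_le_conjugate h1
  have e3 : w * (q * r * W * star (q * r * W)) * w = q * (W * star W) * q := by
    have hrw : r * w = 1 := hwr.eq.symm.trans hwr1
    have e4 : w * (q * r) = q := by rw [hqr.eq, ← mul_assoc, hwr1, one_mul]
    have e5 : (q * r) * w = q := by rw [mul_assoc, hrw, mul_one]
    calc w * (q * r * W * star (q * r * W)) * w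
        = (w * (q * r)) * (W * star W) * ((q * r) * w) := by
          rw [star_mul, hqrs]
          simp only [mul_assoc]
      _ = _ := by rw [e4, e5]
  rw [e3, mul_one, hw2, den] at h2
  calc q * Bop s W * q = q * (W * star W) * q - s • h := by
        rw [Bop, mul_sub, sub_mul, mul_smul_comm, mul_one, smul_mul_assoc, hq2]
    _ ≤ v • (1 : A) := sub_le_iff_le_add.2 h2

/-- `h^(1/2) B h^(1/2) ≤ h^(1/2) Q h^(1/2)`. -/
theorem sqrt_B_le_sqrt_Q :
    CFC.sqrt h * Bop s W * CFC.sqrt h ≤ CFC.sqrt h * Qop v s W h * CFC.sqrt h :=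
  (IsSelfAdjoint.of_nonneg (CFC.sqrt_nonneg h)).conjugate_le_conjugate o.B_le_Q

end Ok

/-- Two admissible colours with opposite signs bound `h^(1/2) Q h^(1/2)` from below. -/
theorem neg_le_sqrt_Q {W' : A} (o : Ok v s W h) (o' : Ok v s W' h) {t : ℝ}
    (hsum : Bop s W + Bop s W' = -(t • (1 : A))) :
    -(v • (1 : A) + t • h) ≤ CFC.sqrt h * Qop v s W h * CFC.sqrt h := by
  refine le_trans ?_ o.sqrt_B_le_sqrt_Q
  have e : CFC.sqrt h * Bop s W * CFC.sqrt h
      = -(t • h) - CFC.sqrt h * Bop s W' * CFC.sqrt h := by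
    rw [eq_sub_of_add_eq hsum, mul_sub, sub_mul, mul_neg, neg_mul, mul_smul_comm, mul_one,
      smul_mul_assoc, CFC.sqrt_mul_sqrt_self h o.nonneg]
  rw [e, neg_add_rev, ← sub_eq_add_neg]
  exact sub_le_sub_left o'.sqrt_B_sqrt_le _

/-- The key inequality for the sharp exponent: with both signs admissible, `B h B` is at most a
constant times `v (Q - B)`, up to the part cut off. -/
theorem BhB_le {W' D : A} (o : Ok v s W h) (o' : Ok v s W' h) (h1 : h ≤ 1) {t : ℝ} (ht : 0 ≤ t)
    (hsum : Bop s W + Bop s W' = -(t • (1 : A)) - D) {k : ℝ} (hk : k = 2 + t / v) :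
    Bop s W * h * Bop s W ≤ (k * v) • (Qop v s W h - Bop s W)
      + (k * v)⁻¹ • (Bop s W * (h * D * h) * Bop s W) := by
  obtain ⟨hv, hh⟩ := And.intro o.vpos o.nonneg
  have hk0 : 0 < k := by rw [hk]; positivity
  set q := CFC.sqrt h with hq
  have hqq : q * q = h := CFC.sqrt_mul_sqrt_self h hh
  have hq0 : IsSelfAdjoint q := .of_nonneg (CFC.sqrt_nonneg h)
  set X := 1 + v⁻¹ • (q * Qop v s W h * q) with hX
  set N := 1 - v⁻¹ • (q * Bop s W * q) with hN
  set E := v⁻¹ • (q * D * q) with hE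
  have hXN : X * N = 1 := by
    have e0 : q * Qop v s W h * q = q * Bop s W * q
        + v⁻¹ • (q * Qop v s W h * q * (q * Bop s W * q)) := by
      nth_rw 1 [o.Q_eq]
      rw [mul_add, add_mul, mul_smul_comm, smul_mul_assoc, ← hqq]
      simp only [mul_assoc]
    have e1 : v⁻¹ • (q * Qop v s W h * q * (q * Bop s W * q))
        = q * Qop v s W h * q - q * Bop s W * q := eq_sub_of_add_eq' e0.symm
    rw [hX, hN, add_mul, one_mul, smul_mul_assoc, mul_sub, mul_one, mul_smul_comm, e1]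
    module
  have hN0 : 0 ≤ N := by
    rw [hN, sub_nonneg, ← inv_smul_smul₀ hv.ne' (1 : A)]
    exact smul_le_smul_of_nonneg_left o.sqrt_B_sqrt_le (inv_nonneg.2 hv.le)
  have hNle : N ≤ k • (1 : A) + E := by
    have e : N = 1 + v⁻¹ • (q * Bop s W' * q) + (t / v) • h + E := by
      rw [hN, hE, eq_sub_of_add_eq hsum]
      simp only [mul_sub, sub_mul, mul_neg, neg_mul, mul_smul_comm, smul_mul_assoc, mul_one, hqq,
        smul_sub, smul_neg, smul_smul, mul_assoc, div_eq_inv_mul]
      module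
    have hb : v⁻¹ • (q * Bop s W' * q) ≤ 1 := by
      rw [← inv_smul_smul₀ hv.ne' (1 : A)]
      exact smul_le_smul_of_nonneg_left o'.sqrt_B_sqrt_le (inv_nonneg.2 hv.le)
    have hth : (t / v) • h ≤ (t / v) • (1 : A) :=
      smul_le_smul_of_nonneg_left h1 (div_nonneg ht hv.le)
    rw [e]
    calc 1 + v⁻¹ • (q * Bop s W' * q) + (t / v) • h + E
        ≤ 1 + 1 + (t / v) • (1 : A) + E := by gcongr
      _ = _ := by
          rw [hk, add_smul, two_smul]
  have hXsa : IsSelfAdjoint X :=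
    (IsSelfAdjoint.one A).add ((IsSelfAdjoint.all v⁻¹).smul (by
      simpa [hq0.star_eq, mul_assoc] using o.isSelfAdjoint_Q.conjugate' q))
  have hXle : k⁻¹ • (1 : A) - k⁻¹ ^ 2 • E ≤ X := by
    have hsa : IsSelfAdjoint (X - k⁻¹ • (1 : A)) :=
      hXsa.sub ((IsSelfAdjoint.all k⁻¹).smul (IsSelfAdjoint.one A))
    have h0 := hsa.conjugate_nonneg hN0
    have hNX : N * X = 1 := by
      have e := congrArg star hXN
      rwa [star_mul, star_one, hXsa.star_eq, (IsSelfAdjoint.of_nonneg hN0).star_eq] at e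
    have e : (X - k⁻¹ • (1 : A)) * N * (X - k⁻¹ • (1 : A))
        = X - (2 * k⁻¹) • (1 : A) + k⁻¹ ^ 2 • N := by
      simp only [sub_mul, mul_sub, smul_mul_assoc, mul_smul_comm, one_mul, mul_one, hXN, hNX,
        smul_sub, smul_smul, sq]
      module
    rw [e] at h0
    have h2 := smul_le_smul_of_nonneg_left hNle (sq_nonneg k⁻¹)
    rw [smul_add, smul_smul, sq, mul_assoc, inv_mul_cancel₀ hk0.ne', mul_one, ← sq] at h2
    rw [← sub_nonneg] at h2 ⊢
    refine (add_nonneg h0 h2).trans (le_of_eq ?_)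
    module
  have hmid : h ≤ k • (h + v⁻¹ • (h * Qop v s W h * h)) + (k * v)⁻¹ • (h * D * h) := by
    have h2 := smul_le_smul_of_nonneg_left (hq0.conjugate_le_conjugate hXle) hk0.le
    have eX : q * X * q = h + v⁻¹ • (h * Qop v s W h * h) := by
      rw [hX, mul_add, add_mul, mul_one, hqq, mul_smul_comm, smul_mul_assoc, ← hqq]
      simp only [mul_assoc]
    have eL : k • (q * (k⁻¹ • (1 : A) - k⁻¹ ^ 2 • E) * q) = h - (k * v)⁻¹ • (h * D * h) := by
      rw [hE, mul_sub, sub_mul, mul_smul_comm, smul_mul_assoc, mul_one, hqq, mul_smul_comm,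
        smul_mul_assoc, mul_smul_comm, smul_mul_assoc, smul_sub, smul_inv_smul₀ hk0.ne', smul_smul,
        smul_smul, ← hqq]
      simp only [mul_assoc]
      congr 2
      field_simp
    rw [eX, eL, sub_le_iff_le_add] at h2
    exact h2
  refine (Bop_isSelfAdjoint.conjugate_le_conjugate hmid).trans (le_of_eq ?_)
  rw [o.Q_sub_B, mul_add, add_mul, mul_smul_comm, smul_mul_assoc, mul_smul_comm, smul_mul_assoc,
    smul_smul, mul_assoc k, mul_inv_cancel₀ hv.ne', mul_one]

/-- The resolvent of `h^(1/2) B h^(1/2) / v`, written through `Q`. -/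
theorem sqrt_resolvent (o : Ok v s W h) :
    let q := CFC.sqrt h
    let X := 1 + v⁻¹ • (q * Qop v s W h * q)
    let N := 1 - v⁻¹ • (q * Bop s W * q)
    0 ≤ X ∧ X * N = 1 ∧ N * X = 1 ∧
      Qop v s W h - Bop s W = v⁻¹ • (Bop s W * (q * X * q) * Bop s W) := by
  intro q X N
  obtain ⟨hv, hh⟩ := And.intro o.vpos o.nonneg
  have hqq : q * q = h := CFC.sqrt_mul_sqrt_self h hh
  have hq0 : IsSelfAdjoint q := .of_nonneg (CFC.sqrt_nonneg h)
  have hXN : X * N = 1 := by
    have e0 : q * Qop v s W h * q = q * Bop s W * q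
        + v⁻¹ • (q * Qop v s W h * q * (q * Bop s W * q)) := by
      nth_rw 1 [o.Q_eq]
      rw [mul_add, add_mul, mul_smul_comm, smul_mul_assoc, ← hqq]
      simp only [mul_assoc]
    have e1 : v⁻¹ • (q * Qop v s W h * q * (q * Bop s W * q))
        = q * Qop v s W h * q - q * Bop s W * q := eq_sub_of_add_eq' e0.symm
    simp only [X, N]
    rw [add_mul, one_mul, smul_mul_assoc, mul_sub, mul_one, mul_smul_comm, e1]
    module
  have hN0 : 0 ≤ N := by
    simp only [N]
    rw [sub_nonneg, ← inv_smul_smul₀ hv.ne' (1 : A)]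
    exact smul_le_smul_of_nonneg_left o.sqrt_B_sqrt_le (inv_nonneg.2 hv.le)
  have hX : IsSelfAdjoint X :=
    (IsSelfAdjoint.one A).add ((IsSelfAdjoint.all v⁻¹).smul (by
      simpa [hq0.star_eq, mul_assoc] using o.isSelfAdjoint_Q.conjugate' q))
  have hNX : N * X = 1 := by
    have e := congrArg star hXN
    rwa [star_mul, star_one, hX.star_eq, (IsSelfAdjoint.of_nonneg hN0).star_eq] at e
  refine ⟨?_, hXN, hNX, ?_⟩
  · have h0 := hX.conjugate_nonneg hN0
    rwa [hXN, one_mul] at h0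
  · have e : q * X * q = h + v⁻¹ • (h * Qop v s W h * h) := by
      simp only [X]
      rw [mul_add, add_mul, mul_one, hqq, mul_smul_comm, smul_mul_assoc, ← hqq]
      simp only [mul_assoc]
    rw [e]
    exact o.Q_sub_B

end Ends

/-! ## Membership in a closed algebra -/

theorem ringInverse_mem (M : StarSubalgebra ℂ A) (hM : IsClosed (M : Set A)) {a : A} (ha : a ∈ M) :
    Ring.inverse a ∈ M := by
  by_cases hu : IsUnit a
  · have : IsClosed (M : Set A) := hM
    obtain ⟨w, hw⟩ := (StarSubalgebra.coe_isUnit M (a := ⟨a, ha⟩)).1 hu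
    have e : Units.map (M.subtype : M →* A) w = hu.unit := Units.ext (by simp [hw])
    rw [Ring.inverse_of_isUnit hu, ← e]
    exact (↑w⁻¹ : M).2
  · rw [Ring.inverse_non_unit a hu]
    exact M.zero_mem

theorem smul_mem_real (M : StarSubalgebra ℂ A) {a : A} (c : ℝ) (ha : a ∈ M) : c • a ∈ M := by
  rw [← Complex.coe_smul]
  exact SMulMemClass.smul_mem _ ha

theorem Qop_mem (M : StarSubalgebra ℂ A) (hM : IsClosed (M : Set A)) {v s : ℝ} {W h : A}
    (hW : W ∈ M) (hh : h ∈ M) : Qop v s W h ∈ M := by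
  have hd : deninv v s h ∈ M :=
    ringInverse_mem M hM (M.add_mem (smul_mem_real M v M.one_mem) (smul_mem_real M s hh))
  have hg : gfun v s h ∈ M := smul_mem_real M v hd
  have hY : Yop v s W h ∈ M := M.mul_mem (M.mul_mem (star_mem (s := M) hW) (M.mul_mem hh hd)) hW
  have hR : Rop v s W h ∈ M := ringInverse_mem M hM (M.sub_mem M.one_mem hY)
  have hP : Pop v s W h ∈ M := M.mul_mem (M.mul_mem hW hR) (star_mem (s := M) hW)
  exact M.sub_mem (M.mul_mem (M.mul_mem hg hP) hg) (smul_mem_real M s hg)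

end Vale.Agent.P078.Walk
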