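import Vale.Agent.P078.Walk.State

/-!
# P078: one move, expanded to second order

If the weights move by `t ξ` on the active points, the potential changes by a linear functional, a
quadratic functional and an error `C t³` with `C` uniform over all ready states.
-/

noncomputable section

namespace Vale.Agent.P078

open scoped InnerProductSpace

universe u

variable {H : Type u} [NormedAddCommGroup H] [InnerProductSpace ℂ H] [CompleteSpace H]

namespace Walk

section general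

variable {S : Std H}

theorem smul_mem_A' (t : ℝ) {a : Op H} (ha : a ∈ S.A) : t • a ∈ S.A := by
  rw [← Complex.coe_smul]
  exact S.smul_mem_A _ ha

theorem smul_mem_M' (t : ℝ) {a : Op H} (ha : a ∈ S.M) : t • a ∈ S.M := by
  rw [← Complex.coe_smul]
  exact S.M.smul_mem ha _

theorem rtau_add (x y : Op H) : S.rtau (x + y) = S.rtau x + S.rtau y := by
  simp [Std.rtau, S.tau_add]

theorem rtau_sub (x y : Op H) : S.rtau (x - y) = S.rtau x - S.rtau y := by
  simp [Std.rtau, S.tau_sub]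

theorem rtau_smul (t : ℝ) (x : Op H) : S.rtau (t • x) = t * S.rtau x := by
  rw [← Complex.coe_smul, Std.rtau, S.tau_smul, Complex.re_ofReal_mul]
  rfl

theorem rtau_sum {ι : Type*} (s : Finset ι) (x : ι → Op H) :
    S.rtau (∑ i ∈ s, x i) = ∑ i ∈ s, S.rtau (x i) := by
  simp [Std.rtau, S.tau_sum]

theorem abs_rtau_le (x : Op H) : |S.rtau x| ≤ ‖x‖ :=
  (Complex.abs_re_le_norm _).trans ((S.norm_tau_le x).trans (S.n2_le_norm x))

theorem n2_add_sq {a b : Op H} (hsa : IsSelfAdjoint a) :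
    S.n2 (a + b) ^ 2 = S.n2 a ^ 2 + 2 * S.rtau (a * b) + S.n2 b ^ 2 := by
  rw [Std.n2, add_apply, norm_add_sq (𝕜 := ℂ), Std.rtau, ← hsa.star_eq,
    S.tau_star_mul, hsa.star_eq]
  rfl

theorem mul_le_mul_left_of_comm {a b c : Op H} (hc : 0 ≤ c) (hab : a ≤ b) (h1 : c * a = a * c)
    (h2 : c * b = b * c) : c * a ≤ c * b := by
  rw [← sub_nonneg, ← mul_sub]
  exact Commute.mul_nonneg hc (sub_nonneg.mpr hab) (by rw [Commute, SemiconjBy, mul_sub, sub_mul, h1, h2])

theorem mul_le_self_of_le_one {x e : Op H} (hx : 0 ≤ x) (he : e ≤ 1) (h1 : x * e = e * x) :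
    x * e ≤ x := by
  simpa using mul_le_mul_left_of_comm hx he h1 (by simp)

theorem norm_mul_le_of_le {a b : Op H} {A B : ℝ} (ha : ‖a‖ ≤ A) (hb : ‖b‖ ≤ B) :
    ‖a * b‖ ≤ A * B :=
  (norm_mul_le a b).trans (mul_le_mul ha hb (norm_nonneg b) ((norm_nonneg a).trans ha))

theorem op_le_norm_smul {a : Op H} (ha : IsSelfAdjoint a) {C : ℝ} (hC : ‖a‖ ≤ C) :
    a ≤ C • (1 : Op H) := by
  rw [← Algebra.algebraMap_eq_smul_one]
  exact ha.le_algebraMap_norm_self.trans (algebraMap_mono _ hC)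

theorem neg_norm_smul_le {a : Op H} (ha : IsSelfAdjoint a) {C : ℝ} (hC : ‖a‖ ≤ C) :
    -(C • (1 : Op H)) ≤ a := by
  have := op_le_norm_smul ha.neg (by rwa [norm_neg] : ‖-a‖ ≤ C)
  exact neg_le.mp this

theorem proj_norm_le {a : Op H} (ha : IsStarProjection a) : ‖a‖ ≤ 1 :=
  (CStarAlgebra.norm_le_one_iff_of_nonneg a ha.nonneg).mpr ha.le_one

end general

variable (S : Std H) (p : Par)

/-- The linear part of the change of one colour of the killed quantity. -/
def linTerm {r : ℕ} (st : St H r) (c : Fin r) (x : Op H) : Op H :=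
  ∑ i, (x * (qc S p st c i + p.σ • (1 : Op H))
      + p.v⁻¹ • (st.h c * S.exp (Qc p st c i * x * Qc p st c i))
      + p.κ • (x * (1 - st.h c) - st.h c * x))
    - (p.σ / 3) • x

/-- The quadratic part of the change of one colour of the killed quantity. -/
def quadTerm {r : ℕ} (st : St H r) (c : Fin r) (x : Op H) : Op H :=
  ∑ i, (p.v⁻¹ • (x * S.exp (Qc p st c i * x * Qc p st c i))
      + p.v⁻¹ ^ 2 • (st.h c * S.exp (Qc p st c i * x * Qc p st c i * x * Qc p st c i))
      - p.κ • (x * x))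

/-- The linear part of the change of the killed quantity. -/
def linK {r : ℕ} (st : St H r) (x : Fin r → Op H) : Op H :=
  st.u * ∑ c, linTerm S p st c (x c)

/-- The linear part of the change of the potential. -/
def linZ {r : ℕ} (ρ : ℝ) (st : St H r) (x : Fin r → Op H) : ℝ :=
  2 * S.rtau (st.bd * linK S p st x) / Real.sqrt ρ
    + ∑ c, ∑ i, p.v⁻¹ * S.rtau (Qc p st c i * x c * Qc p st c i)
    + ∑ c, S.rtau ((2 : ℝ) • x c - (2 : ℝ) • (st.h c * x c))

/-- The quadratic part of the change of the potential. -/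
def quadZ {r : ℕ} (ρ : ℝ) (st : St H r) (x : Fin r → Op H) : ℝ :=
  (2 * S.rtau (st.bd * (st.u * ∑ c, quadTerm S p st c (x c))) + 2 * S.n2 (linK S p st x) ^ 2)
      / Real.sqrt ρ
    + ∑ c, ∑ i, p.v⁻¹ ^ 2 * S.rtau (Qc p st c i * x c * Qc p st c i * x c * Qc p st c i)
    - ∑ c, S.rtau (x c * x c)

/-- A bound for the barriers of a ready state. -/
def Qbd (η : ℝ) : ℝ := 3 / η + 2

/-- A bound for the killed quantity at a ready state. -/
def Kbd (η : ℝ) : ℝ :=
  |p.σ * p.L / 3 - p.σ * p.L / 10|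
    + p.r * (2 * (Qbd η + |p.σ| + |p.κ|) + |p.σ / 3| + |p.σ * p.hmin|)

variable {S p} {y : Op H} {η : ℝ} {st : St H p.r}

theorem Par.Good.v_pos (hg : p.Good) : 0 < p.v := by
  have := hg.ε_pos
  unfold Par.v
  positivity

theorem Par.Good.hmin_pos (hg : p.Good) : 0 < p.hmin := by
  have := hg.ε_pos
  unfold Par.hmin Par.h0 Par.σ Par.v
  positivity

theorem Inv.act_mem (hv : Inv S p y st) (c : Fin p.r) : st.act c ∈ S.A :=
  mul_mem hv.u_mem (hv.al_mem c)

theorem Inv.act_proj (hv : Inv S p y st) (c : Fin p.r) : IsStarProjection (st.act c) :=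
  hv.u_proj.mul (hv.al_proj c) (S.A_comm _ hv.u_mem _ (hv.al_mem c))

theorem Inv.u_mul_res (hv : Inv S p y st) (c : Fin p.r) : st.u * st.res c = 0 := by
  have h1 := congrArg (fun x => st.u * x) hv.sum_eq
  simp only [mul_add, Finset.mul_sum, mul_one, hv.u_proj.isIdempotentElem.eq] at h1
  have hn : ∀ {g : Op H}, g ∈ S.A → IsStarProjection g → 0 ≤ st.u * g := fun hm hp =>
    Commute.mul_nonneg hv.u_proj.nonneg hp.nonneg (S.A_comm _ hv.u_mem _ hm)
  have hsum : st.u * st.g1 + st.u * st.g2 + ∑ d, st.u * st.res d = 0 := by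
    have := sub_eq_zero.mpr h1
    rw [← this]
    abel
  have h2 : ∑ d, st.u * st.res d = 0 :=
    le_antisymm (by
      rw [← hsum]
      exact le_add_of_nonneg_left (add_nonneg (hn hv.g1_mem hv.g1_proj) (hn hv.g2_mem hv.g2_proj)))
      (Finset.sum_nonneg fun d _ => hn (hv.res_mem d) (hv.res_proj d))
  exact (Finset.sum_eq_zero_iff_of_nonneg fun d _ => hn (hv.res_mem d) (hv.res_proj d)).mp h2 c
    (Finset.mem_univ c)

theorem Inv.W_norm_sq (hy : Inp S y) (hv : Inv S p y st) (hσ : 0 ≤ p.σ) (hσ2 : p.σ ≤ 2) (i : Fin 2) :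
    ‖st.W i‖ ^ 2 ≤ 3 := by
  have h := CStarAlgebra.norm_le_norm_of_nonneg_of_le (mul_star_self_nonneg (st.W i)) (hv.W_le i)
  rw [CStarRing.norm_self_mul_star, ← sq] at h
  refine h.trans ?_
  have h1 : ‖(1 : Op H)‖ ≤ 1 := ContinuousLinearMap.norm_id_le
  have h2 : |sgn i| = 1 := by fin_cases i <;> simp [sgn]
  calc ‖Bar p y i‖ ≤ ‖sgn i • y‖ + ‖(2 - p.σ) • (1 : Op H)‖ := norm_add_le _ _
    _ ≤ 1 + (2 - p.σ) * 1 := by
      rw [norm_smul, norm_smul, Real.norm_eq_abs, Real.norm_eq_abs, h2, one_mul,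
        abs_of_nonneg (by linarith : 0 ≤ 2 - p.σ)]
      exact add_le_add hy.norm_le (mul_le_mul_of_nonneg_left h1 (by linarith))
    _ ≤ 3 := by linarith

theorem Par.Good.σ_bounds (hg : p.Good) : 0 < p.σ ∧ p.σ ≤ 1 ∧ 0 < p.κ := by
  have h1 := hg.ε_pos
  have h2 := hg.ε_le
  have hv := hg.v_pos
  have hvv : p.v = p.ε / 4 := rfl
  have hσ : p.σ = p.v / 400 := rfl
  have hκ : p.κ = p.σ / 40 := rfl
  refine ⟨?_, ?_, ?_⟩ <;> linarith

theorem Ready.norm_Y_le (hv : Inv S p y st) (hR : Ready S p η y st) (hη1 : η ≤ 1) (c : Fin p.r)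
    (i : Fin 2) : ‖Yop p.v 2 (st.W i) (st.h c)‖ ≤ 1 - η :=
  norm_le_of_le_smul_one (by linarith) (hv.ok c i).Y_nonneg (hR.Y_le c i)

theorem Ready.norm_Q_le (hg : p.Good) (hy : Inp S y) (hv : Inv S p y st) (hR : Ready S p η y st)
    (hη : 0 < η) (hη1 : η ≤ 1) (c : Fin p.r) (i : Fin 2) : ‖Qc p st c i‖ ≤ Qbd η := by
  refine (hv.ok c i).norm_Q_le.trans ?_
  have hσ := hg.σ_bounds
  have h1 : η ≤ 1 - ‖Yop p.v 2 (st.W i) (st.h c)‖ := by linarith [hR.norm_Y_le hv hη1 c i]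
  have h2 := hv.W_norm_sq hy hσ.1.le (by linarith) i
  unfold Qbd
  gcongr

theorem Inv.Q_mem (hv : Inv S p y st) (c : Fin p.r) (i : Fin 2) : Qc p st c i ∈ S.M :=
  Qop_mem S.M S.M_isClosed (hv.W_mem i) (S.A_le (hv.h_mem c))

theorem Inv.kterm_mem (hv : Inv S p y st) (c : Fin p.r) :
    kterm S p st.W (st.h c) (st.al c) ∈ S.A :=
  sub_mem (sub_mem (sum_mem fun _ _ =>
      add_mem (mul_mem (hv.h_mem c) (add_mem (S.exp_mem _) (smul_mem_A' _ (one_mem _))))
        (smul_mem_A' _ (mul_mem (hv.h_mem c) (sub_mem (one_mem _) (hv.h_mem c)))))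
    (smul_mem_A' _ (hv.h_mem c))) (smul_mem_A' _ (sub_mem (one_mem _) (hv.al_mem c)))

theorem Inv.Kop_mem (hv : Inv S p y st) : Kop S p st ∈ S.A :=
  add_mem (smul_mem_A' _ (one_mem _)) (sum_mem fun c _ => hv.kterm_mem c)

theorem Ready.norm_Kop_le (hg : p.Good) (hy : Inp S y) (hv : Inv S p y st) (hR : Ready S p η y st)
    (hη : 0 < η) (hη1 : η ≤ 1) : ‖Kop S p st‖ ≤ Kbd p η := by
  have h1 : ‖(1 : Op H)‖ ≤ 1 := ContinuousLinearMap.norm_id_le
  have hh : ∀ c, ‖st.h c‖ ≤ 1 := fun c =>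
    (CStarAlgebra.norm_le_one_iff_of_nonneg _ (hv.h_nonneg c)).mpr (hv.h_le c)
  have hh' : ∀ c, ‖1 - st.h c‖ ≤ 1 := fun c =>
    (CStarAlgebra.norm_le_one_iff_of_nonneg _ (sub_nonneg.mpr (hv.h_le c))).mpr
      (sub_le_self _ (hv.h_nonneg c))
  have hal : ∀ c, ‖1 - st.al c‖ ≤ 1 := fun c => proj_norm_le (hv.al_proj c).one_sub
  have hs : ∀ (t : ℝ) (x : Op H), ‖x‖ ≤ 1 → ‖t • x‖ ≤ |t| := fun t x hx => by
    rw [norm_smul, Real.norm_eq_abs]
    exact mul_le_of_le_one_right (abs_nonneg t) hx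
  have hterm : ∀ c, ‖kterm S p st.W (st.h c) (st.al c)‖
      ≤ 2 * (Qbd η + |p.σ| + |p.κ|) + |p.σ / 3| + |p.σ * p.hmin| := by
    intro c
    refine (norm_sub_le _ _).trans (add_le_add ((norm_sub_le _ _).trans (add_le_add ?_
      (hs _ _ (hh c)))) (hs _ _ (hal c)))
    refine (norm_sum_le _ _).trans ((Finset.sum_le_sum (g := fun _ => Qbd η + |p.σ| + |p.κ|)
      fun i _ => ?_).trans (le_of_eq (by simp; ring)))
    refine (norm_add_le _ _).trans (add_le_add ?_ (hs _ _ ?_))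
    · refine (norm_mul_le_of_le (hh c) ((norm_add_le _ _).trans (add_le_add
        ((S.norm_exp_le (hv.Q_mem c i)).trans (hR.norm_Q_le hg hy hv hη hη1 c i))
        (hs p.σ 1 h1)))).trans (le_of_eq (one_mul _))
    · exact (norm_mul_le_of_le (hh c) (hh' c)).trans (le_of_eq (one_mul _))
  unfold Kop Kbd
  refine (norm_add_le _ _).trans (add_le_add (hs _ _ h1) ?_)
  refine (norm_sum_le _ _).trans ((Finset.sum_le_sum fun c _ => hterm c).trans (le_of_eq ?_))
  simp [mul_comm]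
  ring

theorem exists_cap (hg : p.Good) (hy : Inp S y) (hv : Inv S p y st) (hR : Ready S p η y st)
    (hη : 0 < η) (hη1 : η ≤ 1) (ρ : ℝ) :
    ∃ st' : St H p.r, Inv S p y st' ∧ Ready S p η y st' ∧ ‖st'.bd‖ ≤ Kbd p η ∧ st'.u = st.u ∧
      Zpot S p ρ η y st' ≤ Zpot S p ρ η y st := by
  set B := Kbd p η
  have hB : 0 ≤ B := (norm_nonneg _).trans (hR.norm_Kop_le hg hy hv hη hη1)
  obtain ⟨e, he, hep, he1, he2⟩ := S.exists_spec hv.bd_mem (IsSelfAdjoint.of_nonneg hv.bd_nonneg) B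
  rw [Complex.coe_smul] at he1
  rw [Complex.coe_smul] at he2
  have hbe : (st.u * e) ∈ S.A := mul_mem hv.u_mem he
  set b := st.bd * (1 - e) + B • (st.u * e) with hb
  have hue := hv.u_proj.mul hep (S.A_comm _ hv.u_mem _ he)
  have hbm : b ∈ S.A := add_mem (mul_mem hv.bd_mem (sub_mem (one_mem _) he)) (smul_mem_A' _ hbe)
  have hb0 : 0 ≤ b := add_nonneg (Commute.mul_nonneg hv.bd_nonneg hep.one_sub.nonneg
    (S.A_comm _ hv.bd_mem _ (sub_mem (one_mem _) he))) (smul_nonneg hB hue.nonneg)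
  have hbu : st.u * b = b := by
    rw [hb, mul_add, ← mul_assoc, hv.bd_u, mul_smul_comm, ← mul_assoc,
      hv.u_proj.isIdempotentElem.eq]
  have hbB : b ≤ B • (1 : Op H) := by
    calc b ≤ B • (1 - e) + B • e := by
          refine add_le_add he2 (smul_le_smul_of_nonneg_left ?_ hB)
          rw [S.A_comm _ hv.u_mem _ he]
          exact mul_le_self_of_le_one hep.nonneg hv.u_proj.le_one (S.A_comm _ he _ hv.u_mem)
      _ = B • (1 : Op H) := by rw [← smul_add, sub_add_cancel]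
  have hbnorm : ‖b‖ ≤ B := norm_le_of_le_smul_one hB hb0 hbB
  have hbbd : b ≤ st.bd := by
    calc b ≤ st.bd * (1 - e) + st.bd * e := by
          refine add_le_add le_rfl ?_
          have h := mul_le_mul_left_of_comm hv.u_proj.nonneg he1
            (S.A_comm _ hv.u_mem _ (smul_mem_A' _ he))
            (S.A_comm _ hv.u_mem _ (mul_mem hv.bd_mem he))
          rwa [mul_smul_comm, ← mul_assoc, hv.bd_u] at h
      _ = st.bd := by rw [← mul_add, sub_add_cancel, mul_one]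
  have hK : st.u * Kop S p st ≤ b := by
    have hKm : st.u * Kop S p st ∈ S.A := mul_mem hv.u_mem hv.Kop_mem
    have hKsa : st.u * Kop S p st ≤ B • (1 : Op H) := by
      refine op_le_norm_smul ?_ ((norm_mul_le_of_le (proj_norm_le hv.u_proj)
        (hR.norm_Kop_le hg hy hv hη hη1)).trans (le_of_eq (one_mul _)))
      have h1 := IsSelfAdjoint.of_nonneg (sub_nonneg.mpr hv.K_le)
      have h2 := (IsSelfAdjoint.of_nonneg hv.bd_nonneg).sub h1
      rwa [sub_sub_cancel] at h2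
    calc st.u * Kop S p st
        = (1 - e) * (st.u * Kop S p st) + (st.u * e) * (st.u * Kop S p st) := by
          rw [sub_mul, one_mul, S.A_comm st.u hv.u_mem e he, mul_assoc,
            ← mul_assoc st.u st.u, hv.u_proj.isIdempotentElem.eq, sub_add_cancel]
      _ ≤ (1 - e) * st.bd + (st.u * e) * (B • 1) := by
          refine add_le_add ?_ ?_
          · exact mul_le_mul_left_of_comm hep.one_sub.nonneg hv.K_le
              (S.A_comm _ (sub_mem (one_mem _) he) _ hKm)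
              (S.A_comm _ (sub_mem (one_mem _) he) _ hv.bd_mem)
          · exact mul_le_mul_left_of_comm hue.nonneg hKsa (S.A_comm _ hbe _ hKm) (by simp)
      _ = b := by
          rw [hb, S.A_comm _ (sub_mem (one_mem _) he) _ hv.bd_mem, mul_smul_comm, mul_one]
  refine ⟨{ st with bd := b }, { hv with
      bd_mem := hbm, bd_nonneg := hb0, bd_u := hbu, K_le := hK }, ⟨hR.Y_le, hR.Dl_le, hR.h_low,
      hR.h_high, hR.cold, hR.heavy⟩, hbnorm, rfl, ?_⟩
  have hn : S.n2 b ^ 2 ≤ S.n2 st.bd ^ 2 := by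
    rw [S.n2_sq, S.n2_sq, (IsSelfAdjoint.of_nonneg hb0).star_eq,
      (IsSelfAdjoint.of_nonneg hv.bd_nonneg).star_eq]
    refine S.re_tau_mono ?_
    calc b * b ≤ b * st.bd :=
          mul_le_mul_left_of_comm hb0 hbbd rfl (S.A_comm _ hbm _ hv.bd_mem)
      _ = st.bd * b := S.A_comm _ hbm _ hv.bd_mem
      _ ≤ st.bd * st.bd := mul_le_mul_left_of_comm hv.bd_nonneg hbbd
          (S.A_comm _ hv.bd_mem _ hbm) rfl
  have e1 : Psi S p { st with bd := b } ≤ Psi S p st := by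
    unfold Psi
    exact add_le_add le_rfl hn
  have e2 := div_le_div_of_nonneg_right e1 (Real.sqrt_nonneg ρ)
  change Psi S p { st with bd := b } / Real.sqrt ρ + Pot S p st + Clock S st
      + p.γ / η * S.rtau (DlSum p y st) ≤ Zpot S p ρ η y st
  unfold Zpot
  linarith

/-- The moved state. -/
def moved (st : St H p.r) (t : ℝ) (x : Fin p.r → Op H) (b : Op H) : St H p.r :=
  { st with h := fun c => st.h c + t • x c, bd := b }

/-- The coefficient of the error term in the expansion of a barrier. -/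
def remQ (η Cx : ℝ) : ℝ := p.v⁻¹ ^ 3 * Qbd η ^ 3 * Cx ^ 3 * (2 * Qbd η)

theorem move_ok (hg : p.Good) (hy : Inp S y) (hv : Inv S p y st) (hR : Ready S p η y st)
    (hη : 0 < η) (hη1 : η ≤ 1) {Cx t : ℝ} {x : Op H} (c : Fin p.r) (hxm : x ∈ S.A)
    (hxsa : IsSelfAdjoint x) (hxn : ‖x‖ ≤ Cx) (hxa : x * st.act c = x) (ht : 0 ≤ t)
    (ht1 : t * Cx ≤ p.hmin) (ht1' : t * Cx ≤ 1 / 2) (ht2 : 3 * (p.v⁻¹ * (t * Cx)) < η)
    (ht3 : p.v⁻¹ * Qbd η * (t * Cx) ≤ 1 / 2) :
    0 ≤ st.h c + t • x ∧ st.h c + t • x ≤ 1 ∧ ∀ i, Ok p.v 2 (st.W i) (st.h c + t • x) ∧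
      ∃ E : Op H, Qop p.v 2 (st.W i) (st.h c + t • x)
          = Qc p st c i + (t * p.v⁻¹) • (Qc p st c i * x * Qc p st c i)
            + (t ^ 2 * p.v⁻¹ ^ 2) • (Qc p st c i * x * Qc p st c i * x * Qc p st c i) + E ∧
        E ∈ S.M ∧ ‖E‖ ≤ remQ (p := p) η Cx * t ^ 3 := by
  have ha := hv.act_mem c
  have hap := hv.act_proj c
  have hCx : 0 ≤ Cx := (norm_nonneg x).trans hxn
  have hax : st.act c * x * st.act c = x := by
    rw [S.A_comm _ ha _ hxm, hxa, hxa]
  have hconj : ∀ {a b : Op H}, a ≤ b → st.act c * a * st.act c ≤ st.act c * b * st.act c :=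
    fun hab => by
      have := star_left_conjugate_le_conjugate hab (st.act c)
      rwa [hap.isSelfAdjoint.star_eq] at this
  have hone : ∀ s : ℝ, st.act c * (s • (1 : Op H)) * st.act c = s • st.act c := fun s => by
    rw [mul_smul_comm, mul_one, smul_mul_assoc, hap.isIdempotentElem.eq]
  have hlo : -(Cx • st.act c) ≤ x := by
    have := hconj (neg_norm_smul_le hxsa hxn)
    rwa [mul_neg, neg_mul, hone, hax] at this
  have hhi : x ≤ Cx • st.act c := by
    have := hconj (op_le_norm_smul hxsa hxn)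
    rwa [hone, hax] at this
  have hsplit : st.h c + t • x
      = st.h c * (1 - st.act c) + (st.h c * st.act c + t • x) := by
    rw [mul_sub, mul_one]
    abel
  have h1a : (1 - st.act c) ∈ S.A := sub_mem (one_mem _) ha
  have htx : -((t * Cx) • st.act c) ≤ t • x := by
    have := smul_le_smul_of_nonneg_left hlo ht
    rwa [smul_neg, smul_smul] at this
  have htx' : t • x ≤ (t * Cx) • st.act c := by
    have := smul_le_smul_of_nonneg_left hhi ht
    rwa [smul_smul] at this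
  have h0 : 0 ≤ st.h c + t • x := by
    rw [hsplit]
    refine add_nonneg (Commute.mul_nonneg (hv.h_nonneg c) hap.one_sub.nonneg
      (S.A_comm _ (hv.h_mem c) _ h1a)) ?_
    calc (0 : Op H) ≤ (p.hmin - t * Cx) • st.act c := smul_nonneg (by linarith) hap.nonneg
      _ = p.hmin • st.act c + -((t * Cx) • st.act c) := by rw [sub_smul, sub_eq_add_neg]
      _ ≤ st.h c * st.act c + t • x := add_le_add (hR.h_low c) htx
  have h1 : st.h c + t • x ≤ 1 := by
    rw [hsplit]
    calc st.h c * (1 - st.act c) + (st.h c * st.act c + t • x)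
        ≤ (1 - st.act c) + ((1 / 2 : ℝ) • st.act c + (t * Cx) • st.act c) := by
          refine add_le_add ?_ (add_le_add (hR.h_high c) htx')
          rw [S.A_comm _ (hv.h_mem c) _ h1a]
          exact mul_le_self_of_le_one hap.one_sub.nonneg (hv.h_le c)
            (S.A_comm _ h1a _ (hv.h_mem c))
      _ ≤ (1 - st.act c) + st.act c := by
          refine add_le_add le_rfl ?_
          rw [← add_smul]
          calc (1 / 2 + t * Cx) • st.act c ≤ (1 : ℝ) • st.act c :=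
                smul_le_smul_of_nonneg_right (by linarith) hap.nonneg
            _ = st.act c := one_smul _ _
      _ = 1 := sub_add_cancel _ _
  have hc : Commute (st.h c) (st.h c + t • x) :=
    S.A_comm _ (hv.h_mem c) _ (add_mem (hv.h_mem c) (smul_mem_A' t hxm))
  have hd : ‖(st.h c + t • x) - st.h c‖ ≤ t * Cx := by
    rw [add_sub_cancel_left, norm_smul, Real.norm_of_nonneg ht]
    exact mul_le_mul_of_nonneg_left hxn ht
  refine ⟨h0, h1, fun i => ?_⟩
  have o := hv.ok c i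
  have hσ := hg.σ_bounds
  have hvpos := hg.v_pos
  have hW := hv.W_norm_sq hy hσ.1.le (by linarith) i
  have o' : Ok p.v 2 (st.W i) (st.h c + t • x) := by
    refine o.of_near h0 hc ?_
    have h2 : ‖st.W i‖ ^ 2 * (p.v⁻¹ * ‖(st.h c + t • x) - st.h c‖) ≤ 3 * (p.v⁻¹ * (t * Cx)) :=
      mul_le_mul hW (mul_le_mul_of_nonneg_left hd (inv_nonneg.mpr hvpos.le))
        (mul_nonneg (inv_nonneg.mpr hvpos.le) (norm_nonneg _)) (by norm_num)
    linarith [hR.norm_Y_le hv hη1 c i]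
  refine ⟨o', _, eq_add_of_sub_eq' rfl, ?_, ?_⟩
  · have hQ := hv.Q_mem c i
    have hx := S.A_le hxm
    refine sub_mem (Qop_mem S.M S.M_isClosed (hv.W_mem i)
      (S.A_le (add_mem (hv.h_mem c) (smul_mem_A' t hxm)))) ?_
    exact add_mem (add_mem hQ (smul_mem_M' _ (mul_mem (mul_mem hQ hx) hQ)))
      (smul_mem_M' _ (mul_mem (mul_mem (mul_mem (mul_mem hQ hx) hQ) hx) hQ))
  · have hQb := hR.norm_Q_le hg hy hv hη hη1 c i
    have hQ0 : 0 ≤ Qbd η := (norm_nonneg _).trans hQb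
    have hprod : p.v⁻¹ * ‖Qc p st c i‖ * ‖(st.h c + t • x) - st.h c‖ ≤ 1 / 2 := by
      refine le_trans ?_ ht3
      exact mul_le_mul (mul_le_mul_of_nonneg_left hQb (inv_nonneg.mpr hvpos.le)) hd
        (norm_nonneg _) (mul_nonneg (inv_nonneg.mpr hvpos.le) hQ0)
    have hQ' : ‖Qop p.v 2 (st.W i) (st.h c + t • x)‖ ≤ 2 * Qbd η := by
      refine (o.norm_Q_change o' (lt_of_le_of_lt hprod (by norm_num))).trans ?_
      rw [div_le_iff₀ (by unfold Qc at hprod; linarith)]
      unfold Qc at hprod hQb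
      nlinarith
    have hr := o.norm_rem_le o'
    simp only [add_sub_cancel_left, mul_smul_comm, smul_mul_assoc, smul_smul] at hr
    have e1 : p.v⁻¹ * t = t * p.v⁻¹ := mul_comm _ _
    have e2 : p.v⁻¹ ^ 2 * (t * t) = t ^ 2 * p.v⁻¹ ^ 2 := by ring
    rw [e1, e2] at hr
    refine hr.trans ?_
    have hd' : ‖t • x‖ ≤ t * Cx := by rwa [add_sub_cancel_left] at hd
    calc p.v⁻¹ ^ 3 * ‖Qop p.v 2 (st.W i) (st.h c)‖ ^ 3 * ‖t • x‖ ^ 3
          * ‖Qop p.v 2 (st.W i) (st.h c + t • x)‖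
        ≤ p.v⁻¹ ^ 3 * Qbd η ^ 3 * (t * Cx) ^ 3 * (2 * Qbd η) := by
          have hv3 : (0 : ℝ) ≤ p.v⁻¹ ^ 3 := pow_nonneg (inv_nonneg.mpr hvpos.le) 3
          refine mul_le_mul (mul_le_mul (mul_le_mul_of_nonneg_left
            (pow_le_pow_left₀ (norm_nonneg _) hQb 3) hv3)
            (pow_le_pow_left₀ (norm_nonneg _) hd' 3) (by positivity) (by positivity)) hQ'
            (norm_nonneg _) (by positivity)
      _ = remQ (p := p) η Cx * t ^ 3 := by unfold remQ; ring

theorem kterm_move (c : Fin p.r) (x : Op H)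
    (t : ℝ) (E : Fin 2 → Op H) (hmem : ∀ i, Qc p st c i ∈ S.M) (hxA : x ∈ S.A)
    (hE : ∀ i, E i ∈ S.M ∧ Qop p.v 2 (st.W i) (st.h c + t • x)
      = Qc p st c i + (t * p.v⁻¹) • (Qc p st c i * x * Qc p st c i)
        + (t ^ 2 * p.v⁻¹ ^ 2) • (Qc p st c i * x * Qc p st c i * x * Qc p st c i) + E i) :
    kterm S p st.W (st.h c + t • x) (st.al c) = kterm S p st.W (st.h c) (st.al c)
      + t • linTerm S p st c x + t ^ 2 • quadTerm S p st c x
      + ∑ i, ((t ^ 3 * p.v⁻¹ ^ 2) • (x * S.exp (Qc p st c i * x * Qc p st c i * x * Qc p st c i))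
          + (st.h c + t • x) * S.exp (E i)) := by
  have hi : ∀ i, (st.h c + t • x) * (S.exp (Qop p.v 2 (st.W i) (st.h c + t • x)) + p.σ • (1 : Op H))
      + p.κ • ((st.h c + t • x) * (1 - (st.h c + t • x)))
      = (st.h c * (qc S p st c i + p.σ • (1 : Op H)) + p.κ • (st.h c * (1 - st.h c)))
        + t • (x * (qc S p st c i + p.σ • (1 : Op H))
            + p.v⁻¹ • (st.h c * S.exp (Qc p st c i * x * Qc p st c i))
            + p.κ • (x * (1 - st.h c) - st.h c * x))
        + t ^ 2 • (p.v⁻¹ • (x * S.exp (Qc p st c i * x * Qc p st c i))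
            + p.v⁻¹ ^ 2 • (st.h c * S.exp (Qc p st c i * x * Qc p st c i * x * Qc p st c i))
            - p.κ • (x * x))
        + ((t ^ 3 * p.v⁻¹ ^ 2) • (x * S.exp (Qc p st c i * x * Qc p st c i * x * Qc p st c i))
          + (st.h c + t • x) * S.exp (E i)) := by
    intro i
    have hQ := hmem i
    have hxM := S.A_le hxA
    have m1 : Qc p st c i * x * Qc p st c i ∈ S.M := mul_mem (mul_mem hQ hxM) hQ
    have m2 : Qc p st c i * x * Qc p st c i * x * Qc p st c i ∈ S.M :=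
      mul_mem (mul_mem m1 hxM) hQ
    rw [(hE i).2, S.exp_add (add_mem (add_mem hQ (smul_mem_M' _ m1)) (smul_mem_M' _ m2)) (hE i).1,
      S.exp_add (add_mem hQ (smul_mem_M' _ m1)) (smul_mem_M' _ m2),
      S.exp_add hQ (smul_mem_M' _ m1)]
    rw [← Complex.coe_smul (t * p.v⁻¹), ← Complex.coe_smul (t ^ 2 * p.v⁻¹ ^ 2),
      S.exp_smul _ m1, S.exp_smul _ m2, Complex.coe_smul, Complex.coe_smul]
    simp only [qc, mul_add, add_mul, mul_sub, mul_smul_comm, smul_mul_assoc, mul_one,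
      smul_add, smul_sub, smul_smul]
    match_scalars <;> ring
  simp only [kterm, linTerm, quadTerm, hi, Fin.sum_univ_two]
  simp only [qc, Qc]
  module

theorem mul_le_of_le_div {t a C : ℝ} (ht : 0 ≤ t) (hC : 0 ≤ C) (h : t ≤ a / (C + 1)) :
    t * C ≤ a := by
  rw [le_div_iff₀ (by linarith)] at h
  nlinarith

/-- The bound for the quadratic part. -/
def quadBd (η Cx : ℝ) : ℝ :=
  p.r * (2 * (p.v⁻¹ * (Cx * (Qbd η * Cx * Qbd η))
    + p.v⁻¹ ^ 2 * (Qbd η * Cx * Qbd η * Cx * Qbd η) + |p.κ| * (Cx * Cx)))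

/-- The bound for the error part. -/
def remBd (η Cx : ℝ) : ℝ :=
  p.r * (2 * (p.v⁻¹ ^ 2 * (Cx * (Qbd η * Cx * Qbd η * Cx * Qbd η)) + remQ (p := p) η Cx))

variable {Cx t : ℝ} {x : Fin p.r → Op H}

/-- The hypotheses of a step. -/
structure StepOK (S : Std H) (p : Par) (y : Op H) (η : ℝ) (st : St H p.r) (Cx t : ℝ)
    (x : Fin p.r → Op H) (E : Fin p.r → Fin 2 → Op H) : Prop where
  inv : Inv S p y st
  ready : Ready S p η y st
  x_ok : ∀ c, x c ∈ S.A ∧ IsSelfAdjoint (x c) ∧ ‖x c‖ ≤ Cx ∧ x c * st.act c = x c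
  h_nonneg : ∀ c, 0 ≤ st.h c + t • x c
  h_le : ∀ c, st.h c + t • x c ≤ 1
  ok : ∀ c i, Ok p.v 2 (st.W i) (st.h c + t • x c)
  E_mem : ∀ c i, E c i ∈ S.M
  E_norm : ∀ c i, ‖E c i‖ ≤ remQ (p := p) η Cx * t ^ 3
  E_eq : ∀ c i, Qop p.v 2 (st.W i) (st.h c + t • x c) = Qc p st c i
    + (t * p.v⁻¹) • (Qc p st c i * x c * Qc p st c i)
    + (t ^ 2 * p.v⁻¹ ^ 2) • (Qc p st c i * x c * Qc p st c i * x c * Qc p st c i) + E c i

/-- The error part of the change of the killed quantity. -/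
def remK (S : Std H) (p : Par) (st : St H p.r) (t : ℝ) (x : Fin p.r → Op H)
    (E : Fin p.r → Fin 2 → Op H) : Op H :=
  ∑ c, ∑ i, ((t ^ 3 * p.v⁻¹ ^ 2)
      • (x c * S.exp (Qc p st c i * x c * Qc p st c i * x c * Qc p st c i))
    + (st.h c + t • x c) * S.exp (E c i))

/-- The change of the killed quantity on the unresolved points. -/
def incK (S : Std H) (p : Par) (st : St H p.r) (t : ℝ) (x : Fin p.r → Op H)
    (E : Fin p.r → Fin 2 → Op H) : Op H :=
  t • linK S p st x + t ^ 2 • (st.u * ∑ c, quadTerm S p st c (x c)) + st.u * remK S p st t x E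

/-- The new bound for the killed quantity. -/
def newBd (S : Std H) (p : Par) (st : St H p.r) (t : ℝ) (x : Fin p.r → Op H)
    (E : Fin p.r → Fin 2 → Op H) : Op H :=
  st.u * CFC.abs (st.bd + incK S p st t x E)

variable {E : Fin p.r → Fin 2 → Op H}

theorem StepOK.hA (o : StepOK S p y η st Cx t x E) (c : Fin p.r) : st.h c + t • x c ∈ S.A :=
  add_mem (o.inv.h_mem c) (smul_mem_A' t (o.x_ok c).1)

theorem StepOK.m1 (o : StepOK S p y η st Cx t x E) (c : Fin p.r) (i : Fin 2) :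
    Qc p st c i * x c * Qc p st c i ∈ S.M :=
  mul_mem (mul_mem (o.inv.Q_mem c i) (S.A_le (o.x_ok c).1)) (o.inv.Q_mem c i)

theorem StepOK.m2 (o : StepOK S p y η st Cx t x E) (c : Fin p.r) (i : Fin 2) :
    Qc p st c i * x c * Qc p st c i * x c * Qc p st c i ∈ S.M :=
  mul_mem (mul_mem (o.m1 c i) (S.A_le (o.x_ok c).1)) (o.inv.Q_mem c i)

theorem StepOK.quad_mem (o : StepOK S p y η st Cx t x E) :
    st.u * ∑ c, quadTerm S p st c (x c) ∈ S.A :=
  mul_mem o.inv.u_mem (sum_mem fun c _ => sum_mem fun _ _ =>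
    sub_mem (add_mem (smul_mem_A' _ (mul_mem (o.x_ok c).1 (S.exp_mem _)))
      (smul_mem_A' _ (mul_mem (o.inv.h_mem c) (S.exp_mem _))))
      (smul_mem_A' _ (mul_mem (o.x_ok c).1 (o.x_ok c).1)))

theorem linK_mem (hv : Inv S p y st) (hx : ∀ c, x c ∈ S.A) : linK S p st x ∈ S.A :=
  mul_mem hv.u_mem (sum_mem fun c _ => sub_mem
    (sum_mem fun _ _ => add_mem (add_mem
      (mul_mem (hx c) (add_mem (S.exp_mem _) (smul_mem_A' _ (one_mem _))))
      (smul_mem_A' _ (mul_mem (hv.h_mem c) (S.exp_mem _))))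
      (smul_mem_A' _ (sub_mem (mul_mem (hx c) (sub_mem (one_mem _) (hv.h_mem c)))
        (mul_mem (hv.h_mem c) (hx c)))))
    (smul_mem_A' _ (hx c)))

theorem StepOK.inc_mem (o : StepOK S p y η st Cx t x E) : incK S p st t x E ∈ S.A :=
  add_mem (add_mem (smul_mem_A' _ (linK_mem o.inv fun c => (o.x_ok c).1))
    (smul_mem_A' _ o.quad_mem))
    (mul_mem o.inv.u_mem (sum_mem fun c _ => sum_mem fun _ _ =>
      add_mem (smul_mem_A' _ (mul_mem (o.x_ok c).1 (S.exp_mem _))) (mul_mem (o.hA c) (S.exp_mem _))))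

theorem StepOK.K_eq (o : StepOK S p y η st Cx t x E) (b : Op H) :
    st.u * Kop S p (moved st t x b) = st.u * Kop S p st + incK S p st t x E := by
  have e : ∀ c, kterm S p st.W (st.h c + t • x c) (st.al c)
      = kterm S p st.W (st.h c) (st.al c) + t • linTerm S p st c (x c)
        + t ^ 2 • quadTerm S p st c (x c)
        + ∑ i, ((t ^ 3 * p.v⁻¹ ^ 2)
            • (x c * S.exp (Qc p st c i * x c * Qc p st c i * x c * Qc p st c i))
          + (st.h c + t • x c) * S.exp (E c i)) := fun c =>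
    kterm_move c (x c) t (E c) (o.inv.Q_mem c) (o.x_ok c).1
      (fun i => ⟨o.E_mem c i, o.E_eq c i⟩)
  have e2 : Kop S p (moved st t x b) = Kop S p st + (t • ∑ c, linTerm S p st c (x c)
      + t ^ 2 • ∑ c, quadTerm S p st c (x c) + remK S p st t x E) := by
    simp only [moved, Kop, e, Finset.sum_add_distrib, ← Finset.smul_sum, remK]
    abel
  rw [e2, incK, linK]
  simp only [mul_add, mul_smul_comm]

theorem uK_isSelfAdjoint (hv : Inv S p y st) : IsSelfAdjoint (st.u * Kop S p st) := by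
  have h1 := IsSelfAdjoint.of_nonneg (sub_nonneg.mpr hv.K_le)
  have h2 := (IsSelfAdjoint.of_nonneg hv.bd_nonneg).sub h1
  rwa [sub_sub_cancel] at h2

theorem StepOK.uK'_isSelfAdjoint (o : StepOK S p y η st Cx t x E) (b : Op H) :
    IsSelfAdjoint (st.u * Kop S p (moved st t x b)) := by
  have hKsa : IsSelfAdjoint (Kop S p (moved st t x b)) := by
    refine IsSelfAdjoint.add ((IsSelfAdjoint.all _).smul (IsSelfAdjoint.one _))
      (isSelfAdjoint_sum _ fun c _ => ?_)
    have hh := IsSelfAdjoint.of_nonneg (o.h_nonneg c)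
    refine IsSelfAdjoint.sub (IsSelfAdjoint.sub (isSelfAdjoint_sum _ fun i _ => ?_)
      ((IsSelfAdjoint.all _).smul hh))
      ((IsSelfAdjoint.all _).smul ((IsSelfAdjoint.one _).sub (o.inv.al_proj c).isSelfAdjoint))
    refine IsSelfAdjoint.add ?_ ((IsSelfAdjoint.all _).smul ?_)
    · refine (hh.commute_iff ?_).mp (S.A_comm _ (o.hA c) _
        (add_mem (S.exp_mem _) (smul_mem_A' _ (one_mem _))))
      exact (S.exp_isSelfAdjoint (Qop_mem S.M S.M_isClosed (o.inv.W_mem i) (S.A_le (o.hA c)))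
        (o.ok c i).isSelfAdjoint_Q).add ((IsSelfAdjoint.all _).smul (IsSelfAdjoint.one _))
    · exact (hh.commute_iff ((IsSelfAdjoint.one _).sub hh)).mp
        (S.A_comm _ (o.hA c) _ (sub_mem (one_mem _) (o.hA c)))
  refine (o.inv.u_proj.isSelfAdjoint.commute_iff hKsa).mp ?_
  refine S.A_comm _ o.inv.u_mem _ (add_mem (smul_mem_A' _ (one_mem _)) (sum_mem fun c _ => ?_))
  exact sub_mem (sub_mem (sum_mem fun _ _ => add_mem
    (mul_mem (o.hA c) (add_mem (S.exp_mem _) (smul_mem_A' _ (one_mem _))))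
    (smul_mem_A' _ (mul_mem (o.hA c) (sub_mem (one_mem _) (o.hA c)))))
    (smul_mem_A' _ (o.hA c))) (smul_mem_A' _ (sub_mem (one_mem _) (o.inv.al_mem c)))

theorem StepOK.z_sa (o : StepOK S p y η st Cx t x E) :
    IsSelfAdjoint (st.bd + incK S p st t x E) := by
  have hIe : incK S p st t x E = st.u * Kop S p (moved st t x 0) - st.u * Kop S p st := by
    rw [o.K_eq, add_sub_cancel_left]
  rw [hIe]
  exact (IsSelfAdjoint.of_nonneg o.inv.bd_nonneg).add
    ((o.uK'_isSelfAdjoint 0).sub (uK_isSelfAdjoint o.inv))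

theorem StepOK.inv' (o : StepOK S p y η st Cx t x E) :
    Inv S p y (moved st t x (newBd S p st t x E)) := by
  have hv := o.inv
  set z : Op H := st.bd + incK S p st t x E with hz
  have hzA : z ∈ S.A := add_mem hv.bd_mem o.inc_mem
  have habsA : CFC.abs z ∈ S.A := S.sqrt_mem_A (mul_mem (star_mem hzA) hzA)
  have hzsa : IsSelfAdjoint z := o.z_sa
  have hzabs : z ≤ CFC.abs z := by
    rw [← sub_nonneg, CFC.abs_sub_self z hzsa, two_smul]
    exact add_nonneg (CFC.negPart_nonneg z) (CFC.negPart_nonneg z)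
  exact
    { h_mem := o.hA
      h_nonneg := o.h_nonneg
      h_le := o.h_le
      al_mem := hv.al_mem
      al_proj := hv.al_proj
      h_al := fun c => by
        change (st.h c + t • x c) * st.al c = _
        have ea : st.act c * st.al c = st.act c := by
          rw [St.act, mul_assoc, (hv.al_proj c).isIdempotentElem.eq]
        have ex : x c * st.al c = x c := by
          conv_lhs => rw [← (o.x_ok c).2.2.2, mul_assoc, ea]
          exact (o.x_ok c).2.2.2
        rw [add_mul, hv.h_al, smul_mul_assoc, ex]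
        rfl
      W_mem := hv.W_mem
      W_le := hv.W_le
      ok := o.ok
      u_mem := hv.u_mem
      u_proj := hv.u_proj
      g1_mem := hv.g1_mem
      g1_proj := hv.g1_proj
      g2_mem := hv.g2_mem
      g2_proj := hv.g2_proj
      res_mem := hv.res_mem
      res_proj := hv.res_proj
      sum_eq := hv.sum_eq
      res_h := fun c => by
        change (1 / 2 : ℝ) • st.res c ≤ st.h c + t • x c
        have hr := hv.res_proj c
        have ex : x c * st.res c = 0 := by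
          have e0 : st.act c * st.res c = 0 := by
            rw [St.act, mul_assoc, S.A_comm _ (hv.al_mem c) _ (hv.res_mem c), ← mul_assoc,
              hv.u_mul_res, zero_mul]
          rw [← (o.x_ok c).2.2.2, mul_assoc, e0, mul_zero]
        have e1 : (1 / 2 : ℝ) • st.res c ≤ st.h c * st.res c := by
          have := mul_le_mul_left_of_comm hr.nonneg (hv.res_h c)
            (S.A_comm _ (hv.res_mem c) _ (smul_mem_A' _ (hv.res_mem c)))
            (S.A_comm _ (hv.res_mem c) _ (hv.h_mem c))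
          rwa [mul_smul_comm, hr.isIdempotentElem.eq, S.A_comm _ (hv.res_mem c) _ (hv.h_mem c)]
            at this
        refine e1.trans ?_
        have e2 : st.h c * st.res c = (st.h c + t • x c) * st.res c := by
          rw [add_mul, smul_mul_assoc, ex, smul_zero, add_zero]
        rw [e2]
        exact mul_le_self_of_le_one (o.h_nonneg c) hr.le_one
          (S.A_comm _ (o.hA c) _ (hv.res_mem c))
      g1_le := hv.g1_le
      bd_mem := mul_mem hv.u_mem habsA
      bd_nonneg := Commute.mul_nonneg hv.u_proj.nonneg (CFC.abs_nonneg z)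
        (S.A_comm _ hv.u_mem _ habsA)
      bd_u := by
        change st.u * (st.u * CFC.abs z) = st.u * CFC.abs z
        rw [← mul_assoc, hv.u_proj.isIdempotentElem.eq]
      K_le := by
        change st.u * Kop S p (moved st t x (newBd S p st t x E)) ≤ st.u * CFC.abs z
        have h1 : st.u * Kop S p (moved st t x (newBd S p st t x E)) ≤ z := by
          rw [o.K_eq, hz]
          exact add_le_add hv.K_le le_rfl
        have hKA : st.u * Kop S p (moved st t x (newBd S p st t x E)) ∈ S.A := by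
          rw [o.K_eq]
          exact add_mem (mul_mem hv.u_mem hv.Kop_mem) o.inc_mem
        have h2 := mul_le_mul_left_of_comm hv.u_proj.nonneg (h1.trans hzabs)
          (S.A_comm _ hv.u_mem _ hKA) (S.A_comm _ hv.u_mem _ habsA)
        rwa [← mul_assoc, hv.u_proj.isIdempotentElem.eq] at h2 }

omit [CompleteSpace H] in
theorem norm_smul_le_abs {s A : ℝ} {a : Op H} (ha : ‖a‖ ≤ A) : ‖s • a‖ ≤ |s| * A := by
  rw [norm_smul, Real.norm_eq_abs]
  exact mul_le_mul_of_nonneg_left ha (abs_nonneg s)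

theorem StepOK.norm_quad (o : StepOK S p y η st Cx t x E) (hg : p.Good) (hy : Inp S y)
    (hη : 0 < η) (hη1 : η ≤ 1) :
    ‖st.u * ∑ c, quadTerm S p st c (x c)‖ ≤ quadBd (p := p) η Cx := by
  have hvi : 0 ≤ p.v⁻¹ := inv_nonneg.mpr hg.v_pos.le
  have hQn : ∀ c i, ‖Qc p st c i‖ ≤ Qbd η := fun c i =>
    o.ready.norm_Q_le hg hy o.inv hη hη1 c i
  have n1 : ∀ c i, ‖Qc p st c i * x c * Qc p st c i‖ ≤ Qbd η * Cx * Qbd η := fun c i =>
    norm_mul_le_of_le (norm_mul_le_of_le (hQn c i) (o.x_ok c).2.2.1) (hQn c i)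
  refine (norm_mul_le_of_le (proj_norm_le o.inv.u_proj) ((norm_sum_le _ _).trans
    (Finset.sum_le_sum fun c _ => (norm_sum_le _ _).trans (Finset.sum_le_sum
      (g := fun _ => p.v⁻¹ * (Cx * (Qbd η * Cx * Qbd η))
        + p.v⁻¹ ^ 2 * (Qbd η * Cx * Qbd η * Cx * Qbd η) + |p.κ| * (Cx * Cx))
      fun i _ => ?_)))).trans (le_of_eq ?_)
  · refine (norm_sub_le _ _).trans (add_le_add ((norm_add_le _ _).trans (add_le_add ?_ ?_)) ?_)
    · exact (norm_smul_le_abs (norm_mul_le_of_le (o.x_ok c).2.2.1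
        ((S.norm_exp_le (o.m1 c i)).trans (n1 c i)))).trans (le_of_eq (by rw [abs_of_nonneg hvi]))
    · refine (norm_smul_le_abs (norm_mul_le_of_le
        ((CStarAlgebra.norm_le_one_iff_of_nonneg _ (o.inv.h_nonneg c)).mpr (o.inv.h_le c))
        ((S.norm_exp_le (o.m2 c i)).trans (norm_mul_le_of_le (norm_mul_le_of_le (n1 c i)
          (o.x_ok c).2.2.1) (hQn c i))))).trans (le_of_eq ?_)
      rw [abs_of_nonneg (pow_nonneg hvi 2), one_mul]
    · exact norm_smul_le_abs (norm_mul_le_of_le (o.x_ok c).2.2.1 (o.x_ok c).2.2.1)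
  · simp [quadBd]
    ring

theorem StepOK.norm_rem (o : StepOK S p y η st Cx t x E) (hg : p.Good) (hy : Inp S y)
    (hη : 0 < η) (hη1 : η ≤ 1) (ht : 0 ≤ t) :
    ‖st.u * remK S p st t x E‖ ≤ remBd (p := p) η Cx * t ^ 3 := by
  have hvi : 0 ≤ p.v⁻¹ := inv_nonneg.mpr hg.v_pos.le
  have hQn : ∀ c i, ‖Qc p st c i‖ ≤ Qbd η := fun c i =>
    o.ready.norm_Q_le hg hy o.inv hη hη1 c i
  refine (norm_mul_le_of_le (proj_norm_le o.inv.u_proj) ((norm_sum_le _ _).trans
    (Finset.sum_le_sum fun c _ => (norm_sum_le _ _).trans (Finset.sum_le_sum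
      (g := fun _ => t ^ 3 * (p.v⁻¹ ^ 2 * (Cx * (Qbd η * Cx * Qbd η * Cx * Qbd η))
        + remQ (p := p) η Cx))
      fun i _ => ?_)))).trans (le_of_eq ?_)
  · refine (norm_add_le _ _).trans (le_trans (add_le_add
      (norm_smul_le_abs (norm_mul_le_of_le (o.x_ok c).2.2.1 ((S.norm_exp_le (o.m2 c i)).trans
        (norm_mul_le_of_le (norm_mul_le_of_le (norm_mul_le_of_le
          (norm_mul_le_of_le (hQn c i) (o.x_ok c).2.2.1) (hQn c i)) (o.x_ok c).2.2.1) (hQn c i)))))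
      (norm_mul_le_of_le
        ((CStarAlgebra.norm_le_one_iff_of_nonneg _ (o.h_nonneg c)).mpr (o.h_le c))
        ((S.norm_exp_le (o.E_mem c i)).trans (o.E_norm c i)))) (le_of_eq ?_))
    rw [abs_of_nonneg (by positivity : 0 ≤ t ^ 3 * p.v⁻¹ ^ 2)]
    ring
  · simp [remBd]
    ring

theorem StepOK.Psi_le (o : StepOK S p y η st Cx t x E) (hg : p.Good) (hy : Inp S y)
    (hη : 0 < η) (hη1 : η ≤ 1) (ht : 0 ≤ t) (ht1 : t ≤ 1) (hbd : ‖st.bd‖ ≤ Kbd p η) :
    Psi S p (moved st t x (newBd S p st t x E)) ≤ Psi S p st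
      + t * (2 * S.rtau (st.bd * linK S p st x))
      + t ^ 2 * (2 * S.rtau (st.bd * (st.u * ∑ c, quadTerm S p st c (x c)))
          + 2 * S.n2 (linK S p st x) ^ 2)
      + (2 * Kbd p η * remBd (p := p) η Cx
          + 2 * (quadBd (p := p) η Cx + remBd (p := p) η Cx) ^ 2) * t ^ 3 := by
  set Qu := st.u * ∑ c, quadTerm S p st c (x c) with hQu
  set Rm := st.u * remK S p st t x E with hRm
  set Cq := quadBd (p := p) η Cx with hCq
  set Cr := remBd (p := p) η Cx with hCr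
  set z := st.bd + incK S p st t x E with hz
  have hQun : ‖Qu‖ ≤ Cq := o.norm_quad hg hy hη hη1
  have hRn : ‖Rm‖ ≤ Cr * t ^ 3 := o.norm_rem hg hy hη hη1 ht
  have hbd' : |S.rtau (st.bd * Rm)| ≤ Kbd p η * (Cr * t ^ 3) :=
    (abs_rtau_le _).trans (norm_mul_le_of_le hbd hRn)
  have hrest : S.n2 (t ^ 2 • Qu + Rm) ≤ t ^ 2 * (Cq + Cr) := by
    refine (S.n2_le_norm _).trans ((norm_add_le _ _).trans ?_)
    have h3 : t ^ 3 ≤ t ^ 2 := pow_le_pow_of_le_one ht ht1 (by norm_num)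
    have h4 := norm_smul_le_abs (s := t ^ 2) hQun
    rw [abs_of_nonneg (sq_nonneg t)] at h4
    have hCr0 : 0 ≤ Cr := by
      rw [hCr, remBd, remQ]
      have := hg.v_pos
      have hCx : 0 ≤ Cx ∨ p.r = 0 := by
        rcases Nat.eq_zero_or_pos p.r with h | h
        · exact Or.inr h
        · exact Or.inl ((norm_nonneg _).trans (o.x_ok ⟨0, h⟩).2.2.1)
      have hQ : 0 < Qbd η := by unfold Qbd; positivity
      rcases hCx with h | h
      · positivity
      · simp [h]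
    have h5 := mul_le_mul_of_nonneg_left h3 hCr0
    linarith [hRn]
  have hlin : S.n2 (t • linK S p st x) = t * S.n2 (linK S p st x) := by
    rw [← Complex.coe_smul, S.n2_smul, Complex.norm_real, Real.norm_of_nonneg ht]
  have hI1 : S.n2 (incK S p st t x E) ≤ t * S.n2 (linK S p st x) + t ^ 2 * (Cq + Cr) := by
    rw [incK, add_assoc]
    exact (S.n2_add_le _ _).trans (add_le_add hlin.le hrest)
  have hI2 : S.n2 (incK S p st t x E) ^ 2
      ≤ t ^ 2 * (2 * S.n2 (linK S p st x) ^ 2) + 2 * (Cq + Cr) ^ 2 * t ^ 3 := by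
    have h6 : t ^ 4 ≤ t ^ 3 := pow_le_pow_of_le_one ht ht1 (by norm_num)
    have h7 := mul_le_mul_of_nonneg_left h6 (by positivity : 0 ≤ 2 * (Cq + Cr) ^ 2)
    have h8 := pow_le_pow_left₀ (S.n2_nonneg _) hI1 2
    have h9 := sq_nonneg (t * S.n2 (linK S p st x) - t ^ 2 * (Cq + Cr))
    linarith
  have hbn : S.n2 (newBd S p st t x E) ^ 2 ≤ S.n2 z ^ 2 := by
    have h1 : S.n2 (newBd S p st t x E) ≤ S.n2 (CFC.abs z) :=
      (S.n2_mul_le _ _).trans (mul_le_of_le_one_left (S.n2_nonneg _) (proj_norm_le o.inv.u_proj))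
    refine (pow_le_pow_left₀ (S.n2_nonneg _) h1 2).trans (le_of_eq ?_)
    rw [S.n2_sq, S.n2_sq, (IsSelfAdjoint.of_nonneg (CFC.abs_nonneg z)).star_eq, CFC.abs_mul_abs]
  have hbI : S.rtau (st.bd * incK S p st t x E) = t * S.rtau (st.bd * linK S p st x)
      + t ^ 2 * S.rtau (st.bd * Qu) + S.rtau (st.bd * Rm) := by
    rw [incK, mul_add, mul_add, mul_smul_comm, mul_smul_comm, rtau_add, rtau_add, rtau_smul,
      rtau_smul]
  have h1 : S.n2 z ^ 2 = S.n2 st.bd ^ 2 + 2 * S.rtau (st.bd * incK S p st t x E)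
      + S.n2 (incK S p st t x E) ^ 2 := n2_add_sq (IsSelfAdjoint.of_nonneg o.inv.bd_nonneg)
  change p.thrK ^ 2 * S.rtau st.g2 + S.n2 (newBd S p st t x E) ^ 2 ≤ _
  unfold Psi
  rw [hbI] at h1
  linarith [le_abs_self (S.rtau (st.bd * Rm))]

theorem StepOK.Pot_le (o : StepOK S p y η st Cx t x E) (b : Op H) :
    Pot S p (moved st t x b) ≤ Pot S p st
      + t * ∑ c, ∑ i, p.v⁻¹ * S.rtau (Qc p st c i * x c * Qc p st c i)
      + t ^ 2 * ∑ c, ∑ i, p.v⁻¹ ^ 2
          * S.rtau (Qc p st c i * x c * Qc p st c i * x c * Qc p st c i)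
      + p.r * (2 * remQ (p := p) η Cx) * t ^ 3 := by
  have e : ∀ c i, S.rtau (Qc p (moved st t x b) c i + (2 : ℝ) • (1 : Op H))
      ≤ S.rtau (Qc p st c i + (2 : ℝ) • (1 : Op H))
        + t * (p.v⁻¹ * S.rtau (Qc p st c i * x c * Qc p st c i))
        + t ^ 2 * (p.v⁻¹ ^ 2 * S.rtau (Qc p st c i * x c * Qc p st c i * x c * Qc p st c i))
        + remQ (p := p) η Cx * t ^ 3 := by
    intro c i
    change S.rtau (Qop p.v 2 (st.W i) (st.h c + t • x c) + _) ≤ _
    rw [o.E_eq c i, rtau_add, rtau_add, rtau_add, rtau_add, rtau_smul, rtau_smul, rtau_add]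
    have := (le_abs_self _).trans ((abs_rtau_le (S := S) (E c i)).trans (o.E_norm c i))
    linarith
  unfold Pot
  refine (Finset.sum_le_sum fun c _ => Finset.sum_le_sum fun i _ => e c i).trans (le_of_eq ?_)
  simp only [Finset.sum_add_distrib, ← Finset.mul_sum, Finset.sum_const, Finset.card_univ,
    Fintype.card_fin, nsmul_eq_mul, Nat.cast_ofNat]
  ring

theorem StepOK.Clock_eq (o : StepOK S p y η st Cx t x E) (b : Op H) :
    Clock S (moved st t x b) = Clock S st
      + t * ∑ c, S.rtau ((2 : ℝ) • x c - (2 : ℝ) • (st.h c * x c))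
      - t ^ 2 * ∑ c, S.rtau (x c * x c) := by
  unfold Clock
  rw [Finset.mul_sum, Finset.mul_sum, ← Finset.sum_add_distrib, ← Finset.sum_sub_distrib]
  refine Finset.sum_congr rfl fun c _ => ?_
  change S.rtau ((2 : ℝ) • (st.h c + t • x c) - (st.h c + t • x c) * (st.h c + t • x c)) = _
  have hcomm : x c * st.h c = st.h c * x c := S.A_comm _ (o.x_ok c).1 _ (o.inv.h_mem c)
  simp only [mul_add, add_mul, mul_smul_comm, smul_mul_assoc, smul_add, hcomm, smul_smul,
    rtau_sub, rtau_add, rtau_smul]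
  ring

theorem exists_step (hg : p.Good) (hy : Inp S y) (hη : 0 < η) (hη1 : η ≤ 1) (ρ : ℝ)
    {Cx : ℝ} (hCx : 0 ≤ Cx) :
    ∃ C t₀ : ℝ, 0 < t₀ ∧ ∀ st : St H p.r, Inv S p y st → Ready S p η y st →
      ‖st.bd‖ ≤ Kbd p η → ∀ x : Fin p.r → Op H,
        (∀ c, x c ∈ S.A ∧ IsSelfAdjoint (x c) ∧ ‖x c‖ ≤ Cx ∧ x c * st.act c = x c) →
        ∀ t : ℝ, 0 < t → t ≤ t₀ → ∃ st' : St H p.r, Inv S p y st' ∧
          Zpot S p ρ η y st' ≤ Zpot S p ρ η y st + t * linZ S p ρ st x + t ^ 2 * quadZ S p ρ st x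
            + C * t ^ 3 := by
  have hv0 := hg.v_pos
  have hmin := hg.hmin_pos
  have hQb : (0 : ℝ) < Qbd η := by unfold Qbd; positivity
  have hk : 0 < p.v⁻¹ * Qbd η := by positivity
  refine ⟨(2 * Kbd p η * remBd (p := p) η Cx + 2 * (quadBd (p := p) η Cx + remBd (p := p) η Cx) ^ 2)
      / Real.sqrt ρ + p.r * (2 * remQ (p := p) η Cx),
    min 1 (min (p.hmin / (Cx + 1)) (min ((1 / 2) / (Cx + 1)) (min ((η / 4 * p.v) / (Cx + 1))
      ((1 / 2) / (p.v⁻¹ * Qbd η) / (Cx + 1))))),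
    lt_min one_pos (lt_min (by positivity) (lt_min (by positivity) (lt_min (by positivity)
      (by positivity)))), ?_⟩
  intro st hv hR hbd x hx t ht htt
  simp only [le_min_iff] at htt
  obtain ⟨ht1, htt1, htt2, htt3, htt4⟩ := htt
  have hc1 := mul_le_of_le_div ht.le hCx htt1
  have hc2 := mul_le_of_le_div ht.le hCx htt2
  have hc3 : 3 * (p.v⁻¹ * (t * Cx)) < η := by
    have h := mul_le_mul_of_nonneg_left (mul_le_of_le_div ht.le hCx htt3) (inv_pos.mpr hv0).le
    have e : p.v⁻¹ * (η / 4 * p.v) = η / 4 := by field_simp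
    linarith
  have hc4 : p.v⁻¹ * Qbd η * (t * Cx) ≤ 1 / 2 := by
    have h := mul_le_mul_of_nonneg_left (mul_le_of_le_div ht.le hCx htt4) hk.le
    rwa [mul_div_cancel₀ _ hk.ne'] at h
  have hmv := fun c => move_ok hg hy hv hR hη hη1 c (hx c).1 (hx c).2.1 (hx c).2.2.1 (hx c).2.2.2
    ht.le hc1 hc2 hc3 hc4
  choose h0 h1 hq using hmv
  choose hok E hE hEm hEn using hq
  have o : StepOK S p y η st Cx t x E := ⟨hv, hR, hx, h0, h1, hok, hEm, hEn, hE⟩
  refine ⟨moved st t x (newBd S p st t x E), o.inv', ?_⟩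
  have hPsi := o.Psi_le hg hy hη hη1 ht.le ht1 hbd
  have hPot := o.Pot_le (newBd S p st t x E)
  have hClock := o.Clock_eq (newBd S p st t x E)
  have hD : DlSum p y (moved st t x (newBd S p st t x E)) = DlSum p y st := rfl
  have hsum := div_le_div_of_nonneg_right hPsi (Real.sqrt_nonneg ρ)
  simp only [div_eq_mul_inv] at hsum
  unfold Zpot linZ quadZ
  rw [hD, hClock]
  simp only [div_eq_mul_inv]
  linarith [hPot]

end Walk

end Vale.Agent.P078
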