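import Vale.Agent.P078.Walk.StdData
import Vale.Agent.P078.Walk.Taylor

/-!
# P078: the killed row and the quadratic forms of one move

`rowOp` is the operator on `L²(A)` of the linear part of the killed quantity in one colour, `formOp`
the operator of the quadratic part of the change of the potential.
-/

noncomputable section

namespace Vale.Agent.P078

open scoped InnerProductSpace

universe u

variable {H : Type u} [NormedAddCommGroup H] [InnerProductSpace ℂ H] [CompleteSpace H]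

namespace Walk

variable (S : Std H) (p : Par)

/-- The multiplier part of the killed row. -/
def rowMult {r : ℕ} (st : St H r) (c : Fin r) : Op H :=
  st.u * (∑ i, (qc S p st c i + p.σ • (1 : Op H) + p.κ • (1 - st.h c - st.h c))
    - (p.σ / 3) • (1 : Op H))

/-- The killed row at colour `c`. -/
def rowOp {r : ℕ} (st : St H r) (c : Fin r) : S.L2A →L[ℂ] S.L2A :=
  S.mul (rowMult S p st c) * S.mul (st.act c)
    + ∑ i, p.v⁻¹ • (S.mul (st.u * st.h c) * S.T (Qc p st c i) (Qc p st c i) * S.mul (st.act c))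

/-- The operator of the quadratic part of the change of the potential in colour `c`. -/
def formOp {r : ℕ} (ρ : ℝ) (st : St H r) (c : Fin r) : S.L2A →L[ℂ] S.L2A :=
  (2 / Real.sqrt ρ) • (∑ i, (p.v⁻¹ • (S.mul st.bd * S.T (Qc p st c i) (Qc p st c i))
      + p.v⁻¹ ^ 2 • S.T (Qc p st c i) (Qc p st c i * (st.bd * st.h c) * Qc p st c i)
      - p.κ • S.mul st.bd))
    + ∑ i, p.v⁻¹ ^ 2 • S.T (Qc p st c i) (Qc p st c i * Qc p st c i) - 1

/-- A uniform bound for the killed row. -/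
def CRow (η : ℝ) : ℝ :=
  2 * (Qbd η + |p.σ| + 3 * |p.κ|) + |p.σ / 3| + 2 * (|p.v⁻¹| * Qbd η ^ 2)

/-- A uniform bound for the operator of the quadratic part. -/
def CForm (ρ η : ℝ) : ℝ :=
  (2 / Real.sqrt ρ) * (2 * (|p.v⁻¹| * (Kbd p η * Qbd η ^ 2)
      + |p.v⁻¹ ^ 2| * (Qbd η * (Qbd η * Kbd p η * Qbd η)) + |p.κ| * Kbd p η))
    + 2 * (|p.v⁻¹ ^ 2| * (Qbd η * (Qbd η * Qbd η))) + 1

variable {S p} {y : Op H} {η : ℝ} {st : St H p.r}

theorem op_smul_norm_le {G : S.L2A →L[ℂ] S.L2A} {C : ℝ} (t : ℝ) (h : ‖G‖ ≤ C) :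
    ‖t • G‖ ≤ |t| * C := by
  have e : (t : ℂ) • G = t • G := Complex.coe_smul t G
  rw [← e]
  refine (ContinuousLinearMap.opNorm_smul_le (t : ℂ) G).trans ?_
  rw [Complex.norm_real, Real.norm_eq_abs]
  exact mul_le_mul_of_nonneg_left h (abs_nonneg t)

theorem op_mul_norm_le {F G : S.L2A →L[ℂ] S.L2A} {C D : ℝ} (hF : ‖F‖ ≤ C) (hG : ‖G‖ ≤ D) :
    ‖F * G‖ ≤ C * D :=
  (_root_.norm_mul_le F G).trans (_root_.mul_le_mul hF hG (norm_nonneg G) ((norm_nonneg F).trans hF))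

theorem op_add_norm_le {F G : S.L2A →L[ℂ] S.L2A} {C D : ℝ} (hF : ‖F‖ ≤ C) (hG : ‖G‖ ≤ D) :
    ‖F + G‖ ≤ C + D :=
  (ContinuousLinearMap.opNorm_add_le F G).trans (add_le_add hF hG)

theorem op_sub_norm_le {F G : S.L2A →L[ℂ] S.L2A} {C D : ℝ} (hF : ‖F‖ ≤ C) (hG : ‖G‖ ≤ D) :
    ‖F - G‖ ≤ C + D := by
  rw [sub_eq_add_neg]
  exact op_add_norm_le hF ((ContinuousLinearMap.opNorm_neg G).trans_le hG)

theorem op_sum_norm_le (F : Fin 2 → (S.L2A →L[ℂ] S.L2A)) {C : ℝ} (h : ∀ i, ‖F i‖ ≤ C) :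
    ‖∑ i, F i‖ ≤ 2 * C := by
  rw [Fin.sum_univ_two, two_mul]
  exact op_add_norm_le (h 0) (h 1)

theorem op_mul_smul (t : ℝ) (F G : S.L2A →L[ℂ] S.L2A) : F * (t • G) = t • (F * G) := by
  have e : (t : ℂ) • G = t • G := Complex.coe_smul t G
  have e' : (t : ℂ) • (F * G) = t • (F * G) := Complex.coe_smul t (F * G)
  rw [← e, ← e', mul_smul_comm]

theorem op_apply (F G : S.L2A →L[ℂ] S.L2A) (v : S.L2A) : (F * G) v = F (G v) := rfl

theorem op_one_apply (v : S.L2A) : (1 : S.L2A →L[ℂ] S.L2A) v = v := rfl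

theorem alg_smul_mem (t : ℝ) {G : S.L2A →L[ℂ] S.L2A} (h : G ∈ S.alg) : t • G ∈ S.alg :=
  (stdData S).smul_mem_B t h

theorem sa_mul_of_mem {a b : Op H} (ha : a ∈ S.A) (hb : b ∈ S.A) (ha' : IsSelfAdjoint a)
    (hb' : IsSelfAdjoint b) : IsSelfAdjoint (a * b) :=
  (ha'.commute_iff hb').mp (S.A_comm a ha b hb)

theorem Inv.h_sa (hv : Inv S p y st) (c : Fin p.r) : IsSelfAdjoint (st.h c) :=
  IsSelfAdjoint.of_nonneg (hv.h_nonneg c)

theorem Inv.norm_h (hv : Inv S p y st) (c : Fin p.r) : ‖st.h c‖ ≤ 1 :=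
  (CStarAlgebra.norm_le_one_iff_of_nonneg _ (hv.h_nonneg c)).mpr (hv.h_le c)

theorem Inv.Q_sa (hv : Inv S p y st) (c : Fin p.r) (i : Fin 2) : IsSelfAdjoint (Qc p st c i) :=
  (hv.ok c i).isSelfAdjoint_Q

theorem Inv.rowMult_mem (hv : Inv S p y st) (c : Fin p.r) : rowMult S p st c ∈ S.A :=
  mul_mem hv.u_mem (sub_mem (sum_mem fun _ _ => add_mem (add_mem (S.exp_mem _)
    (smul_mem_A' _ (one_mem _))) (smul_mem_A' _ (sub_mem (sub_mem (one_mem _) (hv.h_mem c))
      (hv.h_mem c)))) (smul_mem_A' _ (one_mem _)))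

theorem Inv.rowMult_sa (hv : Inv S p y st) (c : Fin p.r) : IsSelfAdjoint (rowMult S p st c) := by
  refine sa_mul_of_mem hv.u_mem ?_ hv.u_proj.isSelfAdjoint ?_
  · exact sub_mem (sum_mem fun _ _ => add_mem (add_mem (S.exp_mem _)
      (smul_mem_A' _ (one_mem _))) (smul_mem_A' _ (sub_mem (sub_mem (one_mem _) (hv.h_mem c))
        (hv.h_mem c)))) (smul_mem_A' _ (one_mem _))
  · refine IsSelfAdjoint.sub (isSelfAdjoint_sum _ fun i _ => ?_)
      ((IsSelfAdjoint.all _).smul (IsSelfAdjoint.one _))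
    exact ((S.exp_isSelfAdjoint (hv.Q_mem c i) (hv.Q_sa c i)).add
      ((IsSelfAdjoint.all _).smul (IsSelfAdjoint.one _))).add
      ((IsSelfAdjoint.all _).smul (((IsSelfAdjoint.one _).sub (hv.h_sa c)).sub (hv.h_sa c)))

theorem Ready.norm_rowMult (hR : Ready S p η y st) (hg : p.Good) (hy : Inp S y) (hv : Inv S p y st)
    (hη : 0 < η) (hη1 : η ≤ 1) (c : Fin p.r) :
    ‖rowMult S p st c‖ ≤ 2 * (Qbd η + |p.σ| + 3 * |p.κ|) + |p.σ / 3| := by
  have h1 : ‖(1 : Op H)‖ ≤ 1 := ContinuousLinearMap.norm_id_le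
  refine (norm_mul_le_of_le (proj_norm_le hv.u_proj) ((norm_sub_le _ _).trans (add_le_add
    ((norm_sum_le _ _).trans (Finset.sum_le_sum (g := fun _ => Qbd η + |p.σ| + 3 * |p.κ|)
      fun i _ => ?_)) (norm_smul_le_abs h1)))).trans (le_of_eq (by simp; ring))
  refine (norm_add_le _ _).trans (add_le_add ((norm_add_le _ _).trans (add_le_add
    ((S.norm_exp_le (hv.Q_mem c i)).trans (hR.norm_Q_le hg hy hv hη hη1 c i))
    ((norm_smul_le_abs h1).trans (le_of_eq (mul_one _))))) ?_)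
  refine (norm_smul_le_abs ((norm_sub_le _ _).trans (add_le_add ((norm_sub_le _ _).trans
    (add_le_add h1 (hv.norm_h c))) (hv.norm_h c)))).trans (le_of_eq ?_)
  ring

theorem Inv.rowOp_mem (hv : Inv S p y st) (c : Fin p.r) : rowOp S p st c ∈ S.alg :=
  add_mem (mul_mem (Std.mul_mem_alg (hv.rowMult_mem c)) (Std.mul_mem_alg (hv.act_mem c)))
    (sum_mem fun i _ => alg_smul_mem _ (mul_mem (mul_mem
      (Std.mul_mem_alg (mul_mem hv.u_mem (hv.h_mem c))) (Std.T_mem_alg (hv.Q_mem c i) (hv.Q_mem c i)))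
      (Std.mul_mem_alg (hv.act_mem c))))

theorem Inv.star_rowOp (hv : Inv S p y st) (c : Fin p.r) : star (rowOp S p st c)
    = S.mul (st.act c) * S.mul (rowMult S p st c)
      + ∑ i, p.v⁻¹ • (S.mul (st.act c) * (S.T (Qc p st c i) (Qc p st c i)
          * S.mul (st.u * st.h c))) := by
  have e1 : star (S.mul (st.act c)) = S.mul (st.act c) :=
    (S.mul_isSelfAdjoint (hv.act_proj c).isSelfAdjoint).star_eq
  have e2 : star (S.mul (rowMult S p st c)) = S.mul (rowMult S p st c) :=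
    (S.mul_isSelfAdjoint (hv.rowMult_sa c)).star_eq
  have e3 : star (S.mul (st.u * st.h c)) = S.mul (st.u * st.h c) :=
    (S.mul_isSelfAdjoint (sa_mul_of_mem hv.u_mem (hv.h_mem c) hv.u_proj.isSelfAdjoint
      (hv.h_sa c))).star_eq
  have esum : ∀ F : Fin 2 → (S.L2A →L[ℂ] S.L2A),
      star (∑ i, F i) = ∑ i, star (F i) := fun F => by
    rw [Fin.sum_univ_two, Fin.sum_univ_two]
    exact star_add (F 0) (F 1)
  have esmul : ∀ (t : ℝ) (F : S.L2A →L[ℂ] S.L2A), star (t • F) = t • star F := fun t F => by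
    have e : (t : ℂ) • F = t • F := Complex.coe_smul t F
    have e' : (t : ℂ) • star F = t • star F := Complex.coe_smul t (star F)
    rw [← e, ← e', show star ((t : ℂ) • F) = star (t : ℂ) • star F from star_smul _ F,
      show star (t : ℂ) = (t : ℂ) from Complex.conj_ofReal t]
  have hmul : ∀ F G : S.L2A →L[ℂ] S.L2A, star (F * G) = star G * star F := fun F G => star_mul F G
  refine (star_add (S.mul (rowMult S p st c) * S.mul (st.act c))
    (∑ i, p.v⁻¹ • (S.mul (st.u * st.h c) * S.T (Qc p st c i) (Qc p st c i)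
      * S.mul (st.act c)))).trans ?_
  rw [hmul, e1, e2, esum]
  congr 1
  refine Finset.sum_congr rfl fun i _ => ?_
  rw [esmul, hmul, hmul, e1, e3, S.T_star (hv.Q_mem c i) (hv.Q_mem c i), (hv.Q_sa c i).star_eq]

theorem Ready.rowOp_bounds (hR : Ready S p η y st) (hg : p.Good) (hy : Inp S y)
    (hv : Inv S p y st) (hη : 0 < η) (hη1 : η ≤ 1) (c : Fin p.r) :
    ‖rowOp S p st c‖ ≤ CRow p η ∧ RB S (rowOp S p st c) (CRow p η)
      ∧ RB S (star (rowOp S p st c)) (CRow p η) ∧ S.mul st.u * rowOp S p st c = rowOp S p st c := by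
  have hr := hR.norm_rowMult hg hy hv hη hη1 c
  have hr0 := (norm_nonneg _).trans hr
  have ha : ‖st.act c‖ ≤ 1 := proj_norm_le (hv.act_proj c)
  have huh : ‖st.u * st.h c‖ ≤ 1 := by
    simpa using norm_mul_le_of_le (proj_norm_le hv.u_proj) (hv.norm_h c)
  have hQ : ∀ i, ‖Qc p st c i‖ ^ 2 ≤ Qbd η ^ 2 := fun i =>
    pow_le_pow_left₀ (norm_nonneg _) (hR.norm_Q_le hg hy hv hη hη1 c i) 2
  have rba : RB S (S.mul (st.act c)) 1 :=
    (rb_mul (hv.act_mem c) (hv.act_proj c).isSelfAdjoint).mono ha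
  have rbm : RB S (S.mul (rowMult S p st c)) (2 * (Qbd η + |p.σ| + 3 * |p.κ|) + |p.σ / 3|) :=
    (rb_mul (hv.rowMult_mem c) (hv.rowMult_sa c)).mono hr
  have rbu : RB S (S.mul (st.u * st.h c)) 1 :=
    (rb_mul (mul_mem hv.u_mem (hv.h_mem c)) (sa_mul_of_mem hv.u_mem (hv.h_mem c)
      hv.u_proj.isSelfAdjoint (hv.h_sa c))).mono huh
  have rbt : ∀ i, RB S (S.T (Qc p st c i) (Qc p st c i)) (Qbd η ^ 2) := fun i =>
    (rb_T (hv.Q_mem c i) (hv.Q_sa c i)).mono (hQ i)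
  refine ⟨?_, ?_, ?_, ?_⟩
  · refine (op_add_norm_le (op_mul_norm_le ((S.norm_mul_le _).trans hr) ((S.norm_mul_le _).trans ha))
      (op_sum_norm_le _ (C := |p.v⁻¹| * Qbd η ^ 2) fun i => ?_)).trans (le_of_eq ?_)
    · refine (op_smul_norm_le _ (op_mul_norm_le (op_mul_norm_le ((S.norm_mul_le _).trans huh)
        ((S.norm_T_le (hv.Q_mem c i)).trans ?_)) ((S.norm_mul_le _).trans ha))).trans
        (le_of_eq (by ring : |p.v⁻¹| * (1 * Qbd η ^ 2 * 1) = |p.v⁻¹| * Qbd η ^ 2))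
      rw [← sq]
      exact hQ i
    · simp [CRow]
  · refine ((rbm.comp rba).add (rb_sum _ fun i _ =>
      ((rbu.comp (rbt i)).comp rba).smul p.v⁻¹)).mono (le_of_eq ?_)
    simp [CRow]
  · rw [hv.star_rowOp c]
    refine ((rba.comp rbm).add (rb_sum _ fun i _ =>
      (rba.comp ((rbt i).comp rbu)).smul p.v⁻¹)).mono (le_of_eq ?_)
    simp [CRow]
  · have e1 : S.mul st.u * S.mul (rowMult S p st c) = S.mul (rowMult S p st c) := by
      rw [← S.mul_mul hv.u_mem (hv.rowMult_mem c), rowMult, ← mul_assoc,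
        hv.u_proj.isIdempotentElem.eq]
    have e2 : S.mul st.u * S.mul (st.u * st.h c) = S.mul (st.u * st.h c) := by
      rw [← S.mul_mul hv.u_mem (mul_mem hv.u_mem (hv.h_mem c)), ← mul_assoc,
        hv.u_proj.isIdempotentElem.eq]
    rw [rowOp, mul_add, ← mul_assoc, e1, Finset.mul_sum]
    congr 1
    refine Finset.sum_congr rfl fun i _ => ?_
    rw [op_mul_smul, ← mul_assoc, ← mul_assoc, e2]

theorem Inv.formOp_mem (hv : Inv S p y st) (ρ : ℝ) (c : Fin p.r) : formOp S p ρ st c ∈ S.alg :=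
  sub_mem (add_mem (alg_smul_mem _ (sum_mem fun i _ => sub_mem (add_mem
      (alg_smul_mem _ (mul_mem (Std.mul_mem_alg hv.bd_mem)
        (Std.T_mem_alg (hv.Q_mem c i) (hv.Q_mem c i))))
      (alg_smul_mem _ (Std.T_mem_alg (hv.Q_mem c i) (mul_mem (mul_mem (hv.Q_mem c i)
        (S.A_le (mul_mem hv.bd_mem (hv.h_mem c)))) (hv.Q_mem c i)))))
      (alg_smul_mem _ (Std.mul_mem_alg hv.bd_mem))))
    (sum_mem fun i _ => alg_smul_mem _
      (Std.T_mem_alg (hv.Q_mem c i) (mul_mem (hv.Q_mem c i) (hv.Q_mem c i))))) (one_mem _)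

theorem Ready.norm_formOp (hR : Ready S p η y st) (hg : p.Good) (hy : Inp S y)
    (hv : Inv S p y st) (hη : 0 < η) (hη1 : η ≤ 1) (hbd : ‖st.bd‖ ≤ Kbd p η) (ρ : ℝ)
    (c : Fin p.r) : ‖formOp S p ρ st c‖ ≤ CForm p ρ η := by
  have hQ : ∀ i, ‖Qc p st c i‖ ≤ Qbd η := fun i => hR.norm_Q_le hg hy hv hη hη1 c i
  have hK0 : 0 ≤ Kbd p η := (norm_nonneg _).trans hbd
  have hT : ∀ (i : Fin 2) {Y : Op H} {C : ℝ}, Y ∈ S.M → ‖Y‖ ≤ C →
      ‖S.T (Qc p st c i) Y‖ ≤ Qbd η * C := fun i {Y C} hY hC =>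
    (S.norm_T_le hY).trans (_root_.mul_le_mul (hQ i) hC (norm_nonneg Y)
      ((norm_nonneg _).trans (hQ i)))
  have hb : ‖S.mul st.bd‖ ≤ Kbd p η := (S.norm_mul_le _).trans hbd
  have hone : ‖(1 : S.L2A →L[ℂ] S.L2A)‖ ≤ 1 := ContinuousLinearMap.norm_id_le
  refine op_sub_norm_le (op_add_norm_le ?_ ?_) hone
  · refine (op_smul_norm_le _ (op_sum_norm_le _ (C := |p.v⁻¹| * (Kbd p η * Qbd η ^ 2)
        + |p.v⁻¹ ^ 2| * (Qbd η * (Qbd η * Kbd p η * Qbd η)) + |p.κ| * Kbd p η)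
      fun i => ?_)).trans (le_of_eq ?_)
    · exact op_sub_norm_le (op_add_norm_le
        (op_smul_norm_le _ ((op_mul_norm_le hb (hT i (hv.Q_mem c i) (hQ i))).trans
          (le_of_eq (by ring))))
        (op_smul_norm_le _ (hT i (mul_mem (mul_mem (hv.Q_mem c i)
          (S.A_le (mul_mem hv.bd_mem (hv.h_mem c)))) (hv.Q_mem c i))
          ((norm_mul_le_of_le (norm_mul_le_of_le (hQ i) (norm_mul_le_of_le hbd (hv.norm_h c)))
            (hQ i)).trans (le_of_eq (by ring))))))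
        (op_smul_norm_le _ hb)
    · rw [abs_of_nonneg (by positivity : (0 : ℝ) ≤ 2 / Real.sqrt ρ)]
  · exact op_sum_norm_le _ (C := |p.v⁻¹ ^ 2| * (Qbd η * (Qbd η * Qbd η))) fun i =>
      op_smul_norm_le _ (hT i (mul_mem (hv.Q_mem c i) (hv.Q_mem c i))
        (norm_mul_le_of_le (hQ i) (hQ i)))

/-! ### The values on vectors of the MASA -/

theorem av_smul_real (t : ℝ) {a : Op H} (ha : a ∈ S.A) : S.av (t • a) = t • S.av a := by
  rw [← Complex.coe_smul, Std.av_smul _ ha]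
  exact Complex.coe_smul t (S.av a)

theorem av_sum_eq {ι : Type*} (s : Finset ι) (a : ι → Op H) (ha : ∀ i ∈ s, a i ∈ S.A) :
    S.av (∑ i ∈ s, a i) = ∑ i ∈ s, S.av (a i) := by
  classical
  induction s using Finset.induction with
  | empty =>
    have := av_smul_real (S := S) 0 (zero_mem S.A)
    simpa using this
  | insert i s hi ih =>
    rw [Finset.sum_insert hi, Finset.sum_insert hi,
      S.av_add (ha i (Finset.mem_insert_self i s))
        (sum_mem fun j hj => ha j (Finset.mem_insert_of_mem hj)),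
      ih fun j hj => ha j (Finset.mem_insert_of_mem hj)]

theorem av_sub_eq {a b : Op H} (ha : a ∈ S.A) (hb : b ∈ S.A) :
    S.av (a - b) = S.av a - S.av b := by
  rw [eq_sub_iff_add_eq, ← S.av_add (sub_mem ha hb) hb, sub_add_cancel]

theorem Inv.rowOp_av (hv : Inv S p y st) (c : Fin p.r) {x : Op H} (hx : x ∈ S.A)
    (hxa : x * st.act c = x) :
    rowOp S p st c (S.av x) = S.av (st.u * linTerm S p st c x) := by
  have hax : st.act c * x = x := by rw [S.A_comm _ (hv.act_mem c) _ hx, hxa]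
  have hm : ∀ i, rowMult S p st c * x ∈ S.A ∧ st.u * st.h c * S.exp (Qc p st c i * x * Qc p st c i)
      ∈ S.A := fun i => ⟨mul_mem (hv.rowMult_mem c) hx,
        mul_mem (mul_mem hv.u_mem (hv.h_mem c)) (S.exp_mem _)⟩
  have e1 : rowOp S p st c (S.av x) = S.av (rowMult S p st c * x)
      + ∑ i, p.v⁻¹ • S.av (st.u * st.h c * S.exp (Qc p st c i * x * Qc p st c i)) := by
    simp only [rowOp, add_apply, sum_apply, smul_apply, op_apply]
    rw [S.mul_av (hv.act_mem c) hx, hax, S.mul_av (hv.rowMult_mem c) hx]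
    congr 1
    refine Finset.sum_congr rfl fun i _ => ?_
    rw [S.T_av (hv.Q_mem c i) (hv.Q_mem c i) hx, (hv.Q_sa c i).star_eq,
      S.mul_av (mul_mem hv.u_mem (hv.h_mem c)) (S.exp_mem _)]
  have e2 : st.u * linTerm S p st c x = rowMult S p st c * x
      + ∑ i, p.v⁻¹ • (st.u * st.h c * S.exp (Qc p st c i * x * Qc p st c i)) := by
    have hq : ∀ i, qc S p st c i * x = x * qc S p st c i := fun i =>
      S.A_comm _ (S.exp_mem _) _ hx
    have hhx : st.h c * x = x * st.h c := S.A_comm _ (hv.h_mem c) _ hx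
    simp only [linTerm, rowMult, Fin.sum_univ_two, mul_add, mul_sub, add_mul, sub_mul, mul_assoc,
      mul_smul_comm, smul_mul_assoc, mul_one, hq, hhx]
    abel
  rw [e1, e2, S.av_add (mul_mem (hv.rowMult_mem c) hx)
    (sum_mem fun i _ => smul_mem_A' _ (hm i).2), av_sum_eq _ _ fun i _ => smul_mem_A' _ (hm i).2]
  congr 1
  exact Finset.sum_congr rfl fun i _ => (av_smul_real _ (hm i).2).symm

theorem linTerm_mem (hv : Inv S p y st) (c : Fin p.r) {x : Op H} (hx : x ∈ S.A) :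
    linTerm S p st c x ∈ S.A :=
  sub_mem (sum_mem fun _ _ => add_mem (add_mem
    (mul_mem hx (add_mem (S.exp_mem _) (smul_mem_A' _ (one_mem _))))
    (smul_mem_A' _ (mul_mem (hv.h_mem c) (S.exp_mem _))))
    (smul_mem_A' _ (sub_mem (mul_mem hx (sub_mem (one_mem _) (hv.h_mem c)))
      (mul_mem (hv.h_mem c) hx)))) (smul_mem_A' _ hx)

theorem Inv.n2_linK (hv : Inv S p y st) {x : Fin p.r → Op H}
    (hx : ∀ c, x c ∈ S.A ∧ x c * st.act c = x c) :
    S.n2 (linK S p st x) = ‖∑ c, rowOp S p st c (S.av (x c))‖ := by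
  have e : ∑ c, rowOp S p st c (S.av (x c)) = S.av (linK S p st x) := by
    rw [linK, Finset.mul_sum, av_sum_eq _ _ fun c _ => mul_mem hv.u_mem (linTerm_mem hv c (hx c).1)]
    exact Finset.sum_congr rfl fun c _ => hv.rowOp_av c (hx c).1 (hx c).2
  rw [e, S.norm_av (linK_mem hv fun c => (hx c).1)]

theorem inner_mul_av {a x : Op H} (ha : a ∈ S.A) (hx : x ∈ S.A) (hxs : IsSelfAdjoint x) :
    (inner ℂ (S.av x) (S.mul a (S.av x))).re = S.rtau (a * (x * x)) := by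
  rw [S.mul_av ha hx, S.inner_av hx (mul_mem ha hx), hxs.star_eq, Std.rtau, ← mul_assoc,
    S.A_comm x hx a ha, mul_assoc]

theorem inner_T_av {X Y x : Op H} (hX : X ∈ S.M) (hY : Y ∈ S.M) (hx : x ∈ S.A)
    (hXs : IsSelfAdjoint X) (hxs : IsSelfAdjoint x) :
    (inner ℂ (S.av x) (S.T X Y (S.av x))).re = S.rtau (x * (X * x * Y)) := by
  rw [S.T_av hX hY hx, S.inner_av hx (S.exp_mem _), hxs.star_eq, hXs.star_eq, Std.rtau,
    S.tau_mul_exp hx (mul_mem (mul_mem hX (S.A_le hx)) hY)]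

theorem Inv.inner_formOp (hv : Inv S p y st) (ρ : ℝ) (c : Fin p.r) {x : Op H} (hx : x ∈ S.A)
    (hxs : IsSelfAdjoint x) :
    (inner ℂ (S.av x) (formOp S p ρ st c (S.av x))).re
      = 2 * S.rtau (st.bd * (st.u * quadTerm S p st c x)) / Real.sqrt ρ
        + ∑ i, p.v⁻¹ ^ 2 * S.rtau (Qc p st c i * x * Qc p st c i * x * Qc p st c i)
        - S.rtau (x * x) := by
  have hbd : st.bd * st.u = st.bd := by rw [S.A_comm _ hv.bd_mem _ hv.u_mem, hv.bd_u]
  have hxM := S.A_le hx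
  have h1 : ∀ i, (inner ℂ (S.av x) ((S.mul st.bd * S.T (Qc p st c i) (Qc p st c i)) (S.av x))).re
      = S.rtau (st.bd * (x * S.exp (Qc p st c i * x * Qc p st c i))) := by
    intro i
    rw [op_apply, S.T_av (hv.Q_mem c i) (hv.Q_mem c i) hx,
      S.mul_av hv.bd_mem (S.exp_mem _), S.inner_av hx (mul_mem hv.bd_mem (S.exp_mem _)),
      hxs.star_eq, (hv.Q_sa c i).star_eq, Std.rtau, ← mul_assoc, S.A_comm _ hx _ hv.bd_mem,
      mul_assoc]
  have h2 : ∀ i, (inner ℂ (S.av x) (S.T (Qc p st c i)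
        (Qc p st c i * (st.bd * st.h c) * Qc p st c i) (S.av x))).re
      = S.rtau (st.bd * (st.h c * S.exp (Qc p st c i * x * Qc p st c i * x * Qc p st c i))) := by
    intro i
    have hQ := hv.Q_mem c i
    have hb := S.A_le (mul_mem hv.bd_mem (hv.h_mem c))
    have hm : Qc p st c i * x * Qc p st c i * x * Qc p st c i ∈ S.M :=
      mul_mem (mul_mem (mul_mem (mul_mem hQ hxM) hQ) hxM) hQ
    rw [inner_T_av hQ (mul_mem (mul_mem hQ hb) hQ) hx (hv.Q_sa c i) hxs, ← mul_assoc st.bd]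
    simp only [Std.rtau]
    rw [S.tau_mul_exp (mul_mem hv.bd_mem (hv.h_mem c)) hm]
    congr 1
    calc S.tau (x * (Qc p st c i * x * (Qc p st c i * (st.bd * st.h c) * Qc p st c i)))
        = S.tau (x * Qc p st c i * x * Qc p st c i * ((st.bd * st.h c) * Qc p st c i)) := by
          simp only [mul_assoc]
      _ = S.tau ((st.bd * st.h c) * Qc p st c i * (x * Qc p st c i * x * Qc p st c i)) :=
          S.tau_comm (mul_mem (mul_mem (mul_mem hxM hQ) hxM) hQ) (mul_mem hb hQ)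
      _ = _ := by simp only [mul_assoc]
  have h3 : ∀ i, (inner ℂ (S.av x) (S.T (Qc p st c i) (Qc p st c i * Qc p st c i) (S.av x))).re
      = S.rtau (Qc p st c i * x * Qc p st c i * x * Qc p st c i) := by
    intro i
    have hQ := hv.Q_mem c i
    rw [inner_T_av hQ (mul_mem hQ hQ) hx (hv.Q_sa c i) hxs]
    simp only [Std.rtau]
    congr 1
    calc S.tau (x * (Qc p st c i * x * (Qc p st c i * Qc p st c i)))
        = S.tau (x * Qc p st c i * x * Qc p st c i * Qc p st c i) := by simp only [mul_assoc]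
      _ = S.tau (Qc p st c i * (x * Qc p st c i * x * Qc p st c i)) :=
          S.tau_comm (mul_mem (mul_mem (mul_mem hxM hQ) hxM) hQ) hQ
      _ = _ := by simp only [mul_assoc]
  have h4 : (inner ℂ (S.av x) (S.av x)).re = S.rtau (x * x) := by
    rw [S.inner_av hx hx, hxs.star_eq]
    rfl
  rw [← mul_assoc, hbd]
  simp only [formOp, quadTerm, Fin.sum_univ_two, add_apply, sub_apply, smul_apply, op_one_apply,
    inner_add_right, inner_sub_right, ← Complex.coe_smul, inner_smul_right, Complex.add_re,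
    Complex.sub_re, Complex.re_ofReal_mul, h1, h2, h3, h4, inner_mul_av hv.bd_mem hx hxs]
  simp only [mul_add, mul_sub, mul_smul_comm, rtau_add, rtau_sub, Complex.coe_smul, rtau_smul]
  ring

theorem Inv.quadZ_eq (hv : Inv S p y st) (ρ : ℝ) {x : Fin p.r → Op H}
    (hx : ∀ c, x c ∈ S.A ∧ IsSelfAdjoint (x c) ∧ x c * st.act c = x c) :
    quadZ S p ρ st x = ∑ c, (inner ℂ (S.av (x c)) (formOp S p ρ st c (S.av (x c)))).re
      + 2 / Real.sqrt ρ * ‖∑ c, rowOp S p st c (S.av (x c))‖ ^ 2 := by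
  rw [← hv.n2_linK fun c => ⟨(hx c).1, (hx c).2.2⟩]
  simp only [fun c => hv.inner_formOp ρ c (hx c).1 (hx c).2.1, quadZ, Finset.mul_sum,
    rtau_sum, Finset.sum_add_distrib, Finset.sum_sub_distrib, ← Finset.sum_div]
  ring

end Walk

end Vale.Agent.P078
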