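import Vale.Agent.P078.Std.Mult
import Vale.Agent.P078.Walk.QAlg

/-!
# P078: the state of the colouring walk

Parameters, states, the invariant and the potential of the walk for a self-adjoint contraction `y`
with mean zero over the MASA.
-/

noncomputable section

namespace Vale.Agent.P078

universe u

variable {H : Type u} [NormedAddCommGroup H] [InnerProductSpace ℂ H] [CompleteSpace H]

/-- The real part of the trace. -/
def Std.rtau (S : Std H) (x : Op H) : ℝ := (S.tau x).re

namespace Walk

/-- The parameters of the walk: target error and number of colours. -/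
structure Par where
  /-- target error -/
  ε : ℝ
  /-- number of colours -/
  r : ℕ

namespace Par

/-- the level `v` of the barrier -/
def v (p : Par) : ℝ := p.ε / 4
/-- the shift of the barrier -/
def σ (p : Par) : ℝ := p.v / 400
/-- the weight of the concave term -/
def κ (p : Par) : ℝ := p.σ / 40
/-- leverage per unit of colour weight -/
def cν (_ : Par) : ℝ := 1 / 100000
/-- initial weight of a colour -/
def h0 (p : Par) : ℝ := p.σ * p.v / 160
/-- weights below this are snapped to zero -/
def hmin (p : Par) : ℝ := p.h0 / 100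
/-- total weight per point -/
def L (p : Par) : ℝ := p.r * p.h0
/-- threshold for the expectation of the cut part -/
def thr (p : Par) : ℝ := p.σ * p.h0 / 2000
/-- threshold of the potential at failing points -/
def thrK (p : Par) : ℝ := p.σ * p.L / 25
/-- lower bound for the square of `v/(v+2)` used in the cut account -/
def γ (p : Par) : ℝ := (p.v / (p.v + 2)) ^ 2

/-- Admissible parameters. -/
structure Good (p : Par) : Prop where
  ε_pos : 0 < p.ε
  ε_le : p.ε ≤ 1
  r_big : 8 ≤ p.cν * p.L

end Par

/-- The two signs. -/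
def sgn (i : Fin 2) : ℝ := ![1, -1] i

/-- The data of one run: the element to be paved. -/
structure Inp (S : Std H) (y : Op H) : Prop where
  mem : y ∈ S.M
  sa : IsSelfAdjoint y
  norm_le : ‖y‖ ≤ 1
  exp_eq : S.exp y = 0

/-- A state of the walk. -/
structure St (H : Type u) [NormedAddCommGroup H] [InnerProductSpace ℂ H] [CompleteSpace H]
    (r : ℕ) where
  /-- colour weights -/
  h : Fin r → Op H
  /-- where a colour is alive -/
  al : Fin r → Op H
  /-- square roots of the shifted elements, one per sign -/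
  W : Fin 2 → Op H
  /-- unresolved points -/
  u : Op H
  /-- points lost because of cuts -/
  g1 : Op H
  /-- points lost because of the potential -/
  g2 : Op H
  /-- resolved points -/
  res : Fin r → Op H
  /-- upper bound for the killed quantity -/
  bd : Op H

variable (S : Std H) (p : Par)

/-- The shifted element for sign `i`. -/
def Bar (y : Op H) (i : Fin 2) : Op H := sgn i • y + (2 - p.σ) • (1 : Op H)

/-- The part removed by cuts, for sign `i`. -/
def Dl {r : ℕ} (y : Op H) (st : St H r) (i : Fin 2) : Op H := Bar p y i - st.W i * star (st.W i)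

/-- The part removed by cuts, both signs. -/
def DlSum {r : ℕ} (y : Op H) (st : St H r) : Op H := ∑ i, Dl p y st i

/-- The barrier of colour `c` for sign `i`. -/
def Qc {r : ℕ} (st : St H r) (c : Fin r) (i : Fin 2) : Op H := Qop p.v 2 (st.W i) (st.h c)

/-- The diagonal of the barrier. -/
def qc {r : ℕ} (st : St H r) (c : Fin r) (i : Fin 2) : Op H := S.exp (Qc p st c i)

/-- The contribution of one colour to the killed quantity. -/
def kterm (W : Fin 2 → Op H) (hc alc : Op H) : Op H :=
  ∑ i, (hc * (S.exp (Qop p.v 2 (W i) hc) + p.σ • (1 : Op H)) + p.κ • (hc * (1 - hc)))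
    - (p.σ / 3) • hc - (p.σ * p.hmin) • (1 - alc)

/-- The killed quantity. -/
def Kop {r : ℕ} (st : St H r) : Op H :=
  (p.σ * p.L / 3 - p.σ * p.L / 10) • (1 : Op H) + ∑ c, kterm S p st.W (st.h c) (st.al c)

/-- The points where colour `c` is active. -/
def St.act {r : ℕ} (st : St H r) (c : Fin r) : Op H := st.u * st.al c

/-- The invariant of the walk. -/
structure Inv (y : Op H) {r : ℕ} (st : St H r) : Prop where
  h_mem : ∀ c, st.h c ∈ S.A
  h_nonneg : ∀ c, 0 ≤ st.h c
  h_le : ∀ c, st.h c ≤ 1
  al_mem : ∀ c, st.al c ∈ S.A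
  al_proj : ∀ c, IsStarProjection (st.al c)
  h_al : ∀ c, st.h c * st.al c = st.h c
  W_mem : ∀ i, st.W i ∈ S.M
  W_le : ∀ i, st.W i * star (st.W i) ≤ Bar p y i
  ok : ∀ c i, Ok p.v 2 (st.W i) (st.h c)
  u_mem : st.u ∈ S.A
  u_proj : IsStarProjection st.u
  g1_mem : st.g1 ∈ S.A
  g1_proj : IsStarProjection st.g1
  g2_mem : st.g2 ∈ S.A
  g2_proj : IsStarProjection st.g2
  res_mem : ∀ c, st.res c ∈ S.A
  res_proj : ∀ c, IsStarProjection (st.res c)
  sum_eq : st.u + st.g1 + st.g2 + ∑ c, st.res c = 1
  res_h : ∀ c, (1 / 2 : ℝ) • st.res c ≤ st.h c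
  g1_le : p.thr * S.rtau st.g1 ≤ S.rtau (st.g1 * DlSum p y st)
  bd_mem : st.bd ∈ S.A
  bd_nonneg : 0 ≤ st.bd
  bd_u : st.u * st.bd = st.bd
  K_le : st.u * Kop S p st ≤ st.bd

/-- A state ready for a move. -/
structure Ready (η : ℝ) (y : Op H) {r : ℕ} (st : St H r) : Prop where
  Y_le : ∀ c i, Yop p.v 2 (st.W i) (st.h c) ≤ (1 - η) • (1 : Op H)
  Dl_le : st.u * S.exp (DlSum p y st) ≤ p.thr • st.u
  h_low : ∀ c, p.hmin • st.act c ≤ st.h c * st.act c
  h_high : ∀ c, st.h c * st.act c ≤ (1 / 2 : ℝ) • st.act c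
  cold : ∀ c i, (qc S p st c i + (p.σ / 2) • (1 : Op H)) * st.act c ≤ 0
  heavy : (p.L / 2) • st.u ≤ st.u * ∑ c, st.h c

/-- The square part of the potential, carried by failed and unresolved points. -/
def Psi {r : ℕ} (st : St H r) : ℝ := p.thrK ^ 2 * S.rtau st.g2 + S.n2 st.bd ^ 2

/-- The trace of all shifted barriers. -/
def Pot {r : ℕ} (st : St H r) : ℝ :=
  ∑ c, ∑ i, S.rtau (Qc p st c i + (2 : ℝ) • (1 : Op H))

/-- The clock. -/
def Clock {r : ℕ} (st : St H r) : ℝ :=
  ∑ c, S.rtau ((2 : ℝ) • st.h c - st.h c * st.h c)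

/-- The potential of the walk. -/
def Zpot (ρ η : ℝ) (y : Op H) {r : ℕ} (st : St H r) : ℝ :=
  Psi S p st / Real.sqrt ρ + Pot S p st + Clock S st + p.γ / η * S.rtau (DlSum p y st)

/-- The initial state. -/
def init (y : Op H) : St H p.r where
  h _ := p.h0 • (1 : Op H)
  al _ := 1
  W i := CFC.sqrt (Bar p y i)
  u := 1
  g1 := 0
  g2 := 0
  res _ := 0
  bd := 0

end Walk

end Vale.Agent.P078
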