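import Mathlib

/-!
# P078: leverage weights

In a C⋆-algebra with a trace and a diagonal expectation, a finite family of rows `R c` admits
weights `w c` below the projections `a c` whose leverage is at most `ν c` up to a small error,
while the weight lost is at most the trace of the row projection `u`.
-/

noncomputable section

namespace Vale.Agent.P078

universe u

/-- A closed algebra with a trace and an expectation onto a commutative subalgebra. -/
structure TraceData (𝔄 : Type u) [CStarAlgebra 𝔄] [PartialOrder 𝔄] [StarOrderedRing 𝔄] where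
  /-- the algebra carrying the trace -/
  B : StarSubalgebra ℂ 𝔄
  /-- the diagonal -/
  D : StarSubalgebra ℂ 𝔄
  closed_B : IsClosed (B : Set 𝔄)
  closed_D : IsClosed (D : Set 𝔄)
  D_le : D ≤ B
  D_comm : ∀ a ∈ D, ∀ b ∈ D, a * b = b * a
  /-- the real part of the trace -/
  tr : 𝔄 → ℝ
  tr_add : ∀ a ∈ B, ∀ b ∈ B, tr (a + b) = tr a + tr b
  tr_smul : ∀ (r : ℝ), ∀ a ∈ B, tr (r • a) = r * tr a
  tr_comm : ∀ a ∈ B, ∀ b ∈ B, tr (a * b) = tr (b * a)
  tr_nonneg : ∀ a ∈ B, 0 ≤ a → 0 ≤ tr a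
  tr_le : ∀ a ∈ B, |tr a| ≤ ‖a‖
  /-- the expectation onto the diagonal -/
  Phi : 𝔄 → 𝔄
  Phi_mem : ∀ a ∈ B, Phi a ∈ D
  Phi_add : ∀ a ∈ B, ∀ b ∈ B, Phi (a + b) = Phi a + Phi b
  Phi_smul : ∀ (r : ℝ), ∀ a ∈ B, Phi (r • a) = r • Phi a
  Phi_nonneg : ∀ a ∈ B, 0 ≤ a → 0 ≤ Phi a
  Phi_norm : ∀ a ∈ B, ‖Phi a‖ ≤ ‖a‖
  Phi_bimod : ∀ d ∈ D, ∀ e ∈ D, ∀ a ∈ B, Phi (d * a * e) = d * Phi a * e
  tr_Phi : ∀ a ∈ B, tr (Phi a) = tr a
  Phi_one : Phi 1 = 1

section order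

variable {𝔄 : Type u} [CStarAlgebra 𝔄] [PartialOrder 𝔄] [StarOrderedRing 𝔄]

theorem isStrictlyPositive_of_smul_one_le {ρ : ℝ} (hρ : 0 < ρ) {m : 𝔄} (h : ρ • (1 : 𝔄) ≤ m) :
    IsStrictlyPositive m := by
  refine IsStrictlyPositive.of_le ?_ h
  rw [← Algebra.algebraMap_eq_smul_one]
  exact isStrictlyPositive_algebraMap hρ

theorem mul_nonneg_of_commute {a b : 𝔄} (ha : 0 ≤ a) (hb : 0 ≤ b) (h : a * b = b * a) : 0 ≤ a * b :=
  Commute.mul_nonneg ha hb h

omit [PartialOrder 𝔄] [StarOrderedRing 𝔄] in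
theorem commute_ringInverse {a b : 𝔄} (h : a * b = b * a) (hb : IsUnit b) :
    a * Ring.inverse b = Ring.inverse b * a := by
  calc a * Ring.inverse b = Ring.inverse b * b * (a * Ring.inverse b) := by
        rw [Ring.inverse_mul_cancel _ hb, one_mul]
    _ = Ring.inverse b * (b * a) * Ring.inverse b := by simp only [mul_assoc]
    _ = Ring.inverse b * a * (b * Ring.inverse b) := by rw [← h]; simp only [mul_assoc]
    _ = Ring.inverse b * a := by rw [Ring.mul_inverse_cancel _ hb, mul_one]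

theorem ringInverse_nonneg_of {m : 𝔄} (hm : IsStrictlyPositive m) : 0 ≤ Ring.inverse m := by
  obtain ⟨x, hx⟩ := hm.isUnit
  subst hx
  rw [Ring.inverse_unit]
  exact CFC.inv_nonneg_of_nonneg x hm.nonneg

theorem le_norm_smul_one {a : 𝔄} (ha : 0 ≤ a) {C : ℝ} (hC : ‖a‖ ≤ C) : a ≤ C • (1 : 𝔄) := by
  rw [← Algebra.algebraMap_eq_smul_one]
  exact (IsSelfAdjoint.of_nonneg ha).le_algebraMap_norm_self.trans (algebraMap_mono _ hC)

end order

namespace TraceData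

variable {𝔄 : Type u} [CStarAlgebra 𝔄] [PartialOrder 𝔄] [StarOrderedRing 𝔄] (T : TraceData 𝔄)

theorem tr_zero : T.tr 0 = 0 := by
  have := T.tr_smul 0 0 (zero_mem _)
  simpa using this

theorem Phi_zero : T.Phi 0 = 0 := by
  have := T.Phi_smul 0 0 (zero_mem _)
  simpa using this

theorem tr_neg {a : 𝔄} (ha : a ∈ T.B) : T.tr (-a) = -T.tr a := by
  have := T.tr_smul (-1) a ha
  simpa using this

theorem tr_sub {a b : 𝔄} (ha : a ∈ T.B) (hb : b ∈ T.B) : T.tr (a - b) = T.tr a - T.tr b := by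
  rw [sub_eq_add_neg, T.tr_add a ha (-b) (neg_mem hb), T.tr_neg hb]
  ring

theorem tr_mono {a b : 𝔄} (ha : a ∈ T.B) (hb : b ∈ T.B) (h : a ≤ b) : T.tr a ≤ T.tr b := by
  have := T.tr_nonneg (b - a) (sub_mem hb ha) (sub_nonneg.mpr h)
  rw [T.tr_sub hb ha] at this
  linarith

theorem Phi_neg {a : 𝔄} (ha : a ∈ T.B) : T.Phi (-a) = -T.Phi a := by
  have := T.Phi_smul (-1) a ha
  simpa using this

theorem Phi_mono {a b : 𝔄} (ha : a ∈ T.B) (hb : b ∈ T.B) (h : a ≤ b) : T.Phi a ≤ T.Phi b := by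
  have h1 := T.Phi_nonneg (b - a) (sub_mem hb ha) (sub_nonneg.mpr h)
  rw [sub_eq_add_neg, T.Phi_add b hb (-a) (neg_mem ha), T.Phi_neg ha, ← sub_eq_add_neg] at h1
  exact sub_nonneg.mp h1

theorem tr_sum {ι : Type*} (s : Finset ι) (f : ι → 𝔄) (hf : ∀ i ∈ s, f i ∈ T.B) :
    T.tr (∑ i ∈ s, f i) = ∑ i ∈ s, T.tr (f i) := by
  classical
  induction s using Finset.induction with
  | empty => simp [T.tr_zero]
  | insert i s hi ih =>
    rw [Finset.sum_insert hi, Finset.sum_insert hi,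
      T.tr_add _ (hf i (Finset.mem_insert_self i s)) _
        (sum_mem fun j hj => hf j (Finset.mem_insert_of_mem hj)),
      ih fun j hj => hf j (Finset.mem_insert_of_mem hj)]

theorem smul_mem_B (t : ℝ) {a : 𝔄} (ha : a ∈ T.B) : t • a ∈ T.B := by
  rw [← Complex.coe_smul]
  exact SMulMemClass.smul_mem _ ha

theorem smul_mem_D (t : ℝ) {a : 𝔄} (ha : a ∈ T.D) : t • a ∈ T.D := by
  rw [← Complex.coe_smul]
  exact SMulMemClass.smul_mem _ ha

omit [PartialOrder 𝔄] [StarOrderedRing 𝔄] in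
theorem inverse_mem {S : StarSubalgebra ℂ 𝔄} (hS : IsClosed (S : Set 𝔄)) {x : 𝔄} (hx : x ∈ S)
    (hu : IsUnit x) : Ring.inverse x ∈ S := by
  have : IsClosed (S : Set 𝔄) := hS
  obtain ⟨y, hy⟩ := (StarSubalgebra.coe_isUnit (S := S) (a := ⟨x, hx⟩)).mp hu
  have h1 : ((↑y⁻¹ : S) : 𝔄) * x = 1 := by
    have h0 : ((↑y : S) : 𝔄) = x := by rw [hy]
    rw [← h0, ← MulMemClass.coe_mul, Units.inv_mul]
    rfl
  have h2 : Ring.inverse x = ((↑y⁻¹ : S) : 𝔄) := by
    rw [← one_mul (Ring.inverse x), ← h1, mul_assoc, Ring.mul_inverse_cancel _ hu, mul_one]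
  rw [h2]
  exact SetLike.coe_mem _

variable {r : ℕ} (ρ : ℝ) (R : Fin r → 𝔄)

/-- The Gram operator of the weighted rows. -/
def gram (w : Fin r → 𝔄) : 𝔄 := ∑ c, R c * w c * star (R c)

/-- The resolvent of the Gram operator. -/
def res (w : Fin r → 𝔄) : 𝔄 := Ring.inverse (ρ • (1 : 𝔄) + gram R w)

/-- The leverage of column `c`. -/
def lev (w : Fin r → 𝔄) (c : Fin r) : 𝔄 := T.Phi (star (R c) * res ρ R w * R c)

/-- The second form occurring in the diagonal of the projected weights. -/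
def quad (w : Fin r → 𝔄) (c : Fin r) : 𝔄 :=
  T.Phi (star (R c) * (res ρ R w + ρ • (res ρ R w * res ρ R w)) * R c)

variable {ρ R}

theorem gram_mem (hR : ∀ c, R c ∈ T.B) {w : Fin r → 𝔄} (hw : ∀ c, w c ∈ T.D) : gram R w ∈ T.B :=
  sum_mem fun c _ => mul_mem (mul_mem (hR c) (T.D_le (hw c))) (star_mem (hR c))

theorem gram_nonneg {w : Fin r → 𝔄} (hw : ∀ c, 0 ≤ w c) : 0 ≤ gram R w :=
  Finset.sum_nonneg fun c _ => star_right_conjugate_nonneg (hw c) (R c)

theorem gram_mono {w w' : Fin r → 𝔄} (h : ∀ c, w c ≤ w' c) : gram R w ≤ gram R w' :=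
  Finset.sum_le_sum fun c _ => star_right_conjugate_le_conjugate (h c) (R c)

theorem smul_one_le_shift {w : Fin r → 𝔄} (hw : ∀ c, 0 ≤ w c) :
    ρ • (1 : 𝔄) ≤ ρ • (1 : 𝔄) + gram R w :=
  le_add_of_nonneg_right (gram_nonneg hw)

theorem shift_pos (hρ : 0 < ρ) {w : Fin r → 𝔄} (hw : ∀ c, 0 ≤ w c) :
    IsStrictlyPositive (ρ • (1 : 𝔄) + gram R w) :=
  isStrictlyPositive_of_smul_one_le hρ (smul_one_le_shift hw)

theorem res_mem (hρ : 0 < ρ) (hR : ∀ c, R c ∈ T.B) {w : Fin r → 𝔄} (hwD : ∀ c, w c ∈ T.D)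
    (hw : ∀ c, 0 ≤ w c) : res ρ R w ∈ T.B :=
  inverse_mem T.closed_B (add_mem (T.smul_mem_B ρ (one_mem _)) (T.gram_mem hR hwD))
    (shift_pos hρ hw).isUnit

theorem res_nonneg (hρ : 0 < ρ) {w : Fin r → 𝔄} (hw : ∀ c, 0 ≤ w c) : 0 ≤ res ρ R w :=
  ringInverse_nonneg_of (shift_pos hρ hw)

theorem res_anti (hρ : 0 < ρ) {w w' : Fin r → 𝔄} (hw : ∀ c, 0 ≤ w c) (h : ∀ c, w c ≤ w' c) :
    res ρ R w' ≤ res ρ R w :=
  CStarAlgebra.ringInverse_le_ringInverse (add_le_add le_rfl (gram_mono h)) (shift_pos hρ hw)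

theorem gram_mul_res (hρ : 0 < ρ) {w : Fin r → 𝔄} (hw : ∀ c, 0 ≤ w c) :
    gram R w * res ρ R w = 1 - ρ • res ρ R w := by
  have h : (ρ • (1 : 𝔄) + gram R w) * res ρ R w = 1 :=
    Ring.mul_inverse_cancel _ (shift_pos hρ hw).isUnit
  rw [add_mul, smul_mul_assoc, one_mul] at h
  exact eq_sub_of_add_eq' h

theorem res_mul_gram (hρ : 0 < ρ) {w : Fin r → 𝔄} (hw : ∀ c, 0 ≤ w c) :
    res ρ R w * gram R w = 1 - ρ • res ρ R w := by
  have h : res ρ R w * (ρ • (1 : 𝔄) + gram R w) = 1 :=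
    Ring.inverse_mul_cancel _ (shift_pos hρ hw).isUnit
  rw [mul_add, mul_smul_comm, mul_one] at h
  exact eq_sub_of_add_eq' h

theorem res_gram_res_nonneg (hρ : 0 < ρ) {w : Fin r → 𝔄} (hw : ∀ c, 0 ≤ w c) :
    0 ≤ res ρ R w * gram R w * res ρ R w :=
  conjugate_nonneg_of_nonneg (gram_nonneg hw) (res_nonneg hρ hw)

theorem smul_res_gram_res_le (hρ : 0 < ρ) {w : Fin r → 𝔄} (hw : ∀ c, 0 ≤ w c) :
    ρ • (res ρ R w * gram R w * res ρ R w) ≤ res ρ R w * gram R w := by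
  have h : res ρ R w * gram R w
      = ρ • (res ρ R w * gram R w * res ρ R w)
        + res ρ R w * gram R w * (gram R w * res ρ R w) := by
    have h0 : (ρ • (1 : 𝔄) + gram R w) * res ρ R w = 1 :=
      Ring.mul_inverse_cancel _ (shift_pos hρ hw).isUnit
    calc res ρ R w * gram R w
        = res ρ R w * gram R w * ((ρ • (1 : 𝔄) + gram R w) * res ρ R w) := by rw [h0, mul_one]
      _ = _ := by simp only [add_mul, mul_add, smul_mul_assoc, mul_smul_comm, one_mul]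
  have h2 : 0 ≤ res ρ R w * gram R w * (gram R w * res ρ R w) := by
    have e : star (gram R w * res ρ R w) = res ρ R w * gram R w := by
      rw [star_mul, (IsSelfAdjoint.of_nonneg (res_nonneg hρ hw)).star_eq,
        (IsSelfAdjoint.of_nonneg (gram_nonneg hw)).star_eq]
    rw [← e]
    exact star_mul_self_nonneg _
  exact le_of_le_of_eq (le_add_of_nonneg_right h2) h.symm

theorem smul_res_sq_le (hρ : 0 < ρ) {w : Fin r → 𝔄} (hw : ∀ c, 0 ≤ w c) :
    ρ • (res ρ R w * res ρ R w) ≤ res ρ R w := by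
  have h : res ρ R w * gram R w * res ρ R w = res ρ R w - ρ • (res ρ R w * res ρ R w) := by
    rw [res_mul_gram hρ hw, sub_mul, one_mul, smul_mul_assoc]
  have h2 := res_gram_res_nonneg (R := R) hρ hw
  rw [h] at h2
  exact sub_nonneg.mp h2

theorem smul_res_le_one (hρ : 0 < ρ) {w : Fin r → 𝔄} (hw : ∀ c, 0 ≤ w c) :
    ρ • res ρ R w ≤ 1 := by
  have h1 := smul_res_gram_res_le (R := R) hρ hw
  have h2 : 0 ≤ ρ • (res ρ R w * gram R w * res ρ R w) :=
    smul_nonneg hρ.le (res_gram_res_nonneg hρ hw)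
  have h3 : 0 ≤ 1 - ρ • res ρ R w := by
    rw [← res_mul_gram hρ hw]
    exact h2.trans h1
  exact sub_nonneg.mp h3

theorem norm_res_le (hρ : 0 < ρ) {w : Fin r → 𝔄} (hw : ∀ c, 0 ≤ w c) : ‖res ρ R w‖ ≤ ρ⁻¹ := by
  have h : res ρ R w ≤ ρ⁻¹ • (1 : 𝔄) := by
    have := smul_le_smul_of_nonneg_left (smul_res_le_one (R := R) hρ hw) (inv_nonneg.mpr hρ.le)
    rwa [smul_smul, inv_mul_cancel₀ hρ.ne', one_smul] at this
  have h2 := CStarAlgebra.norm_le_norm_of_nonneg_of_le (res_nonneg hρ hw) h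
  refine h2.trans ?_
  rw [norm_smul, Real.norm_of_nonneg (inv_nonneg.mpr hρ.le)]
  refine mul_le_of_le_one_right (inv_nonneg.mpr hρ.le) ?_
  rcases subsingleton_or_nontrivial 𝔄 with h0 | h0
  · simp [Subsingleton.elim (1 : 𝔄) 0]
  · simp

theorem quad_arg_mem (hρ : 0 < ρ) (hR : ∀ c, R c ∈ T.B) {w : Fin r → 𝔄} (hwD : ∀ c, w c ∈ T.D)
    (hw : ∀ c, 0 ≤ w c) (c : Fin r) :
    star (R c) * (res ρ R w + ρ • (res ρ R w * res ρ R w)) * R c ∈ T.B :=
  mul_mem (mul_mem (star_mem (hR c))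
    (add_mem (T.res_mem hρ hR hwD hw)
      (T.smul_mem_B ρ (mul_mem (T.res_mem hρ hR hwD hw) (T.res_mem hρ hR hwD hw))))) (hR c)

theorem lev_arg_mem (hρ : 0 < ρ) (hR : ∀ c, R c ∈ T.B) {w : Fin r → 𝔄} (hwD : ∀ c, w c ∈ T.D)
    (hw : ∀ c, 0 ≤ w c) (c : Fin r) : star (R c) * res ρ R w * R c ∈ T.B :=
  mul_mem (mul_mem (star_mem (hR c)) (T.res_mem hρ hR hwD hw)) (hR c)

theorem lev_mem (hρ : 0 < ρ) (hR : ∀ c, R c ∈ T.B) {w : Fin r → 𝔄} (hwD : ∀ c, w c ∈ T.D)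
    (hw : ∀ c, 0 ≤ w c) (c : Fin r) : T.lev ρ R w c ∈ T.D :=
  T.Phi_mem _ (T.lev_arg_mem hρ hR hwD hw c)

theorem lev_nonneg (hρ : 0 < ρ) (hR : ∀ c, R c ∈ T.B) {w : Fin r → 𝔄} (hwD : ∀ c, w c ∈ T.D)
    (hw : ∀ c, 0 ≤ w c) (c : Fin r) : 0 ≤ T.lev ρ R w c :=
  T.Phi_nonneg _ (T.lev_arg_mem hρ hR hwD hw c)
    (star_left_conjugate_nonneg (res_nonneg hρ hw) (R c))

theorem lev_anti (hρ : 0 < ρ) (hR : ∀ c, R c ∈ T.B) {w w' : Fin r → 𝔄} (hwD : ∀ c, w c ∈ T.D)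
    (hwD' : ∀ c, w' c ∈ T.D) (hw : ∀ c, 0 ≤ w c) (h : ∀ c, w c ≤ w' c) (c : Fin r) :
    T.lev ρ R w' c ≤ T.lev ρ R w c :=
  T.Phi_mono (T.lev_arg_mem hρ hR hwD' (fun c => (hw c).trans (h c)) c)
    (T.lev_arg_mem hρ hR hwD hw c) (star_left_conjugate_le_conjugate (res_anti hρ hw h) (R c))

theorem norm_lev_le (hρ : 0 < ρ) (hR : ∀ c, R c ∈ T.B) {w : Fin r → 𝔄} (hwD : ∀ c, w c ∈ T.D)
    (hw : ∀ c, 0 ≤ w c) (c : Fin r) : ‖T.lev ρ R w c‖ ≤ ‖R c‖ ^ 2 * ρ⁻¹ := by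
  refine (T.Phi_norm _ (T.lev_arg_mem hρ hR hwD hw c)).trans ?_
  calc ‖star (R c) * res ρ R w * R c‖ ≤ ‖star (R c) * res ρ R w‖ * ‖R c‖ := norm_mul_le _ _
    _ ≤ ‖star (R c)‖ * ‖res ρ R w‖ * ‖R c‖ :=
      mul_le_mul_of_nonneg_right (norm_mul_le _ _) (norm_nonneg _)
    _ ≤ ‖R c‖ * ρ⁻¹ * ‖R c‖ := by
      rw [norm_star]
      exact mul_le_mul_of_nonneg_right
        (mul_le_mul_of_nonneg_left (norm_res_le hρ hw) (norm_nonneg _)) (norm_nonneg _)
    _ = ‖R c‖ ^ 2 * ρ⁻¹ := by ring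

theorem quad_le (hρ : 0 < ρ) (hR : ∀ c, R c ∈ T.B) {w : Fin r → 𝔄} (hwD : ∀ c, w c ∈ T.D)
    (hw : ∀ c, 0 ≤ w c) (c : Fin r) : T.quad ρ R w c ≤ (2 : ℝ) • T.lev ρ R w c := by
  have h1 := T.lev_arg_mem hρ hR hwD hw c
  have h2 : T.quad ρ R w c
      ≤ T.Phi ((2 : ℝ) • (star (R c) * res ρ R w * R c)) := by
    refine T.Phi_mono (T.quad_arg_mem hρ hR hwD hw c) (T.smul_mem_B _ h1) ?_
    rw [two_smul, ← add_mul, ← mul_add]
    exact star_left_conjugate_le_conjugate (add_le_add le_rfl (smul_res_sq_le hρ hw)) (R c)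
  rwa [T.Phi_smul _ _ h1] at h2

theorem sum_tr_mul_lev (hρ : 0 < ρ) (hR : ∀ c, R c ∈ T.B) {w : Fin r → 𝔄} (hwD : ∀ c, w c ∈ T.D)
    (hw : ∀ c, 0 ≤ w c) :
    ∑ c, T.tr (w c * T.lev ρ R w c) = T.tr (res ρ R w * gram R w) := by
  have h : ∀ c, T.tr (w c * T.lev ρ R w c)
      = T.tr (res ρ R w * (R c * w c * star (R c))) := by
    intro c
    have hwc : w c ∈ T.B := T.D_le (hwD c)
    have h1 := T.lev_arg_mem hρ hR hwD hw c
    have h2 := T.Phi_bimod (w c) (hwD c) 1 (one_mem _) _ h1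
    rw [mul_one, mul_one] at h2
    rw [lev, ← h2, T.tr_Phi _ (mul_mem hwc h1)]
    rw [show w c * (star (R c) * res ρ R w * R c) = w c * star (R c) * (res ρ R w * R c) by
      simp only [mul_assoc]]
    rw [T.tr_comm _ (mul_mem hwc (star_mem (hR c))) _ (mul_mem (T.res_mem hρ hR hwD hw) (hR c))]
    simp only [mul_assoc]
  simp_rw [h, gram, Finset.mul_sum]
  rw [T.tr_sum _ _ fun c _ => mul_mem (T.res_mem hρ hR hwD hw)
    (mul_mem (mul_mem (hR c) (T.D_le (hwD c))) (star_mem (hR c)))]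

theorem tr_res_gram_le (hρ : 0 < ρ) (hR : ∀ c, R c ∈ T.B) {u : 𝔄} (huB : u ∈ T.B)
    (hu : IsStarProjection u) (huR : ∀ c, u * R c = R c) {w : Fin r → 𝔄}
    (hwD : ∀ c, w c ∈ T.D) (hw : ∀ c, 0 ≤ w c) :
    T.tr (res ρ R w * gram R w) ≤ T.tr u := by
  have hZ := T.res_mem hρ hR hwD hw
  have hG : u * gram R w = gram R w := by
    simp only [gram, Finset.mul_sum, ← mul_assoc, huR]
  have hG' : gram R w * u = gram R w := by
    have h2 := congrArg star hG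
    rwa [star_mul, hu.isSelfAdjoint.star_eq,
      (IsSelfAdjoint.of_nonneg (gram_nonneg hw)).star_eq] at h2
  have e : res ρ R w * gram R w = u - ρ • (u * res ρ R w * u) := by
    calc res ρ R w * gram R w = u * (res ρ R w * gram R w) * u := by
          have e1 : res ρ R w * gram R w = gram R w * res ρ R w := by
            rw [res_mul_gram hρ hw, gram_mul_res hρ hw]
          have e2 : u * (res ρ R w * gram R w) = res ρ R w * gram R w := by
            rw [e1, ← mul_assoc, hG]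
          rw [e2, mul_assoc, hG']
      _ = u - ρ • (u * res ρ R w * u) := by
          rw [res_mul_gram hρ hw, mul_sub, sub_mul, mul_one, hu.isIdempotentElem.eq,
            mul_smul_comm, smul_mul_assoc]
  rw [e, T.tr_sub huB (T.smul_mem_B ρ (mul_mem (mul_mem huB hZ) huB)),
    T.tr_smul _ _ (mul_mem (mul_mem huB hZ) huB)]
  have h0 : 0 ≤ u * res ρ R w * u := by
    have := star_left_conjugate_nonneg (res_nonneg (R := R) hρ hw) u
    rwa [hu.isSelfAdjoint.star_eq] at this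
  have := T.tr_nonneg _ (mul_mem (mul_mem huB hZ) huB) h0
  nlinarith

variable (ρ R)

/-- The iteration of the weights. -/
def weightSeq (a ν : Fin r → 𝔄) : ℕ → Fin r → 𝔄
  | 0 => a
  | m + 1 => fun c => a c * ν c * Ring.inverse (ν c + T.lev ρ R (weightSeq a ν m) c)

variable {ρ R}

/-- The data of the columns: projections `a` and bounds `ν` in the diagonal. -/
structure ColData (a ν : Fin r → 𝔄) : Prop where
  a_mem : ∀ c, a c ∈ T.D
  a_proj : ∀ c, IsStarProjection (a c)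
  nu_mem : ∀ c, ν c ∈ T.D
  nu_pos : ∀ c, ∃ t : ℝ, 0 < t ∧ t • (1 : 𝔄) ≤ ν c
  nu_small : ∀ c, ν c ≤ (1 / 4 : ℝ) • (1 : 𝔄)

variable {T} {a ν : Fin r → 𝔄}

theorem ColData.a_nonneg (h : ColData T a ν) (c : Fin r) : 0 ≤ a c := (h.a_proj c).nonneg

theorem ColData.nu_nonneg (h : ColData T a ν) (c : Fin r) : 0 ≤ ν c := by
  obtain ⟨t, ht, htν⟩ := h.nu_pos c
  exact (smul_nonneg ht.le zero_le_one).trans htν

theorem ColData.shift_unit (h : ColData T a ν) (c : Fin r) {y : 𝔄} (hy : 0 ≤ y) :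
    IsStrictlyPositive (ν c + y) := by
  obtain ⟨t, ht, htν⟩ := h.nu_pos c
  exact isStrictlyPositive_of_smul_one_le ht (htν.trans (le_add_of_nonneg_right hy))

theorem ColData.shift_inv_mem (h : ColData T a ν) (c : Fin r) {y : 𝔄} (hyD : y ∈ T.D) (hy : 0 ≤ y) :
    Ring.inverse (ν c + y) ∈ T.D :=
  inverse_mem T.closed_D (add_mem (h.nu_mem c) hyD) (h.shift_unit c hy).isUnit

theorem ColData.step_nonneg (h : ColData T a ν) (c : Fin r) {y : 𝔄} (hyD : y ∈ T.D) (hy : 0 ≤ y) :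
    0 ≤ a c * ν c * Ring.inverse (ν c + y) :=
  mul_nonneg_of_commute
    (mul_nonneg_of_commute (h.a_nonneg c) (h.nu_nonneg c)
      (T.D_comm _ (h.a_mem c) _ (h.nu_mem c)))
    (ringInverse_nonneg_of (h.shift_unit c hy))
    (T.D_comm _ (mul_mem (h.a_mem c) (h.nu_mem c)) _ (h.shift_inv_mem c hyD hy))

theorem ColData.sub_step (h : ColData T a ν) (c : Fin r) {y : 𝔄} (hy : 0 ≤ y) :
    a c - a c * ν c * Ring.inverse (ν c + y) = a c * y * Ring.inverse (ν c + y) := by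
  rw [sub_eq_iff_eq_add, ← add_mul, ← mul_add, mul_assoc, add_comm y,
    Ring.mul_inverse_cancel _ (h.shift_unit c hy).isUnit, mul_one]

theorem ColData.step_le (h : ColData T a ν) (c : Fin r) {y : 𝔄} (hyD : y ∈ T.D) (hy : 0 ≤ y) :
    a c * ν c * Ring.inverse (ν c + y) ≤ a c := by
  rw [← sub_nonneg, h.sub_step c hy]
  exact mul_nonneg_of_commute
    (mul_nonneg_of_commute (h.a_nonneg c) hy (T.D_comm _ (h.a_mem c) _ hyD))
    (ringInverse_nonneg_of (h.shift_unit c hy))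
    (T.D_comm _ (mul_mem (h.a_mem c) hyD) _ (h.shift_inv_mem c hyD hy))

theorem ColData.weightSeq_basic (h : ColData T a ν) (hρ : 0 < ρ) (hR : ∀ c, R c ∈ T.B) :
    ∀ m c, T.weightSeq ρ R a ν m c ∈ T.D ∧ 0 ≤ T.weightSeq ρ R a ν m c
      ∧ T.weightSeq ρ R a ν m c ≤ a c ∧ T.weightSeq ρ R a ν m c * a c = T.weightSeq ρ R a ν m c := by
  intro m
  induction m with
  | zero => intro c; exact ⟨h.a_mem c, h.a_nonneg c, le_rfl, (h.a_proj c).isIdempotentElem.eq⟩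
  | succ m ih =>
    intro c
    have hyD := T.lev_mem hρ hR (fun c => (ih c).1) (fun c => (ih c).2.1) c
    have hy := T.lev_nonneg hρ hR (fun c => (ih c).1) (fun c => (ih c).2.1) c
    have hm : T.weightSeq ρ R a ν (m + 1) c
        = a c * ν c * Ring.inverse (ν c + T.lev ρ R (T.weightSeq ρ R a ν m) c) := rfl
    have hi := h.shift_inv_mem c hyD hy
    refine ⟨?_, ?_, ?_, ?_⟩
    · rw [hm]; exact mul_mem (mul_mem (h.a_mem c) (h.nu_mem c)) hi
    · rw [hm]; exact h.step_nonneg c hyD hy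
    · rw [hm]; exact h.step_le c hyD hy
    · rw [hm, T.D_comm _ (mul_mem (mul_mem (h.a_mem c) (h.nu_mem c)) hi) _ (h.a_mem c),
        ← mul_assoc, ← mul_assoc, (h.a_proj c).isIdempotentElem.eq]

theorem ColData.weightSeq_anti (h : ColData T a ν) (hρ : 0 < ρ) (hR : ∀ c, R c ∈ T.B) :
    ∀ m c, T.weightSeq ρ R a ν (m + 1) c ≤ T.weightSeq ρ R a ν m c := by
  intro m
  induction m with
  | zero => exact fun c => (h.weightSeq_basic hρ hR 1 c).2.2.1
  | succ m ih =>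
    intro c
    have hb := h.weightSeq_basic hρ hR
    have h0 := T.lev_nonneg hρ hR (fun c => (hb m c).1) (fun c => (hb m c).2.1) c
    have h0D := T.lev_mem hρ hR (fun c => (hb m c).1) (fun c => (hb m c).2.1) c
    have h1 := T.lev_nonneg hρ hR (fun c => (hb (m + 1) c).1) (fun c => (hb (m + 1) c).2.1) c
    have h1D := T.lev_mem hρ hR (fun c => (hb (m + 1) c).1) (fun c => (hb (m + 1) c).2.1) c
    have hy := T.lev_anti hρ hR (fun c => (hb (m + 1) c).1) (fun c => (hb m c).1)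
      (fun c => (hb (m + 1) c).2.1) ih c
    have hle : Ring.inverse (ν c + T.lev ρ R (T.weightSeq ρ R a ν (m + 1)) c)
        ≤ Ring.inverse (ν c + T.lev ρ R (T.weightSeq ρ R a ν m) c) :=
      CStarAlgebra.ringInverse_le_ringInverse (add_le_add le_rfl hy) (h.shift_unit c h0)
    have hp : (0 : 𝔄) ≤ a c * ν c :=
      mul_nonneg_of_commute (h.a_nonneg c) (h.nu_nonneg c) (T.D_comm _ (h.a_mem c) _ (h.nu_mem c))
    have := mul_nonneg_of_commute hp (sub_nonneg.mpr hle) (T.D_comm _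
      (mul_mem (h.a_mem c) (h.nu_mem c)) _
      (sub_mem (h.shift_inv_mem c h0D h0) (h.shift_inv_mem c h1D h1)))
    rw [mul_sub, sub_nonneg] at this
    exact this

theorem ColData.exists_small_drop (h : ColData T a ν) (hρ : 0 < ρ) (hR : ∀ c, R c ∈ T.B)
    {η : ℝ} (hη : 0 < η) :
    ∃ m, ∑ c, T.tr (T.weightSeq ρ R a ν m c - T.weightSeq ρ R a ν (m + 1) c) ≤ η := by
  by_contra hc
  push Not at hc
  have hb := h.weightSeq_basic hρ hR
  have hd : ∀ n : ℕ, ∑ c, T.tr (T.weightSeq ρ R a ν n c)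
      ≤ ∑ c, T.tr (a c) - n * η := by
    intro n
    induction n with
    | zero => simp [weightSeq]
    | succ n ih =>
      have := hc n
      simp_rw [T.tr_sub (T.D_le (hb n _).1) (T.D_le (hb (n + 1) _).1)] at this
      rw [Finset.sum_sub_distrib] at this
      push_cast
      linarith
  obtain ⟨n, hn⟩ := exists_nat_gt ((∑ c, T.tr (a c)) / η)
  have h0 : 0 ≤ ∑ c, T.tr (T.weightSeq ρ R a ν n c) :=
    Finset.sum_nonneg fun c _ => T.tr_nonneg _ (T.D_le (hb n c).1) (hb n c).2.1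
  rw [div_lt_iff₀ hη] at hn
  linarith [hd n]

theorem ColData.exists_weights (h : ColData T a ν) (hρ : 0 < ρ) (hR : ∀ c, R c ∈ T.B) {u : 𝔄}
    (huB : u ∈ T.B) (hu : IsStarProjection u) (huR : ∀ c, u * R c = R c) {η : ℝ} (hη : 0 < η) :
    ∃ w e : Fin r → 𝔄,
      (∀ c, w c ∈ T.D ∧ 0 ≤ w c ∧ w c ≤ a c ∧ w c * a c = w c) ∧
      ∑ c, T.tr (ν c * (a c - w c)) ≤ T.tr u ∧
      (∀ c, e c ∈ T.D ∧ 0 ≤ e c) ∧ ∑ c, T.tr (e c) ≤ η ∧
      ∀ c, w c ≤ (1 + (4 : ℝ) • ν c) * (w c - w c * T.quad ρ R w c * w c + e c) := by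
  obtain ⟨C, hC0, hC⟩ : ∃ C : ℝ, 0 < C ∧ ∀ c, ‖R c‖ ^ 2 * ρ⁻¹ ≤ C :=
    ⟨∑ c, ‖R c‖ ^ 2 * ρ⁻¹ + 1, by positivity, fun c => by
      have := Finset.single_le_sum (f := fun c => ‖R c‖ ^ 2 * ρ⁻¹)
        (fun i _ => by positivity) (Finset.mem_univ c)
      linarith⟩
  have hη' : 0 < η / (2 * C) := by positivity
  obtain ⟨m, hm⟩ := h.exists_small_drop hρ hR hη'
  have hb := h.weightSeq_basic hρ hR
  have han := h.weightSeq_anti hρ hR m
  set w := T.weightSeq ρ R a ν m with hwdef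
  set w' := T.weightSeq ρ R a ν (m + 1) with hw'def
  have hwD : ∀ c, w c ∈ T.D := fun c => (hb m c).1
  have hw0 : ∀ c, 0 ≤ w c := fun c => (hb m c).2.1
  have hw'D : ∀ c, w' c ∈ T.D := fun c => (hb (m + 1) c).1
  have hy : ∀ c, T.lev ρ R w c ∈ T.D ∧ 0 ≤ T.lev ρ R w c :=
    fun c => ⟨T.lev_mem hρ hR hwD hw0 c, T.lev_nonneg hρ hR hwD hw0 c⟩
  have hdiff : ∀ c, w c - w' c ∈ T.D ∧ 0 ≤ w c - w' c :=
    fun c => ⟨sub_mem (hwD c) (hw'D c), sub_nonneg.mpr (han c)⟩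
  have hlost : ∀ c, ν c * (a c - w' c) = w' c * T.lev ρ R w c := by
    intro c
    have e : w' c = a c * ν c * Ring.inverse (ν c + T.lev ρ R w c) := rfl
    have hi := h.shift_inv_mem c (hy c).1 (hy c).2
    rw [e, h.sub_step c (hy c).2, ← mul_assoc, ← mul_assoc,
      T.D_comm _ (h.nu_mem c) _ (h.a_mem c),
      mul_assoc (a c * ν c) (T.lev ρ R w c), T.D_comm _ (hy c).1 _ hi, ← mul_assoc]
  refine ⟨w, fun c => (2 : ℝ) • ((w c - w' c) * T.lev ρ R w c), fun c => hb m c, ?_, ?_, ?_, ?_⟩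
  · calc ∑ c, T.tr (ν c * (a c - w c))
        ≤ ∑ c, T.tr (ν c * (a c - w' c)) := by
          refine Finset.sum_le_sum fun c _ => T.tr_mono ?_ ?_ ?_
          · exact T.D_le (mul_mem (h.nu_mem c) (sub_mem (h.a_mem c) (hwD c)))
          · exact T.D_le (mul_mem (h.nu_mem c) (sub_mem (h.a_mem c) (hw'D c)))
          · rw [← sub_nonneg, ← mul_sub, sub_sub_sub_cancel_left]
            exact mul_nonneg_of_commute (h.nu_nonneg c) (hdiff c).2
              (T.D_comm _ (h.nu_mem c) _ (hdiff c).1)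
      _ ≤ ∑ c, T.tr (w c * T.lev ρ R w c) := by
          refine Finset.sum_le_sum fun c _ => ?_
          rw [hlost]
          refine T.tr_mono (T.D_le (mul_mem (hw'D c) (hy c).1))
            (T.D_le (mul_mem (hwD c) (hy c).1)) ?_
          rw [← sub_nonneg, ← sub_mul]
          exact mul_nonneg_of_commute (hdiff c).2 (hy c).2 (T.D_comm _ (hdiff c).1 _ (hy c).1)
      _ ≤ T.tr u := by
          rw [T.sum_tr_mul_lev hρ hR hwD hw0]
          exact T.tr_res_gram_le hρ hR huB hu huR hwD hw0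
  · exact fun c => ⟨T.smul_mem_D _ (mul_mem (hdiff c).1 (hy c).1),
      smul_nonneg two_pos.le (mul_nonneg_of_commute (hdiff c).2 (hy c).2
        (T.D_comm _ (hdiff c).1 _ (hy c).1))⟩
  · calc ∑ c, T.tr ((2 : ℝ) • ((w c - w' c) * T.lev ρ R w c))
        ≤ ∑ c, T.tr ((2 * C) • (w c - w' c)) := by
          refine Finset.sum_le_sum fun c _ => T.tr_mono
            (T.smul_mem_B _ (T.D_le (mul_mem (hdiff c).1 (hy c).1)))
            (T.smul_mem_B _ (T.D_le (hdiff c).1)) ?_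
          have hle : T.lev ρ R w c ≤ C • (1 : 𝔄) :=
            le_norm_smul_one (hy c).2 ((T.norm_lev_le hρ hR hwD hw0 c).trans (hC c))
          rw [mul_smul]
          refine smul_le_smul_of_nonneg_left ?_ two_pos.le
          have := mul_nonneg_of_commute (hdiff c).2 (sub_nonneg.mpr hle)
            (T.D_comm _ (hdiff c).1 _ (sub_mem (T.smul_mem_D C (one_mem _)) (hy c).1))
          rwa [mul_sub, mul_smul_comm, mul_one, sub_nonneg] at this
      _ ≤ η := by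
          simp_rw [T.tr_smul _ _ (T.D_le (hdiff _).1), ← Finset.mul_sum]
          calc 2 * C * ∑ c, T.tr (w c - w' c) ≤ 2 * C * (η / (2 * C)) :=
                mul_le_mul_of_nonneg_left hm (by positivity)
            _ = η := by field_simp
  · intro c
    set y := T.lev ρ R w c with hydef
    set ee := (2 : ℝ) • ((w c - w' c) * y) with heedef
    have hwy : w c * y = w' c * y + (w c - w' c) * y := by rw [← add_mul, add_sub_cancel]
    have hwc1 : w c ≤ 1 := (hb m c).2.2.1.trans (h.a_proj c).le_one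
    have hquadD : T.quad ρ R w c ∈ T.D := T.Phi_mem _ (T.quad_arg_mem hρ hR hwD hw0 c)
    have hw'y : w' c * y ≤ a c * ν c := by
      rw [← hlost, mul_sub, T.D_comm _ (h.nu_mem c) _ (h.a_mem c)]
      exact sub_le_self _ (mul_nonneg_of_commute (h.nu_nonneg c) (hb (m + 1) c).2.1
        (T.D_comm _ (h.nu_mem c) _ (hw'D c)))
    have hbound : w c * T.quad ρ R w c * w c ≤ (2 : ℝ) • (w c * ν c) + ee := by
      have h1 : w c * T.quad ρ R w c * w c ≤ w c * ((2 : ℝ) • y) * w c :=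
        conjugate_le_conjugate_of_nonneg (T.quad_le hρ hR hwD hw0 c) (hw0 c)
      have h2 : w c * y * w c ≤ w c * ν c + (w c - w' c) * y := by
        have e1 : w c * y * w c = w c * (w' c * y) + w c * ((w c - w' c) * y) := by
          rw [← mul_add, ← hwy, mul_assoc, T.D_comm _ (hy c).1 _ (hwD c)]
        rw [e1]
        refine add_le_add ?_ ?_
        · have e2 : w c * ν c = w c * (a c * ν c) := by rw [← mul_assoc, (hb m c).2.2.2]
          rw [e2, ← sub_nonneg, ← mul_sub]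
          exact mul_nonneg_of_commute (hw0 c) (sub_nonneg.mpr hw'y) (T.D_comm _ (hwD c) _
            (sub_mem (mul_mem (h.a_mem c) (h.nu_mem c)) (mul_mem (hw'D c) (hy c).1)))
        · rw [← sub_nonneg, ← one_sub_mul]
          exact mul_nonneg_of_commute (sub_nonneg.mpr hwc1)
            (mul_nonneg_of_commute (hdiff c).2 (hy c).2 (T.D_comm _ (hdiff c).1 _ (hy c).1))
            (T.D_comm _ (sub_mem (one_mem _) (hwD c)) _ (mul_mem (hdiff c).1 (hy c).1))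
      rw [mul_smul_comm, smul_mul_assoc] at h1
      refine h1.trans ?_
      rw [heedef, ← smul_add]
      exact smul_le_smul_of_nonneg_left h2 two_pos.le
    have h14 : (0 : 𝔄) ≤ 1 + (4 : ℝ) • ν c :=
      add_nonneg zero_le_one (smul_nonneg (by norm_num) (h.nu_nonneg c))
    have hk : (1 + (4 : ℝ) • ν c) ∈ T.D := add_mem (one_mem _) (T.smul_mem_D _ (h.nu_mem c))
    have hsub : w c - (2 : ℝ) • (w c * ν c)
        ≤ w c - w c * T.quad ρ R w c * w c + ee := by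
      rw [sub_add_eq_add_sub, le_sub_iff_add_le]
      calc w c - (2 : ℝ) • (w c * ν c) + w c * T.quad ρ R w c * w c
          ≤ w c - (2 : ℝ) • (w c * ν c) + ((2 : ℝ) • (w c * ν c) + ee) :=
            add_le_add le_rfl hbound
        _ = w c + ee := by abel
    have hprod := mul_nonneg_of_commute h14 (sub_nonneg.mpr hsub) (T.D_comm _ hk _
      (sub_mem (add_mem (sub_mem (hwD c) (mul_mem (mul_mem (hwD c) hquadD) (hwD c)))
        (T.smul_mem_D _ (mul_mem (hdiff c).1 (hy c).1)))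
        (sub_mem (hwD c) (T.smul_mem_D _ (mul_mem (hwD c) (h.nu_mem c))))))
    rw [mul_sub, sub_nonneg] at hprod
    refine le_trans ?_ hprod
    have e3 : (1 + (4 : ℝ) • ν c) * (w c - (2 : ℝ) • (w c * ν c)) - w c
        = (8 : ℝ) • (w c * ν c * ((1 / 4 : ℝ) • (1 : 𝔄) - ν c)) := by
      have hc := T.D_comm _ (h.nu_mem c) _ (hwD c)
      simp only [add_mul, mul_sub, one_mul, smul_mul_assoc, mul_smul_comm, smul_smul,
        smul_sub, mul_one, ← mul_assoc, hc]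
      module
    rw [← sub_nonneg, e3]
    exact smul_nonneg (by norm_num) (mul_nonneg_of_commute
      (mul_nonneg_of_commute (hw0 c) (h.nu_nonneg c) (T.D_comm _ (hwD c) _ (h.nu_mem c)))
      (sub_nonneg.mpr (h.nu_small c))
      (T.D_comm _ (mul_mem (hwD c) (h.nu_mem c)) _
        (sub_mem (T.smul_mem_D _ (one_mem _)) (h.nu_mem c))))

end TraceData

end Vale.Agent.P078
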